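import Vale.Agent.P165.Quot.ProbBasic

/-!
The connection inequality for sums of powers: a set of seeds passes on the sum of `t`-th powers.
-/

open Finset
open scoped ENNReal

namespace Vale.Agent.P165.Tree

open Vale.Agent.P165.Quot

variable {W : Type*} [DecidableEq W] {H : SimpleGraph W} {p : ℝ}

/-- A connection inside `E` only sees the edges of the coordinate set that lie in `E`. -/
lemma pr_connTo_inPart (V : Finset (Sym2 W)) (E : Set (Sym2 W)) (x : W) (T : Set W) :
    pr p V (connTo E x T) = pr p (inPart E V) (connTo Set.univ x T) := by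
  rw [← pr_marginal p (inPart_subset E V) (connTo Set.univ x T)]
  refine pr_congr fun S hS => ?_
  have : inPart Set.univ (S ∩ inPart E V) = inPart E S := by
    ext e
    simp only [mem_inPart, mem_inter, Set.mem_univ, and_true]
    exact ⟨fun h => ⟨h.1, h.2.2⟩, fun h => ⟨h.1, hS h.1, h.2⟩⟩
  simp [connTo, this]

/-- The tangent line of a concave power. -/
lemma rpow_le_tangent {a z t : ℝ} (ha : 0 < a) (hz : 0 ≤ z) (ht0 : 0 ≤ t) (ht1 : t ≤ 1) :
    z ^ t ≤ t * z * a ^ (t - 1) + (1 - t) * a ^ t := by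
  have h := Real.geom_mean_le_arith_mean2_weighted ht0 (sub_nonneg.2 ht1) hz ha.le
    (by ring : t + (1 - t) = 1)
  have h' := mul_le_mul_of_nonneg_right h (Real.rpow_nonneg ha.le (t - 1))
  rw [mul_assoc, ← Real.rpow_add ha, show 1 - t + (t - 1) = 0 by ring, Real.rpow_zero, mul_one,
    add_mul, mul_assoc (1 - t)] at h'
  have e : a * a ^ (t - 1) = a ^ t := by
    nth_rewrite 1 [← Real.rpow_one a]
    rw [← Real.rpow_add ha, show (1 : ℝ) + (t - 1) = t by ring]
  rwa [e] at h'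

/-- The inequality for sums of powers inside one finite set of edges. -/
lemma pr_rpow_mul_le_sum {ι : Type*} (h0 : 0 ≤ p) (h1 : p ≤ 1) {t : ℝ} (ht0 : 0 < t)
    (ht1 : t ≤ 1) (U : Finset (Sym2 W)) (x : W) (B : Finset W) (s : Finset ι) (T : ι → Set W)
    {c : ℝ} (hc : ∀ u ∈ B, c ≤ ∑ i ∈ s, pr p U (connTo Set.univ u (T i)) ^ t) :
    pr p U (connTo Set.univ x (↑B : Set W)) ^ t * c ≤
      ∑ i ∈ s, pr p U (connTo Set.univ x (T i)) ^ t := by
  classical
  have hn : ∀ A, 0 ≤ pr p U A := fun A => pr_nonneg h0 h1 U A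
  set a := pr p U (connTo Set.univ x (↑B : Set W)) with ha
  rcases (hn (connTo Set.univ x (↑B : Set W))).eq_or_lt' with hz | hpos
  · rw [ha, hz, Real.zero_rpow ht0.ne', zero_mul]
    exact sum_nonneg fun i _ => Real.rpow_nonneg (hn _) _
  set f : ι → ℝ := fun i => pr p U (connTo Set.univ x (T i)) with hf
  have hlim : Filter.Tendsto (fun ε => ∑ i ∈ s, (f i + ε) ^ t) (nhdsWithin 0 (Set.Ioi (0 : ℝ)))
      (nhds (∑ i ∈ s, f i ^ t)) := by
    have : Continuous fun ε : ℝ => ∑ i ∈ s, (f i + ε) ^ t :=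
      continuous_finsetSum _ fun i _ =>
        (continuous_const.add continuous_id).rpow_const fun _ => .inr ht0.le
    simpa using (this.tendsto 0).mono_left nhdsWithin_le_nhds
  refine ge_of_tendsto hlim (eventually_nhdsWithin_of_forall fun ε (hε : 0 < ε) => ?_)
  set S := ∑ i ∈ s, (f i + ε) ^ t with hS
  set w : ι → ℝ := fun i => (f i + ε) ^ (t - 1) with hw
  have hfε : ∀ i, 0 < f i + ε := fun i => add_pos_of_nonneg_of_pos (hn _) hε
  have hw0 : ∀ i, 0 ≤ w i := fun i => Real.rpow_nonneg (hfε i).le _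
  let F : Set W → ℝ := fun C => ∑ i ∈ s, w i * P151.Fin.ind (∃ y ∈ T i, y ∈ C)
  have hFm : Monotone F := fun C C' hC => sum_le_sum fun i _ =>
    mul_le_mul_of_nonneg_left (P151.Fin.ind_mono fun ⟨y, hy, h⟩ => ⟨y, hy, hC h⟩) (hw0 i)
  have hev : ∀ u, P151.Fin.ev (fun _ => p) U (fun R => F (cl {u} R)) =
      ∑ i ∈ s, w i * pr p U (connTo Set.univ u (T i)) := by
    intro u
    rw [P151.Fin.ev_sum]
    refine sum_congr rfl fun i _ => ?_
    rw [P151.Fin.ev_mul_left]
    congr 1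
    refine (P151.Fin.pr_eq_uniform p _).trans (pr_congr fun R _ => ?_)
    have : inPart Set.univ R = R := by ext e; simp [mem_inPart]
    simp [connTo, this]
  set m := (a ^ t * c - (1 - t) * S) / (t * a) with hm
  have hB : ∀ u ∈ B, m ≤ P151.Fin.ev (fun _ => p) U fun R => F (cl {u} R) := by
    intro u hu
    rw [hev, hm, div_le_iff₀ (mul_pos ht0 hpos)]
    have h2 := mul_le_mul_of_nonneg_left (hc u hu) (Real.rpow_nonneg hpos.le t)
    rw [mul_sum] at h2
    have h3 : ∀ i ∈ s, a ^ t * pr p U (connTo Set.univ u (T i)) ^ t ≤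
        (w i * pr p U (connTo Set.univ u (T i))) * (t * a) + (1 - t) * (f i + ε) ^ t := by
      intro i _
      rw [← Real.mul_rpow hpos.le (hn _)]
      refine (rpow_le_tangent (hfε i) (mul_nonneg hpos.le (hn _)) ht0.le ht1).trans (le_of_eq ?_)
      simp only [hw]
      ring
    have h4 := h2.trans (sum_le_sum h3)
    rw [sum_add_distrib, ← sum_mul, ← mul_sum] at h4
    linarith
  have hKN := P151.KN.connection_fun_of_le_one (U := U) (fun _ => h0) (fun _ => h1) x (B := B)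
    hFm hB
  have hF0 : ∀ C, 0 ≤ F C := fun C => sum_nonneg fun i _ =>
    mul_nonneg (hw0 i) (P151.Fin.ind_nonneg _)
  have hR := hKN.trans (P151.Fin.ev_mono (fun _ => h0) (fun _ => h1)
    (g := fun R => F (cl {x} R)) fun R _ =>
      mul_le_of_le_one_left (hF0 _) (P151.Fin.ind_le_one _))
  have hlhs : P151.Fin.pr (fun _ => p) U (fun R => x ∈ cl (↑B : Set W) R) = a := by
    rw [P151.Fin.pr_eq_uniform, ha]
    refine pr_congr fun R _ => ?_
    have : inPart Set.univ R = R := by ext e; simp [mem_inPart]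
    simp only [connTo, this]
    exact ⟨fun ⟨u, hu, hr⟩ => ⟨u, hu, mem_cl_single.2 hr.symm⟩,
      fun ⟨u, hu, hr⟩ => ⟨u, hu, (mem_cl_single.1 hr).symm⟩⟩
  rw [hlhs, hev] at hR
  have hsum : ∑ i ∈ s, w i * f i ≤ S := sum_le_sum fun i _ => by
    calc w i * f i ≤ w i * (f i + ε) := mul_le_mul_of_nonneg_left (by linarith) (hw0 i)
      _ = (f i + ε) ^ (t - 1) * (f i + ε) ^ (1 : ℝ) := by rw [Real.rpow_one]
      _ = (f i + ε) ^ t := by rw [← Real.rpow_add (hfε i), show t - 1 + 1 = t by ring]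
  have hm' : a * m * t = a ^ t * c - (1 - t) * S := by
    have ha0 : a ≠ 0 := hpos.ne'
    rw [hm]
    field_simp
  have h5 := mul_le_mul_of_nonneg_right (hR.trans hsum) ht0.le
  rw [hm'] at h5
  show a ^ t * c ≤ S
  linarith

/-- A power of a probability as a supremum. -/
lemma prob_rpow_eq {t : ℝ} (ht : 0 < t) (A : Finset (Sym2 W) → Prop) :
    prob H p A ^ t =
      ⨆ V : {V : Finset (Sym2 W) // ↑V ⊆ H.edgeSet}, ENNReal.ofReal (pr p V.1 A) ^ t := by
  have := (ENNReal.orderIsoRpow t ht).map_iSup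
    fun V : {V : Finset (Sym2 W) // ↑V ⊆ H.edgeSet} => ENNReal.ofReal (pr p V.1 A)
  simp only [ENNReal.orderIsoRpow_apply] at this
  rw [← this, prob, iSup_subtype']

/-- If every point of `B` has sum of `t`-th powers at least `c` towards the targets, then `x` has
at least `c` times the `t`-th power of its probability of meeting `B`. -/
theorem prob_rpow_mul_le_tsum {ι : Type*} (h0 : 0 ≤ p) (h1 : p ≤ 1) {t : ℝ} (ht0 : 0 < t)
    (ht1 : t ≤ 1) (E : Set (Sym2 W)) (x : W) (B : Set W) (T : ι → Set W) {c : ℝ≥0∞}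
    (hc : ∀ u ∈ B, c ≤ ∑' i, prob H p (connTo E u (T i)) ^ t) :
    prob H p (connTo E x B) ^ t * c ≤ ∑' i, prob H p (connTo E x (T i)) ^ t := by
  classical
  rw [prob_rpow_eq ht0, ENNReal.iSup_mul]
  refine iSup_le fun V => le_of_not_gt fun hlt => ?_
  set R := ∑' i, prob H p (connTo E x (T i)) ^ t with hR
  set a := pr p V.1 (connTo E x B) with ha
  have hn : ∀ (V : Finset (Sym2 W)) (A : Finset (Sym2 W) → Prop), 0 ≤ pr p V A := fun V A => pr_nonneg h0 h1 V A
  have hA : ENNReal.ofReal a ^ t ≠ ⊤ :=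
    ENNReal.rpow_ne_top_of_nonneg ht0.le ENNReal.ofReal_ne_top
  have hA0 : ENNReal.ofReal a ^ t ≠ 0 := fun h => by simp [h] at hlt
  obtain ⟨c', hc1, hc2⟩ := exists_between
    ((ENNReal.div_lt_iff (.inl hA0) (.inl hA)).2 (by rwa [mul_comm]))
  have hc'top : c' ≠ ⊤ := ne_top_of_lt hc2
  let Bf : Finset W := (reachable V.1 x).filter fun u => u ∈ B
  have hu : ∀ u : Bf, ∃ (s : Finset ι) (U : Finset (Sym2 W)), ↑U ⊆ H.edgeSet ∧
      c'.toReal ≤ ∑ i ∈ s, pr p U (connTo E u.1 (T i)) ^ t := by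
    intro u
    have h2 := hc2.trans_le (hc u.1 (mem_filter.1 u.2).2)
    rw [ENNReal.tsum_eq_iSup_sum] at h2
    obtain ⟨s, hs⟩ := lt_iSup_iff.1 h2
    simp only [prob_rpow_eq ht0] at hs
    obtain ⟨f, hf⟩ : ∃ f : ι → {V : Finset (Sym2 W) // ↑V ⊆ H.edgeSet},
        c' < ∑ i ∈ s, ENNReal.ofReal (pr p (f i).1 (connTo E u.1 (T i))) ^ t := by
      by_contra hno
      push Not at hno
      exact not_le.2 hs (sum_iSup_le s _ hno)
    refine ⟨s, s.biUnion fun i => (f i).1, ?_, ?_⟩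
    · intro e he
      obtain ⟨i, -, hi⟩ := mem_biUnion.1 (Finset.mem_coe.1 he)
      exact (f i).2 hi
    · refine ENNReal.toReal_le_of_le_ofReal (sum_nonneg fun i _ => Real.rpow_nonneg (hn _ _) _)
        (hf.le.trans ?_)
      rw [ENNReal.ofReal_sum_of_nonneg fun i _ => Real.rpow_nonneg (hn _ _) _]
      refine sum_le_sum fun i hi => ?_
      rw [← ENNReal.ofReal_rpow_of_nonneg (hn _ _) ht0.le]
      exact ENNReal.rpow_le_rpow (ENNReal.ofReal_le_ofReal (pr_mono_set h0 h1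
        (subset_biUnion_of_mem (fun i => (f i).1) hi) (incr_connTo _ _ _))) ht0.le
  choose s U hUE hUs using hu
  let s' : Finset ι := Bf.attach.biUnion s
  let V₁ : Finset (Sym2 W) := V.1 ∪ Bf.attach.biUnion U
  have hV₁ : ↑V₁ ⊆ H.edgeSet := by
    intro e he
    rcases mem_union.1 (Finset.mem_coe.1 he) with he | he
    · exact V.2 he
    · obtain ⟨u, -, hu⟩ := mem_biUnion.1 he
      exact hUE u hu
  have key := pr_rpow_mul_le_sum h0 h1 ht0 ht1 (inPart E V₁) x Bf s' T (c := c'.toReal) (by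
    intro u hu
    simp only [← pr_connTo_inPart]
    refine (hUs ⟨u, hu⟩).trans ?_
    refine le_trans (sum_le_sum fun i _ => Real.rpow_le_rpow (hn _ _) (pr_mono_set (U := V₁) h0 h1
      ((subset_biUnion_of_mem U (mem_attach _ ⟨u, hu⟩)).trans subset_union_right)
      (incr_connTo _ _ _)) ht0.le) ?_
    exact sum_le_sum_of_subset_of_nonneg (subset_biUnion_of_mem s (mem_attach _ ⟨u, hu⟩))
      fun i _ _ => Real.rpow_nonneg (hn _ _) _)
  simp only [← pr_connTo_inPart] at key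
  have hge : a ≤ pr p V₁ (connTo E x (↑Bf : Set W)) := by
    rw [ha]
    refine le_trans (pr_mono h0 h1 ?_) (pr_mono_set h0 h1 subset_union_left (incr_connTo _ _ _))
    rintro S hS ⟨u, hu, huc⟩
    exact ⟨u, Finset.mem_coe.2
      (mem_filter.2 ⟨mem_reachable ((inPart_subset E S).trans hS) huc, hu⟩), huc⟩
  have h6 := ENNReal.ofReal_le_ofReal ((mul_le_mul_of_nonneg_right
    (Real.rpow_le_rpow (hn V.1 (connTo E x B)) hge ht0.le) ENNReal.toReal_nonneg).trans key)
  rw [ENNReal.ofReal_mul (Real.rpow_nonneg (hn _ _) _), ENNReal.ofReal_toReal hc'top,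
    ← ENNReal.ofReal_rpow_of_nonneg (hn _ _) ht0.le,
    ENNReal.ofReal_sum_of_nonneg fun i _ => Real.rpow_nonneg (hn _ _) _] at h6
  have h7 : ENNReal.ofReal a ^ t * c' ≤ R := by
    refine h6.trans (le_trans (sum_le_sum fun i _ => ?_) (ENNReal.sum_le_tsum s'))
    rw [← ENNReal.ofReal_rpow_of_nonneg (hn _ _) ht0.le]
    exact ENNReal.rpow_le_rpow (ofReal_pr_le_prob hV₁ _) ht0.le
  rw [ENNReal.div_lt_iff (.inl hA0) (.inl hA), mul_comm] at hc1
  exact absurd h7 (not_le.2 hc1)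

end Vale.Agent.P165.Tree
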