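import Vale.Agent.P165.Quot.ProbBasic
import Vale.Agent.P165.SharpCor

/-!
Below the threshold clusters have exponential tails: exploring from a set with criterion below one
bounds the generating function of the cluster size.
-/

open Finset
open scoped ENNReal

namespace Vale.Agent.P165.Tree

open Vale.Agent.P165.Quot

variable {W : Type*}

lemma cl_finite (X : Finset W) (T : Finset (Sym2 W)) : (cl (↑X : Set W) T).Finite := by
  classical
  refine (X ∪ T.biUnion fun a => a.toFinset).finite_toSet.subset (cl_subset ?_ fun a b _ hab => ?_)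
  · simp
  · exact Finset.mem_coe.2 (mem_union_right _ (mem_biUnion.2
      ⟨_, hab, Sym2.mem_toFinset.2 (Sym2.mem_mk_right a b)⟩))

variable [DecidableEq W] {H : SimpleGraph W}

/-- The generating function of the size of the cluster of a finite set. -/
noncomputable def gen (p z : ℝ) (U : Finset (Sym2 W)) (Y : Finset W) : ℝ :=
  P151.Fin.ev (fun _ => p) U fun T => z ^ (cl (↑Y : Set W) T).ncard

lemma ev_three {α : Type*} [DecidableEq α] {q : α → ℝ} {A E B U : Finset α} (hAE : Disjoint A E)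
    (hAB : Disjoint A B) (hEB : Disjoint E B) (hA : A ⊆ U) (hE : E ⊆ U) (hB : B ⊆ U)
    (f : Finset α → ℝ) (g : Finset α → Finset α → ℝ) :
    P151.Fin.ev q U (fun T => f (T ∩ A) * g (T ∩ E) (T ∩ B)) =
      P151.Fin.ev q A f * P151.Fin.ev q E (fun R => P151.Fin.ev q B (g R)) := by
  set U₁ := A ∪ (E ∪ B)
  have e1 : P151.Fin.ev q U (fun T => f (T ∩ A) * g (T ∩ E) (T ∩ B)) =
      P151.Fin.ev q U₁ (fun T => f (T ∩ A) * g (T ∩ E) (T ∩ B)) := by
    rw [← P151.Fin.ev_marginal (union_subset hA (union_subset hE hB))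
      (fun T => f (T ∩ A) * g (T ∩ E) (T ∩ B))]
    refine P151.Fin.ev_congr fun T _ => ?_
    simp only [inter_assoc, inter_eq_right.2 (subset_union_left : A ⊆ U₁),
      inter_eq_right.2 ((subset_union_left : E ⊆ E ∪ B).trans (subset_union_right : _ ⊆ U₁)),
      inter_eq_right.2 ((subset_union_right : B ⊆ E ∪ B).trans (subset_union_right : _ ⊆ U₁))]
  rw [e1, P151.Fin.ev_split (disjoint_union_right.2 ⟨hAE, hAB⟩)]
  have hkey : ∀ a r b : Finset α, a ⊆ A → r ⊆ E → b ⊆ B →
      (a ∪ (r ∪ b)) ∩ A = a ∧ (a ∪ (r ∪ b)) ∩ E = r ∧ (a ∪ (r ∪ b)) ∩ B = b := by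
    intro a r b ha hr hb
    rw [Finset.disjoint_left] at hAE hAB hEB
    refine ⟨?_, ?_, ?_⟩ <;> ext v <;> simp only [mem_inter, mem_union]
    · exact ⟨fun h => h.1.elim id fun h' => h'.elim (fun h' => absurd (hr h') (hAE h.2))
        fun h' => absurd (hb h') (hAB h.2), fun h => ⟨.inl h, ha h⟩⟩
    · exact ⟨fun h => h.1.elim (fun h' => absurd h.2 (hAE (ha h'))) fun h' => h'.elim id
        fun h' => absurd (hb h') (hEB h.2), fun h => ⟨.inr (.inl h), hr h⟩⟩
    · exact ⟨fun h => h.1.elim (fun h' => absurd h.2 (hAB (ha h'))) fun h' => h'.elim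
        (fun h' => absurd h.2 (hEB (hr h'))) id, fun h => ⟨.inr (.inr h), hb h⟩⟩
  rw [mul_comm (P151.Fin.ev q A f), ← P151.Fin.ev_mul_left]
  refine P151.Fin.ev_congr fun a ha => ?_
  rw [P151.Fin.ev_split hEB, mul_comm, ← P151.Fin.ev_mul_left]
  refine P151.Fin.ev_congr fun r hr => ?_
  rw [← P151.Fin.ev_mul_left]
  refine P151.Fin.ev_congr fun b hb => ?_
  obtain ⟨k1, k2, k3⟩ := hkey a r b ha hr hb
  rw [k1, k2, k3]

lemma ev_pow_card {α : Type*} [DecidableEq α] (p M : ℝ) (E : Finset α) :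
    P151.Fin.ev (fun _ => p) E (fun R => M ^ R.card) = (1 - p + p * M) ^ E.card := by
  induction E using Finset.induction_on with
  | empty => simp [P151.Fin.ev_empty]
  | insert a E ha ih =>
    rw [P151.Fin.ev_insert ha, ih, card_insert_of_notMem ha,
      P151.Fin.ev_congr (g := fun R => M * M ^ R.card) fun R hR => by
        rw [card_insert_of_notMem fun h => ha (hR h), pow_succ']]
    rw [P151.Fin.ev_mul_left, ih, pow_succ]
    ring

lemma one_add_pow_le {x : ℝ} (hx : 0 ≤ x) {n L : ℕ} (hn : n ≤ L) (hL : L * x ≤ 1) :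
    (1 + x) ^ n ≤ 1 + n * x + (L * x) ^ 2 := by
  have hnx : (n : ℝ) * x ≤ L * x := mul_le_mul_of_nonneg_right (by exact_mod_cast hn) hx
  have h0 : 0 ≤ (n : ℝ) * x := by positivity
  have h1 : (1 + x) ^ n ≤ Real.exp (n * x) := by
    rw [Real.exp_nat_mul]
    exact pow_le_pow_left₀ (by linarith) (by linarith [Real.add_one_le_exp x]) n
  have h2 := (abs_le.1 (Real.abs_exp_sub_one_sub_id_le (x := n * x)
    (by rw [abs_of_nonneg h0]; linarith))).2
  nlinarith

variable [H.LocallyFinite]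

variable (H) in
/-- The edges of `U` leaving `S` from `C`. -/
noncomputable def exits (U : Finset (Sym2 W)) (S C : Finset W) : Finset (Sym2 W) :=
  U ∩ ((outPairs H S).filter fun e => e.1 ∈ C).image fun e => s(e.1, e.2)

variable (H) in
/-- The far ends of some of the edges leaving `S` from `C`. -/
noncomputable def heads (R : Finset (Sym2 W)) (S C : Finset W) : Finset W :=
  ((outPairs H S).filter fun e => e.1 ∈ C ∧ s(e.1, e.2) ∈ R).image Prod.snd

lemma card_heads_le (R : Finset (Sym2 W)) (S C : Finset W) : (heads H R S C).card ≤ R.card := by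
  refine card_image_le.trans (card_le_card_of_injOn (fun e => s(e.1, e.2))
    (fun e he => (mem_filter.1 he).2.2) ?_)
  rintro ⟨a, b⟩ he ⟨a', b'⟩ he' h
  obtain ⟨-, ha, hb⟩ := mem_outPairs.1 (mem_filter.1 (Finset.mem_coe.1 he)).1
  obtain ⟨-, ha', hb'⟩ := mem_outPairs.1 (mem_filter.1 (Finset.mem_coe.1 he')).1
  rcases Sym2.eq_iff.1 h with ⟨h1, h2⟩ | ⟨h1, h2⟩
  · exact Prod.ext h1 h2
  · exact absurd (show a ∈ S from ha) (by rw [show a = b' from h1]; exact hb')

/-- The law of the cluster of `y` inside `S`. -/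
noncomputable def clusterLaw (p : ℝ) (J : Finset (Sym2 W)) (y : W) (C : Finset W) : ℝ :=
  pr p (edgesMeet C J) fun T => cl {y} T = (↑C : Set W)

/-- Exploring the cluster of `y` inside `S` first. -/
lemma gen_insert_le {p M z : ℝ} (h0 : 0 ≤ p) (h1 : p ≤ 1) (hM : 1 ≤ M) (hz : 1 ≤ z) {N : ℕ}
    {U : Finset (Sym2 W)} (hU : ↑U ⊆ H.edgeSet) {S : Finset W} {y : W} (hy : y ∈ S)
    (hN : S.card ≤ N) (Y : Finset W)
    (ih : ∀ C, C ⊆ S → ∀ R, R ⊆ exits H U S C →
      gen p z (edgesAvoid C U) (Y ∪ heads H R S C) ≤ M ^ (Y ∪ heads H R S C).card) :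
    gen p z U (insert y Y) ≤ z ^ N * M ^ Y.card *
      ∑ C ∈ S.powerset, clusterLaw p (U ∩ inEdges H S) y C *
        (1 - p + p * M) ^ (exits H U S C).card := by
  classical
  set J := U ∩ inEdges H S with hJ
  have hp0 : ∀ _ : Sym2 W, 0 ≤ p := fun _ => h0
  have hp1 : ∀ _ : Sym2 W, p ≤ 1 := fun _ => h1
  have hz0 : 0 ≤ z := zero_le_one.trans hz
  have hM0 : 0 ≤ M := zero_le_one.trans hM
  let rest : Finset W → Finset (Sym2 W) → Finset (Sym2 W) → ℝ := fun C R T =>
    z ^ N * z ^ (cl (↑(Y ∪ heads H R S C) : Set W) T).ncard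
  have hpt : ∀ T, T ⊆ U → z ^ (cl (↑(insert y Y) : Set W) T).ncard ≤
      ∑ C ∈ S.powerset, P151.Fin.ind (cl {y} (T ∩ edgesMeet C J) = (↑C : Set W)) *
        rest C (T ∩ exits H U S C) (T ∩ edgesAvoid C U) := by
    intro T hT
    set C := S.filter fun w => w ∈ cl {y} (T ∩ J)
    have hJS : cl {y} (T ∩ J) ⊆ (↑S : Set W) :=
      cl_subset (by simpa using hy) fun a w _ haw =>
        (mem_inEdges.1 (mem_inter.1 (mem_inter.1 haw).2).2).2.2
    have hC : ∀ {w}, w ∈ C ↔ w ∈ cl {y} (T ∩ J) := fun {w} =>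
      ⟨fun h => (mem_filter.1 h).2, fun h => mem_filter.2 ⟨hJS h, h⟩⟩
    have hyC : y ∈ C := hC.2 (subset_cl _ _ rfl)
    have hCC : cl {y} (T ∩ edgesMeet C J) = (↑C : Set W) := by
      refine subset_antisymm (fun w hw => hC.2 (cl_mono subset_rfl (inter_subset_inter subset_rfl
        (filter_subset _ _)) hw)) fun w hw => ?_
      have : cl {y} (T ∩ J) ⊆ cl {y} (T ∩ edgesMeet C J) ∩ (↑C : Set W) := by
        refine cl_subset (Set.singleton_subset_iff.2 ⟨subset_cl _ _ rfl, hyC⟩) ?_
        intro a u ⟨ha, haC⟩ hau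
        refine ⟨cl_step ha (mem_inter.2 ⟨(mem_inter.1 hau).1, mem_filter.2 ⟨(mem_inter.1 hau).2,
          a, haC, Sym2.mem_mk_left a u⟩⟩), hC.2 (cl_step (hC.1 haC) hau)⟩
      exact (this (hC.1 hw)).1
    set R := T ∩ exits H U S C
    set Z : Set W := (↑C : Set W) ∪ cl (↑(Y ∪ heads H R S C) : Set W) (T ∩ edgesAvoid C U)
    have hsub : cl (↑(insert y Y) : Set W) T ⊆ Z := by
      refine cl_subset ?_ ?_
      · intro w hw
        rcases mem_insert.1 (Finset.mem_coe.1 hw) with rfl | hw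
        · exact Or.inl hyC
        · exact Or.inr (subset_cl _ _ (Finset.mem_coe.2 (mem_union_left _ hw)))
      · intro a w ha haw
        by_cases hwC : w ∈ C
        · exact Or.inl hwC
        by_cases haC : a ∈ C
        · have hadj : H.Adj a w := hU (Finset.mem_coe.2 (hT haw))
          have haS : a ∈ S := (mem_filter.1 haC).1
          by_cases hwS : w ∈ S
          · exact absurd (hC.2 (cl_step (hC.1 haC) (mem_inter.2
              ⟨haw, mem_inter.2 ⟨hT haw, mem_inEdges.2 ⟨hadj, haS, hwS⟩⟩⟩))) hwC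
          · have hp : (a, w) ∈ outPairs H S := mem_outPairs.2 ⟨hadj, haS, hwS⟩
            refine Or.inr (subset_cl _ _ (Finset.mem_coe.2 (mem_union_right _ (mem_image.2
              ⟨(a, w), mem_filter.2 ⟨hp, haC, mem_inter.2 ⟨haw, mem_inter.2 ⟨hT haw,
                mem_image.2 ⟨(a, w), mem_filter.2 ⟨hp, haC⟩, rfl⟩⟩⟩⟩, rfl⟩))))
        · rcases ha with ha | ha
          · exact absurd ha haC
          · refine Or.inr (cl_step ha (mem_inter.2 ⟨haw, mem_filter.2
              ⟨hT haw, fun c hc hmem => ?_⟩⟩))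
            rcases Sym2.mem_iff.1 hmem with rfl | rfl
            · exact haC hc
            · exact hwC hc
    refine le_trans ?_ (single_le_sum (fun C _ => mul_nonneg (P151.Fin.ind_nonneg _)
      (mul_nonneg (pow_nonneg hz0 _) (pow_nonneg hz0 _)))
      (mem_powerset.2 (filter_subset _ S : C ⊆ S)))
    rw [P151.Fin.ind_true hCC, one_mul]
    show _ ≤ z ^ N * z ^ (cl (↑(Y ∪ heads H R S C) : Set W) (T ∩ edgesAvoid C U)).ncard
    rw [← pow_add]
    refine pow_le_pow_right₀ hz ((Set.ncard_le_ncard hsub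
      (C.finite_toSet.union (cl_finite _ _))).trans ((Set.ncard_union_le _ _).trans ?_))
    rw [Set.ncard_coe_finset]
    exact Nat.add_le_add_right ((card_le_card (filter_subset _ S)).trans hN) _
  refine (P151.Fin.ev_mono hp0 hp1 hpt).trans ?_
  rw [P151.Fin.ev_sum, mul_sum]
  refine sum_le_sum fun C hC => ?_
  rw [mem_powerset] at hC
  have hd1 : Disjoint (edgesMeet C J) (exits H U S C) := by
    rw [Finset.disjoint_left]
    intro a ha he
    obtain ⟨⟨u, w⟩, hp, rfl⟩ := mem_image.1 (mem_inter.1 he).2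
    exact (mem_outPairs.1 (mem_filter.1 hp).1).2.2
      (mem_inEdges.1 (mem_inter.1 (mem_filter.1 ha).1).2).2.2
  have hd2 : Disjoint (edgesMeet C J) (edgesAvoid C U) := by
    rw [Finset.disjoint_left]
    intro a ha hb
    obtain ⟨-, c, hc, hca⟩ := mem_filter.1 ha
    exact (mem_filter.1 hb).2 c hc hca
  have hd3 : Disjoint (exits H U S C) (edgesAvoid C U) := by
    rw [Finset.disjoint_left]
    intro a ha hb
    obtain ⟨⟨u, w⟩, hp, rfl⟩ := mem_image.1 (mem_inter.1 ha).2
    exact (mem_filter.1 hb).2 u (mem_filter.1 hp).2 (Sym2.mem_mk_left u w)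
  rw [ev_three hd1 hd2 hd3 ((filter_subset _ _).trans inter_subset_left) inter_subset_left
      (filter_subset _ _) (fun T => P151.Fin.ind (cl {y} T = (↑C : Set W))) (rest C),
    show P151.Fin.ev (fun _ => p) (edgesMeet C J)
      (fun T => P151.Fin.ind (cl {y} T = (↑C : Set W))) = clusterLaw p J y C from
      P151.Fin.pr_eq_uniform p _]
  rw [show z ^ N * M ^ Y.card * (clusterLaw p J y C * (1 - p + p * M) ^ (exits H U S C).card) =
    clusterLaw p J y C * (z ^ N * M ^ Y.card * (1 - p + p * M) ^ (exits H U S C).card) by ring]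
  refine mul_le_mul_of_nonneg_left ?_ (pr_nonneg h0 h1 _ _)
  rw [← ev_pow_card p M, ← P151.Fin.ev_mul_left]
  refine P151.Fin.ev_mono hp0 hp1 fun R hR => ?_
  refine (le_of_eq (P151.Fin.ev_mul_left _ _)).trans ?_
  rw [mul_assoc (z ^ N)]
  refine mul_le_mul_of_nonneg_left ((ih C hC R hR).trans ?_) (pow_nonneg hz0 N)
  rw [← pow_add]
  exact pow_le_pow_right₀ hM ((card_union_le _ _).trans
    (Nat.add_le_add_left (card_heads_le R S C) _))

/-- The generating function of the exits is small when the criterion is small. -/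
lemma sum_clusterLaw_le {p c δ : ℝ} (h0 : 0 ≤ p) (h1 : p ≤ 1) (hδ : 0 ≤ δ) {L : ℕ}
    (hLδ : L * δ ≤ 1) {S : Finset W} (hS : (outPairs H S).card ≤ L) {y : W}
    (hphi : phiS H p y S ≤ c) (U : Finset (Sym2 W)) :
    ∑ C ∈ S.powerset, clusterLaw p (U ∩ inEdges H S) y C *
      (1 - p + p * (1 + δ)) ^ (exits H U S C).card ≤ 1 + δ * c + (L * δ) ^ 2 := by
  classical
  set J := U ∩ inEdges H S
  set o : Finset W → Finset (W × W) := fun C => (outPairs H S).filter fun e => e.1 ∈ C
  have hlaw : ∀ C, clusterLaw p J y C =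
      pr p J (fun T => cl {y} (T ∩ edgesMeet C J) = (↑C : Set W)) := fun C =>
    (pr_marginal p (filter_subset _ _) _).symm
  have hfull : ∀ (C : Finset W) (T : Finset (Sym2 W)), T ⊆ J →
      cl {y} (T ∩ edgesMeet C J) = (↑C : Set W) → cl {y} T = (↑C : Set W) := fun C T hT h => by
    refine subset_antisymm ?_ (h ▸ cl_mono subset_rfl inter_subset_left)
    refine cl_subset (h ▸ subset_cl _ _) fun a b ha hab => h ▸ cl_step (h.symm ▸ ha) ?_
    exact mem_inter.2 ⟨hab, mem_filter.2 ⟨hT hab, a, ha, Sym2.mem_mk_left a b⟩⟩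
  have hdis : ∀ C D : Finset W, ∀ T, T ⊆ J → cl {y} (T ∩ edgesMeet C J) = (↑C : Set W) →
      cl {y} (T ∩ edgesMeet D J) = (↑D : Set W) → C = D := fun C D T hT h h' =>
    Finset.coe_injective ((hfull C T hT h).symm.trans (hfull D T hT h'))
  have hone : ∑ C ∈ S.powerset, clusterLaw p J y C ≤ 1 := by
    simp only [hlaw]
    exact (sum_pr_le h0 h1 _ _ (fun _ _ _ _ _ => trivial)
      fun C _ D _ T hT => hdis C D T hT).trans_eq (pr_true p J)
  have hmean : p * ∑ C ∈ S.powerset, clusterLaw p J y C * (o C).card ≤ c := by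
    refine le_trans (mul_le_mul_of_nonneg_left ?_ h0) hphi
    have e : ∀ C, clusterLaw p J y C * ((o C).card : ℝ) =
        ∑ e ∈ outPairs H S, if e.1 ∈ C then clusterLaw p J y C else 0 := fun C => by
      rw [← sum_filter, sum_const, nsmul_eq_mul, mul_comm]
    simp only [e]
    rw [sum_comm]
    refine sum_le_sum fun e _ => ?_
    rw [← sum_filter]
    simp only [hlaw]
    refine (sum_pr_le h0 h1 _ _ (fun C hC T hT h => ?_) fun C _ D _ T hT => hdis C D T hT).trans
      (pr_mono_set h0 h1 inter_subset_right fun S T hST h => cl_mono subset_rfl hST h)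
    exact cl_mono subset_rfl inter_subset_left (h.symm ▸ Finset.mem_coe.2 (mem_filter.1 hC).2)
  have hterm : ∀ C ∈ S.powerset, clusterLaw p J y C *
      (1 - p + p * (1 + δ)) ^ (exits H U S C).card ≤
        clusterLaw p J y C + δ * (p * (clusterLaw p J y C * (o C).card)) +
          clusterLaw p J y C * (L * δ) ^ 2 := by
    intro C _
    have hP : 0 ≤ clusterLaw p J y C := pr_nonneg h0 h1 _ _
    have hn : (exits H U S C).card ≤ (o C).card :=
      (card_le_card inter_subset_right).trans card_image_le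
    have hoL : (o C).card ≤ L := (card_le_card (filter_subset _ _)).trans hS
    have hpδ : p * δ ≤ δ := mul_le_of_le_one_left hδ h1
    have hb := one_add_pow_le (mul_nonneg h0 hδ) hoL
      ((mul_le_mul_of_nonneg_left hpδ L.cast_nonneg).trans hLδ)
    have hsq : ((L : ℝ) * (p * δ)) ^ 2 ≤ (L * δ) ^ 2 :=
      pow_le_pow_left₀ (by positivity) (mul_le_mul_of_nonneg_left hpδ L.cast_nonneg) 2
    have hb' : (1 - p + p * (1 + δ)) ^ (exits H U S C).card ≤
        1 + ((o C).card : ℝ) * (p * δ) + ((L : ℝ) * δ) ^ 2 := by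
      rw [show 1 - p + p * (1 + δ) = 1 + p * δ by ring]
      exact (pow_le_pow_right₀ (by nlinarith) hn).trans (hb.trans (by linarith))
    refine (mul_le_mul_of_nonneg_left hb' hP).trans (le_of_eq ?_)
    ring
  refine (sum_le_sum hterm).trans ?_
  rw [sum_add_distrib, sum_add_distrib, ← sum_mul, ← mul_sum, ← mul_sum]
  have h3 := mul_le_mul_of_nonneg_left hmean hδ
  have h4 := mul_le_mul_of_nonneg_right hone (sq_nonneg ((L : ℝ) * δ))
  linarith

omit [DecidableEq W] [H.LocallyFinite] in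
lemma pc_le_one {p : ℝ} (h0 : 0 ≤ p) (hp : p < pc H) : pc H ≤ 1 := by
  have hpc : pc H = sInf {t : ℝ | ∃ q : unitInterval, (q : ℝ) = t ∧
    0 < bondMeasure H q {ω | ∃ C : (openGraph H ω).ConnectedComponent, C.supp.Infinite}} := rfl
  rcases Set.eq_empty_or_nonempty {t : ℝ | ∃ q : unitInterval, (q : ℝ) = t ∧
      0 < bondMeasure H q {ω | ∃ C : (openGraph H ω).ConnectedComponent, C.supp.Infinite}} with
    h | ⟨t, ht⟩
  · rw [hpc, h, Real.sInf_empty] at hp
    linarith
  · rw [hpc]
    refine (csInf_le ⟨0, ?_⟩ ht).trans ?_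
    · rintro _ ⟨q, rfl, -⟩
      exact q.2.1
    · obtain ⟨q, rfl, -⟩ := ht
      exact q.2.2

omit [DecidableEq W] in
lemma exists_degree_le (hQT : QuasiTransitive H) :
    ∃ d : ℕ, ∀ x, (H.neighborFinset x).card ≤ d := by
  classical
  obtain ⟨F, hF, hcov⟩ := hQT
  refine ⟨hF.toFinset.sup fun f => (H.neighborFinset f).card, fun x => ?_⟩
  obtain ⟨φ, hφ⟩ := hcov x
  refine le_trans (le_of_eq ?_) (Finset.le_sup (f := fun f => (H.neighborFinset f).card)
    (hF.mem_toFinset.2 hφ))
  refine card_nbij φ (fun y hy => ?_) φ.injective.injOn fun z hz => ?_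
  · simpa [φ.map_adj_iff] using hy
  · obtain ⟨y, rfl⟩ := φ.surjective z
    exact ⟨y, by simpa [φ.map_adj_iff] using hz, rfl⟩

/-- Below the threshold the size of a cluster has an exponential tail, uniformly in the vertex. -/
theorem exists_cluster_tail (hH : H.Connected) (hQT : QuasiTransitive H) {p : ℝ} (h0 : 0 ≤ p)
    (hp : p < pc H) :
    ∃ M r : ℝ, 0 ≤ M ∧ 0 ≤ r ∧ r < 1 ∧ ∀ (x : W) (K : ℕ),
      prob H p (manyIn Set.univ x Set.univ K) ≤ ENNReal.ofReal (M * r ^ K) := by
  classical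
  have h1 : p ≤ 1 := hp.le.trans (pc_le_one h0 hp)
  obtain ⟨c, N, hc, hphi⟩ := exists_uniform_phiS_lt hH hQT h0 hp
  choose S hyS hN hS using hphi
  obtain ⟨d, hd⟩ := exists_degree_le (H := H) hQT
  set L : ℕ := N * d
  have hL : ∀ v, (outPairs H (S v)).card ≤ L := fun v => by
    refine card_biUnion_le.trans ((sum_le_card_nsmul _ _ d fun x _ => ?_).trans ?_)
    · exact card_image_le.trans ((card_le_card sdiff_subset).trans (hd x))
    · rw [smul_eq_mul]
      exact Nat.mul_le_mul_right d (hN v)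
  set δ : ℝ := min (1 / (L + 1)) ((1 - c) / (2 * (L + 1) ^ 2)) with hδdef
  have hc' : 0 < 1 - c := by linarith
  have hδ : 0 < δ := lt_min (by positivity) (by positivity)
  have hδ1 : (L : ℝ) * δ ≤ 1 := by
    refine (mul_le_mul_of_nonneg_left (min_le_left _ _) L.cast_nonneg).trans ?_
    rw [mul_one_div, div_le_one (by positivity)]
    linarith
  have hδ2 : ((L : ℝ) * δ) ^ 2 < δ * (1 - c) := by
    have h2 := min_le_right (1 / ((L : ℝ) + 1)) ((1 - c) / (2 * ((L : ℝ) + 1) ^ 2))
    rw [← hδdef, le_div_iff₀ (by positivity)] at h2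
    nlinarith [mul_le_mul_of_nonneg_left h2 hδ.le, mul_pos hδ hc',
      mul_nonneg (mul_nonneg hδ.le hδ.le) (L.cast_nonneg : (0 : ℝ) ≤ L), sq_nonneg δ]
  set M : ℝ := 1 + δ
  set E : ℝ := max 1 (1 + δ * c + ((L : ℝ) * δ) ^ 2)
  have hE0 : 0 < E := lt_of_lt_of_le one_pos (le_max_left _ _)
  have hEM : E < M := max_lt (by linarith) (by linarith)
  have hlim : Filter.Tendsto (fun z : ℝ => z ^ N) (nhdsWithin 1 (Set.Ioi 1)) (nhds 1) := by
    simpa using ((continuous_pow N).tendsto (1 : ℝ)).mono_left nhdsWithin_le_nhds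
  obtain ⟨z, hzN, hz⟩ := ((hlim.eventually (eventually_lt_nhds
    ((one_lt_div hE0).2 hEM))).and self_mem_nhdsWithin).exists
  have hz1 : (1 : ℝ) < z := hz
  have hMpos : 1 ≤ M := by linarith
  have key : ∀ (n : ℕ) (Y : Finset W) (U : Finset (Sym2 W)), ↑U ⊆ H.edgeSet → U.card ≤ n →
      gen p z U Y ≤ M ^ Y.card := by
    intro n
    induction n using Nat.strong_induction_on with
    | _ n ihn =>
      intro Y
      induction Y using Finset.induction_on with
      | empty =>
        intro U _ _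
        rw [card_empty, pow_zero, gen]
        refine le_of_eq ((P151.Fin.ev_congr fun T _ => ?_).trans (P151.Fin.ev_const 1))
        have he : cl (↑(∅ : Finset W) : Set W) T = ∅ :=
          Set.subset_empty_iff.1 (cl_subset (by simp) fun _ _ h _ => h.elim)
        rw [he, Set.ncard_empty, pow_zero]
      | insert y Y hy ihY =>
        intro U hU hn
        refine (gen_insert_le h0 h1 hMpos hz1.le hU (hyS y) (hN y) Y fun C hC R hR => ?_).trans ?_
        · have hsub : edgesAvoid C U ⊆ U := filter_subset _ _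
          have hU' : ↑(edgesAvoid C U) ⊆ H.edgeSet := (Finset.coe_subset.2 hsub).trans hU
          rcases R.eq_empty_or_nonempty with rfl | ⟨a, ha⟩
          · have : heads H (∅ : Finset (Sym2 W)) (S y) C = ∅ := by simp [heads]
            rw [this, union_empty]
            exact ihY _ hU' ((card_le_card hsub).trans hn)
          · obtain ⟨haU, hae⟩ := mem_inter.1 (hR ha)
            obtain ⟨⟨u, w⟩, huw, rfl⟩ := mem_image.1 hae
            have hlt : (edgesAvoid C U).card < U.card := card_lt_card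
              ⟨hsub, fun h => (mem_filter.1 (h haU)).2 u (mem_filter.1 huw).2 (Sym2.mem_mk_left u w)⟩
            exact ihn _ (hlt.trans_le hn) _ _ hU' le_rfl
        · rw [card_insert_of_notMem hy, pow_succ, mul_comm (z ^ N) (M ^ Y.card), mul_assoc]
          refine mul_le_mul_of_nonneg_left ?_ (by positivity)
          refine (mul_le_mul_of_nonneg_left ((sum_clusterLaw_le h0 h1 hδ.le hδ1 (hL y) (hS y) U).trans
            (le_max_right 1 _)) (by positivity)).trans ?_
          exact ((lt_div_iff₀ hE0).1 hzN).le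
  refine ⟨M, 1 / z, by linarith, by positivity, (div_lt_one (by linarith)).2 hz1,
    fun x K => prob_le fun U hU => ENNReal.ofReal_le_ofReal ?_⟩
  have hg := key U.card {x} U hU le_rfl
  rw [card_singleton, pow_one] at hg
  have hK : z ^ K * pr p U (manyIn Set.univ x Set.univ K) ≤ gen p z U {x} := by
    rw [← P151.Fin.pr_eq_uniform, P151.Fin.pr, ← P151.Fin.ev_mul_left]
    refine P151.Fin.ev_mono (fun _ => h0) (fun _ => h1) fun T _ => ?_
    by_cases h : manyIn Set.univ x Set.univ K T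
    · rw [P151.Fin.ind_true h, mul_one]
      obtain ⟨Y, hY, hYc⟩ := h
      refine pow_le_pow_right₀ hz1.le (hY.trans ?_)
      rw [← Set.ncard_coe_finset]
      refine Set.ncard_le_ncard (fun w hw => ?_) (cl_finite _ _)
      rw [coe_singleton]
      exact cl_mono subset_rfl (inPart_subset _ _) (hYc w hw).2
    · rw [P151.Fin.ind_false h, mul_zero]
      positivity
  rw [one_div, inv_pow, ← div_eq_mul_inv, le_div_iff₀ (by positivity), mul_comm]
  linarith

end Vale.Agent.P165.Tree
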