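import Mathlib

/-!
A Cayley graph with the left action of a finite index subgroup is free and cofinite.
-/

namespace Vale.Agent.P165.Tree

/-- The left action of a finite index subgroup on a Cayley graph of a finitely generated group. -/
theorem cayley_data {G : Type*} [Group G] (S : Finset G)
    (hS : Subgroup.closure (S : Set G) = ⊤) (Δ : Subgroup G) [Δ.FiniteIndex] :
    (∀ x, ((SimpleGraph.mulCayley (S : Set G)).neighborSet x).Finite) ∧
    (SimpleGraph.mulCayley (S : Set G)).Connected ∧
    (∀ (g : Δ) (x y : G), (SimpleGraph.mulCayley (S : Set G)).Adj (g • x) (g • y) ↔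
      (SimpleGraph.mulCayley (S : Set G)).Adj x y) ∧
    (∀ (g : Δ) (x : G), g • x = x → g = 1) ∧
    ∃ F : Set G, F.Finite ∧ ∀ x, ∃ g : Δ, g • x ∈ F := by
  classical
  refine ⟨fun x => ?_, ?_, fun g x y => ?_,
    fun g x h => Subtype.ext (by simpa [Subgroup.smul_def] using h), ?_⟩
  · refine (((S.finite_toSet).union S.finite_toSet.inv).image (x * ·)).subset fun y hy => ?_
    rw [SimpleGraph.mem_neighborSet, SimpleGraph.mulCayley_adj] at hy
    obtain ⟨-, h | h⟩ := hy
    · exact ⟨x⁻¹ * y, .inl h, mul_inv_cancel_left _ _⟩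
    · exact ⟨x⁻¹ * y, .inr (by simpa using h), mul_inv_cancel_left _ _⟩
  · have key : ∀ x : G, (SimpleGraph.mulCayley (S : Set G)).Reachable 1 x := by
      intro x
      have hx : x ∈ Subgroup.closure (S : Set G) := hS ▸ Subgroup.mem_top x
      induction hx using Subgroup.closure_induction_right with
      | one => exact .refl _
      | mul_right x hx s hs ih =>
        by_cases h : x = x * s
        · exact h ▸ ih
        · exact ih.trans (SimpleGraph.Adj.reachable ((SimpleGraph.mulCayley_adj _ _ _).2
            ⟨h, .inl (by simpa using hs)⟩))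
      | mul_inv_cancel x hx s hs ih =>
        by_cases h : x = x * s⁻¹
        · exact h ▸ ih
        · exact ih.trans (SimpleGraph.Adj.reachable ((SimpleGraph.mulCayley_adj _ _ _).2
            ⟨h, .inr (by simpa using hs)⟩))
    exact ⟨fun x y => (key x).symm.trans (key y)⟩
  · exact SimpleGraph.mulCayley_adj_mul_iff_right
  · have : Finite (Quotient (QuotientGroup.rightRel Δ)) := by
      have := Subgroup.finite_quotient_of_finiteIndex (H := Δ)
      exact Finite.of_equiv _ (QuotientGroup.quotientRightRelEquivQuotientLeftRel Δ).symm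
    let o : Quotient (QuotientGroup.rightRel Δ) → G := Quotient.out
    refine ⟨Set.range o, Set.finite_range _, fun x => ?_⟩
    have h := Quotient.mk_out (s := QuotientGroup.rightRel Δ) x
    rw [QuotientGroup.rightRel_apply] at h
    refine ⟨⟨o (Quotient.mk _ x) * x⁻¹, ?_⟩, Quotient.mk _ x, ?_⟩
    · simpa using Δ.inv_mem h
    · simp [Subgroup.smul_def]

end Vale.Agent.P165.Tree
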