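import Vale.Agent.P165.Tree.Build

/-!
The Bass-Serre tree of an amalgamated product, one factor having index at least three and the other
at least two over the common subgroup, has the half-tree required by the theorem.
-/

namespace Vale.Agent.P165.Tree

open Monoid Monoid.PushoutI Monoid.PushoutI.NormalWord

variable {C : Type*} {A : Bool → Type*} [∀ i, Group (A i)] [Group C] {φ : ∀ i, C →* A i}

/-- The cosets of the two factors. -/
abbrev AmalgamVert (φ : ∀ i, C →* A i) :=
  Σ i : Bool, PushoutI φ ⧸ (PushoutI.of (φ := φ) i).range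

/-- The vertex of a factor and an element. -/
abbrev coset (i : Bool) (g : PushoutI φ) : AmalgamVert φ := ⟨i, QuotientGroup.mk g⟩

/-- The Bass-Serre tree: the two cosets of an element are joined. -/
def amalgamTree (φ : ∀ i, C →* A i) : SimpleGraph (AmalgamVert φ) :=
  SimpleGraph.fromRel fun v w => ∃ g : PushoutI φ, v = coset true g ∧ w = coset false g

lemma amalgamTree_smul (x : PushoutI φ) (v w : AmalgamVert φ) :
    (amalgamTree φ).Adj (x • v) (x • w) ↔ (amalgamTree φ).Adj v w := by
  have key : ∀ (x : PushoutI φ) (v w : AmalgamVert φ),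
      (amalgamTree φ).Adj v w → (amalgamTree φ).Adj (x • v) (x • w) := by
    rintro x v w ⟨hne, h⟩
    refine ⟨fun h' => hne (MulAction.injective x h'), ?_⟩
    rcases h with ⟨g, rfl, rfl⟩ | ⟨g, rfl, rfl⟩
    exacts [.inl ⟨x * g, rfl, rfl⟩, .inr ⟨x * g, rfl, rfl⟩]
  refine ⟨fun h => ?_, key x v w⟩
  simpa using key x⁻¹ _ _ h

lemma amalgamTree_adj_coset (g : PushoutI φ) :
    (amalgamTree φ).Adj (coset true g) (coset false g) :=
  ⟨fun h => Bool.noConfusion (congrArg Sigma.fst h), .inl ⟨g, rfl, rfl⟩⟩

lemma fst_of_adj {v w : AmalgamVert φ} (h : (amalgamTree φ).Adj v w) : w.1 = !v.1 := by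
  obtain ⟨-, ⟨g, rfl, rfl⟩ | ⟨g, rfl, rfl⟩⟩ := h <;> rfl

variable (d : Transversal φ)

open scoped Classical in
/-- The letters of a normal word after a possible first one from the factor `i`. -/
noncomputable def rest (i : Bool) (a : NormalWord d) : List (Σ i, A i) :=
  (NormalWord.equivPair i a).tail.toList

open scoped Classical in
lemma rest_smul {i : Bool} (g : A i) (a : NormalWord d) :
    rest d i (of (φ := φ) i g • a) = rest d i a := by
  rw [rest, rest, summand_smul_def, Equiv.apply_symm_apply]

open scoped Classical in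
lemma rest_base (i : Bool) (h : C) (a : NormalWord d) :
    rest d i (base φ h • a) = rest d i a := by
  rw [← of_apply_eq_base φ i h, rest_smul]

open scoped Classical in
lemma rest_of_ne {i : Bool} {a : NormalWord d} (h : a.fstIdx ≠ some i) :
    rest d i a = a.toList := by
  show (CoprodI.Word.equivPair i (CoprodI.of (φ i a.head) • a.toWord)).tail.toList = _
  rw [CoprodI.Word.equivPair_smul_same, CoprodI.Word.equivPair_eq_of_fstIdx_ne h]

open scoped Classical in
/-- Of the two words one has one letter more, in front, or both are empty. -/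
lemma rest_cases (a : NormalWord d) (i : Bool) :
    (rest d (!i) a = [] ∧ rest d i a = []) ∨ (∃ l, rest d (!i) a = l :: rest d i a) ∨
      ∃ l, rest d i a = l :: rest d (!i) a := by
  induction a using consRecOn with
  | empty =>
    have h : ∀ j, rest d j (NormalWord.empty : NormalWord d) = [] := fun j =>
      rest_of_ne d (by simp [CoprodI.Word.fstIdx])
    exact .inl ⟨h _, h _⟩
  | base h w _ ih => simpa only [rest_base] using ih
  | cons j g w hmw hgn hgr hw1 _ =>
    set b := cons g w hmw hgr with hb
    have h1 : rest d j b = w.toList := by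
      rw [hb, cons_eq_smul, rest_smul, rest_of_ne d hmw]
    have hlist : ∃ l, b.toList = l :: w.toList := ⟨_, rfl⟩
    have h2 : rest d (!j) b = b.toList := rest_of_ne d (by
      simp [hb, CoprodI.Word.fstIdx, NormalWord.cons])
    obtain ⟨l, hl⟩ := hlist
    rcases Bool.eq_or_eq_not i j with rfl | rfl
    · exact .inr (.inl ⟨l, by rw [h2, h1, hl]⟩)
    · exact .inr (.inr ⟨l, by rw [h2, Bool.not_not, h1, hl]⟩)

open scoped Classical in
/-- The letters attached to a vertex, from the normal form of the inverse. -/
noncomputable def amalgamTags : AmalgamVert φ → List (Σ i, A i)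
  | ⟨i, q⟩ => Quotient.liftOn' q
      (fun x : PushoutI φ => rest d i (x⁻¹ • (NormalWord.empty : NormalWord d))) fun x y h => by
        obtain ⟨g, hg⟩ := QuotientGroup.leftRel_apply.1 h
        have hy : y⁻¹ = of i g⁻¹ * x⁻¹ := by
          rw [map_inv, hg, mul_inv_rev, inv_inv, mul_assoc, mul_inv_cancel, mul_one]
        show _ = _
        rw [hy, mul_smul, rest_smul]

open scoped Classical in
lemma amalgamTags_inj {v w : AmalgamVert φ} (hi : v.1 = w.1)
    (h : amalgamTags d v = amalgamTags d w) : v = w := by
  obtain ⟨i, p⟩ := v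
  obtain ⟨j, q⟩ := w
  obtain rfl : i = j := hi
  induction p using QuotientGroup.induction_on with
  | H x =>
  induction q using QuotientGroup.induction_on with
  | H y =>
  set a := x⁻¹ • (NormalWord.empty : NormalWord d)
  set b := y⁻¹ • (NormalWord.empty : NormalWord d)
  set g := (NormalWord.equivPair i b).head * (NormalWord.equivPair i a).head⁻¹
  have hab : of (φ := φ) i g • a = b := by
    apply (NormalWord.equivPair i).injective
    rw [summand_smul_def, Equiv.apply_symm_apply]
    have ht : (NormalWord.equivPair i a).tail = (NormalWord.equivPair i b).tail :=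
      CoprodI.Word.ext h
    generalize hpa : NormalWord.equivPair i a = pa at ht ⊢
    generalize hpb : NormalWord.equivPair i b = pb at ht ⊢
    obtain ⟨⟨ha, ta, _⟩, _⟩ := pa
    obtain ⟨⟨hb, tb, _⟩, _⟩ := pb
    simp only at ht
    subst ht
    simp [g, hpa, hpb]
  have hp : of i g * x⁻¹ = y⁻¹ := by
    have := congrArg (fun w : NormalWord d => w.prod) hab
    simpa [a, b] using this
  refine congrArg (Sigma.mk i) (QuotientGroup.eq.2 ⟨g⁻¹, ?_⟩)
  rw [map_inv, ← mul_inv_eq_iff_eq_mul.2 hp.symm, mul_inv_rev, inv_inv]
  simp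

open scoped Classical in
lemma amalgamTags_adj {v w : AmalgamVert φ} (h : (amalgamTree φ).Adj v w) :
    (amalgamTags d w = [] ∧ amalgamTags d v = []) ∨
      (∃ l, amalgamTags d w = l :: amalgamTags d v) ∨
      ∃ l, amalgamTags d v = l :: amalgamTags d w := by
  obtain ⟨-, ⟨g, rfl, rfl⟩ | ⟨g, rfl, rfl⟩⟩ := h
  exacts [rest_cases d (g⁻¹ • NormalWord.empty) true, rest_cases d (g⁻¹ • NormalWord.empty) false]

lemma amalgamTree_isTree (hφ : ∀ i, Function.Injective (φ i)) : (amalgamTree φ).IsTree := by
  classical
  obtain ⟨d⟩ := transversal_nonempty φ hφ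
  refine { connected := ?_, isAcyclic := ?_ }
  · let φ' : PushoutI φ → amalgamTree φ →g amalgamTree φ := fun x =>
      ⟨fun v => x • v, fun h => (amalgamTree_smul x _ _).2 h⟩
    let o : AmalgamVert φ := coset true 1
    have fix : ∀ (i : Bool) (g : A i), (of i g : PushoutI φ) • (coset i 1 : AmalgamVert φ) =
        coset i 1 := fun i g => congrArg (Sigma.mk i)
      ((QuotientGroup.eq (s := (PushoutI.of (φ := φ) i).range) (a := of i g * 1) (b := 1)).2
        ⟨g⁻¹, by simp⟩)
    have adj : ∀ x : PushoutI φ, ∀ i, (amalgamTree φ).Reachable (x • o) (x • coset i 1) := by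
      intro x i
      cases i
      · exact ((amalgamTree_smul x _ _).2 (amalgamTree_adj_coset 1)).reachable
      · exact SimpleGraph.Reachable.refl _
    have hof : ∀ (i : Bool) (g : A i), (amalgamTree φ).Reachable o ((of i g : PushoutI φ) • o) := by
      intro i g
      have h1 := adj 1 i
      rw [one_smul, one_smul] at h1
      have h2 := (adj (of i g) i).symm
      rw [fix] at h2
      exact h1.trans h2
    have key : ∀ x : PushoutI φ, (amalgamTree φ).Reachable o (x • o) := by
      intro x
      induction x using PushoutI.induction_on with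
      | of i g => exact hof i g
      | base h => rw [← of_apply_eq_base φ true h]; exact hof _ _
      | mul x y hx hy =>
        rw [mul_smul]
        exact hx.trans (hy.map (φ' x))
    have hall : ∀ v : AmalgamVert φ, (amalgamTree φ).Reachable o v := by
      rintro ⟨i, q⟩
      induction q using QuotientGroup.induction_on with
      | H x =>
        have := (key x).trans (adj x i)
        simpa [coset, Sigma.smul_mk] using this
    exact ⟨fun v w => (hall v).symm.trans (hall w)⟩
  intro r c hc
  obtain ⟨v, hv, hmax⟩ := c.support.toFinset.exists_max_image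
    (fun v => (amalgamTags d v).length) ⟨r, by simp⟩
  rw [List.mem_toFinset] at hv
  have hc' := hc.rotate hv
  have key : ∀ w, (amalgamTree φ).Adj v w → w ∈ (c.rotate v hv).support →
      amalgamTags d w = (amalgamTags d v).tail := by
    intro w hw hws
    have hle := hmax w (List.mem_toFinset.2 ((SimpleGraph.Walk.mem_support_rotate_iff c v hv).1 hws))
    rcases amalgamTags_adj d hw with ⟨h1, h2⟩ | ⟨l, hl⟩ | ⟨l, hl⟩
    · rw [h1, h2]; rfl
    · rw [hl] at hle; simp at hle
    · rw [hl]; rfl
  have h1 := (c.rotate v hv).adj_snd hc'.not_nil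
  have h2 := ((c.rotate v hv).adj_penultimate hc'.not_nil).symm
  refine hc'.snd_ne_penultimate (amalgamTags_inj d ((fst_of_adj h1).trans (fst_of_adj h2).symm) ?_)
  rw [key _ h1 (SimpleGraph.Walk.getVert_mem_support _ _),
    key _ h2 (SimpleGraph.Walk.getVert_mem_support _ _)]

/-- An element of one factor outside the common subgroup is outside the other factor. -/
lemma of_not_mem_range (hφ : ∀ i, Function.Injective (φ i)) {i j : Bool} (hij : i ≠ j) {g : A i}
    (hg : g ∉ (φ i).range) : (of i g : PushoutI φ) ∉ (PushoutI.of (φ := φ) j).range := by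
  intro h
  have hm : (of i g : PushoutI φ) ∈ (PushoutI.of (φ := φ) i).range ⊓ (PushoutI.of (φ := φ) j).range :=
    ⟨⟨g, rfl⟩, h⟩
  rw [inf_of_range_eq_base_range hφ hij] at hm
  obtain ⟨c, hc⟩ := hm
  exact hg ⟨c, of_injective hφ i (by rw [of_apply_eq_base, hc])⟩

variable {Γ : Type*} [Group Γ]

/-- Through a surjection onto an amalgamated product with one factor of index at least three and
the other of index at least two, its Bass-Serre tree has the required half-tree. -/
theorem exists_flip_amalgam (hφ : ∀ i, Function.Injective (φ i)) {a₁ a₂ : A true}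
    (h1 : a₁ ∉ (φ true).range) (h2 : a₂ ∉ (φ true).range)
    (h12 : a₁⁻¹ * a₂ ∉ (φ true).range) {b : A false} (hb : b ∉ (φ false).range)
    (π : Γ →* PushoutI φ) (hπ : Function.Surjective π) :
    letI := MulAction.compHom (AmalgamVert φ) π
    ∃ (f : AmalgamVert φ × AmalgamVert φ) (a b d : Γ), Flip (amalgamTree φ) f a b d := by
  let _ := MulAction.compHom (AmalgamVert φ) π
  have hsmul : ∀ (g : Γ) (v : AmalgamVert φ), g • v = π g • v := fun _ _ => rfl
  have hinv : ∀ (g : Γ) v w, (amalgamTree φ).Adj (g • v) (g • w) ↔ (amalgamTree φ).Adj v w :=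
    fun g v w => amalgamTree_smul (π g) v w
  have hT := amalgamTree_isTree hφ
  set β : PushoutI φ := of false b with hβ
  set α₁ : PushoutI φ := of true a₁ with hα₁
  set α₂ : PushoutI φ := of true a₂ with hα₂
  obtain ⟨g₁, hg₁⟩ := hπ (β * α₁)
  obtain ⟨g₂, hg₂⟩ := hπ (β * α₂)
  obtain ⟨g₀, hg₀⟩ := hπ β
  let o : AmalgamVert φ := coset true 1
  let o' : AmalgamVert φ := coset false 1
  let m : AmalgamVert φ := coset true β
  let f := (o, o')
  have hf : (amalgamTree φ).Adj f.1 f.2 := amalgamTree_adj_coset 1
  have hne : ∀ (i : Bool) (x y : PushoutI φ), x⁻¹ * y ∉ (PushoutI.of (φ := φ) i).range →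
      coset i x ≠ coset i y := fun i x y hxy h => hxy (by
    simp only [coset, Sigma.mk.injEq, heq_eq_eq, true_and] at h
    exact QuotientGroup.eq.1 h)
  have hβ' : coset false β = o' := congrArg (Sigma.mk false)
    ((QuotientGroup.eq (s := (PushoutI.of (φ := φ) false).range) (a := β) (b := 1)).2
      ⟨b⁻¹, by simp [hβ]⟩)
  -- an edge from the head to a vertex other than the tail stays inside
  have sub : ∀ {p q x : AmalgamVert φ}, x ≠ p → (amalgamTree φ).Adj p q →
      (amalgamTree φ).Adj q x →
      cone (amalgamTree φ) (q, x) ⊆ cone (amalgamTree φ) (p, q) := by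
    intro p q x hx hpq hqx
    refine cone_subset_of_tail hT (e := (q, x)) (c := (p, q)) hqx hpq (self_mem_cone hpq) ?_
    show ¬ (amalgamTree φ).dist p x < (amalgamTree φ).dist p q
    rw [SimpleGraph.dist_eq_one_iff_adj.2 hpq, Nat.lt_one_iff]
    exact fun h => hx ((hT.connected.dist_eq_zero_iff).1 h).symm
  have hm : (amalgamTree φ).Adj o' m := hβ' ▸ (amalgamTree_adj_coset β).symm
  have hmo : m ≠ o := hne true β 1 (by
    simpa [hβ] using of_not_mem_range hφ (by decide : false ≠ true) hb)
  have s0 : cone (amalgamTree φ) (o', m) ⊆ cone (amalgamTree φ) f := sub hmo hf hm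
  -- the edges at the middle vertex
  have mid : ∀ a : A true, a ∉ (φ true).range → ∀ g : Γ, π g = β * of true a →
      g • f = (m, coset false (β * of true a)) ∧
      (amalgamTree φ).Adj m (coset false (β * of true a)) ∧
      cone (amalgamTree φ) (g • f) ⊆ cone (amalgamTree φ) f := by
    intro a ha g hg
    have e1 : g • f = (m, coset false (β * of true a)) := by
      refine Prod.ext ?_ ?_
      · show π g • o = m
        rw [hg]
        exact congrArg (Sigma.mk true) ((QuotientGroup.eq (s := (PushoutI.of (φ := φ) true).range)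
          (a := β * of true a * 1) (b := β)).2 ⟨a⁻¹, by simp [mul_assoc]⟩)
      · show π g • o' = _
        rw [hg]
        exact congrArg (Sigma.mk false) (congrArg QuotientGroup.mk (mul_one _))
    have e2 : (amalgamTree φ).Adj m (coset false (β * of true a)) := by
      have := (hinv g f.1 f.2).2 hf
      rwa [← Prod.smul_fst, ← Prod.smul_snd, e1] at this
    refine ⟨e1, e2, ?_⟩
    rw [e1]
    refine (sub ?_ hm e2).trans s0
    refine (hne false 1 (β * of true a) ?_).symm
    rw [inv_one, one_mul, Subgroup.mul_mem_cancel_left _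
      (show β ∈ (PushoutI.of (φ := φ) false).range from ⟨b, rfl⟩)]
    exact of_not_mem_range hφ (by decide : true ≠ false) ha
  obtain ⟨p1, q1, c1⟩ := mid a₁ h1 g₁ hg₁
  obtain ⟨p2, q2, c2⟩ := mid a₂ h2 g₂ hg₂
  refine ⟨f, g₁, g₂, g₀, ⟨hf, hinv, c1, c2, ?_, ?_⟩⟩
  · rw [p1, p2]
    refine (eq_or_disjoint_of_dist hT (e := (m, _)) (c := (m, _)) (v := o) q1 q2 ?_ ?_
      rfl).resolve_left fun h => hne false _ _ ?_ (congrArg Prod.snd h)
    · exact fun h => tail_not_mem_cone f (c1 (p1 ▸ h))
    · exact fun h => tail_not_mem_cone f (c2 (p2 ▸ h))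
    · rw [mul_inv_rev, mul_assoc, inv_mul_cancel_left, ← map_inv, ← map_mul]
      exact of_not_mem_range hφ (by decide : true ≠ false) h12
  · intro v hv
    have pd : g₀ • f = (m, o') := Prod.ext
      (show π g₀ • o = m by
        rw [hg₀]; exact congrArg (Sigma.mk true) (congrArg QuotientGroup.mk (mul_one _)))
      (show π g₀ • o' = o' by
        rw [hg₀, show β • o' = coset false β from
          congrArg (Sigma.mk false) (congrArg QuotientGroup.mk (mul_one _)), hβ'])
    rw [pd]
    by_contra h
    exact hv (s0 ((mem_cone_swap hT (e := (m, o')) hm.symm).2 h))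

end Vale.Agent.P165.Tree
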