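import Vale.Agent.P165.Tree.Cone
import Vale.Agent.P165.Quot.ProbBasic

/-!
Translations, cores and entries, finitely many types, and the connectors used by the blocks.
-/

open Finset
open scoped ENNReal

namespace Vale.Agent.P165.Tree.Act

open Vale.Agent.P165.Quot

variable {W V Γ : Type*} [Group Γ] [MulAction Γ W] [MulAction Γ V] {H : SimpleGraph W}
  {T : SimpleGraph V} (Ac : Act (Γ := Γ) H T)

/-- Translation by a group element, as an automorphism of the graph. -/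
def actW (g : Γ) : H ≃g H where
  toEquiv := MulAction.toPerm g
  map_rel_iff' := Ac.adj_smul g _ _

/-- Translation by a group element, as an automorphism of the tree. -/
def actV (g : Γ) : T ≃g T where
  toEquiv := MulAction.toPerm g
  map_rel_iff' := Ac.tree_smul g _ _

@[simp] lemma actW_apply (g : Γ) (x : W) : Ac.actW g x = g • x := rfl

@[simp] lemma actV_apply (g : Γ) (v : V) : Ac.actV g v = g • v := rfl

/-- A translated walk. -/
def actWalk (g : Γ) {x y : W} (q : H.Walk x y) : H.Walk (g • x) (g • y) := q.map (Ac.actW g).toHom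

@[simp] lemma length_actWalk (g : Γ) {x y : W} (q : H.Walk x y) :
    (Ac.actWalk g q).length = q.length :=
  SimpleGraph.Walk.length_map _ _

lemma support_actWalk (g : Γ) {x y : W} (q : H.Walk x y) :
    (Ac.actWalk g q).support = q.support.map (fun z => g • z) :=
  SimpleGraph.Walk.support_map _ _

lemma edges_actWalk (g : Γ) {x y : W} (q : H.Walk x y) :
    (Ac.actWalk g q).edges = q.edges.map (Sym2.map fun z => g • z) :=
  SimpleGraph.Walk.edges_map _ _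

include Ac in
lemma dist_smul (g : Γ) (u v : V) : T.dist (g • u) (g • v) = T.dist u v := dist_map (Ac.actV g) u v

include Ac in
lemma mem_cone_smul (g : Γ) (e : V × V) (v : V) :
    g • v ∈ cone T (g • e) ↔ v ∈ cone T e := by
  simp only [cone, Set.mem_ofPred_eq, Prod.smul_fst, Prod.smul_snd, Ac.dist_smul]

include Ac in
lemma cone_smul_subset (g : Γ) (e c : V × V) :
    cone T (g • e) ⊆ cone T (g • c) ↔ cone T e ⊆ cone T c := by
  constructor
  · intro h v hv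
    exact (Ac.mem_cone_smul g c v).1 (h ((Ac.mem_cone_smul g e v).2 hv))
  · intro h v hv
    obtain ⟨v, rfl⟩ : ∃ u, g • u = v := ⟨g⁻¹ • v, smul_inv_smul g v⟩
    exact (Ac.mem_cone_smul g c v).2 (h ((Ac.mem_cone_smul g e v).1 hv))

include Ac in
lemma disjoint_cone_smul (g : Γ) (e c : V × V) :
    Disjoint (cone T (g • e)) (cone T (g • c)) ↔ Disjoint (cone T e) (cone T c) := by
  simp only [Set.disjoint_left]
  constructor
  · intro h v hv hv'
    exact h ((Ac.mem_cone_smul g e v).2 hv) ((Ac.mem_cone_smul g c v).2 hv')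
  · intro h v hv hv'
    obtain ⟨v, rfl⟩ : ∃ u, g • u = v := ⟨g⁻¹ • v, smul_inv_smul g v⟩
    exact h ((Ac.mem_cone_smul g e v).1 hv) ((Ac.mem_cone_smul g c v).1 hv')

include Ac in
lemma mem_near_smul (ρ : ℕ) (g : Γ) (e : V × V) (v : V) :
    g • v ∈ near T ρ (g • e) ↔ v ∈ near T ρ e := by
  constructor
  · rintro ⟨w, hw, hd⟩
    refine ⟨g⁻¹ • w, (Ac.mem_cone_smul g e _).1 (by rwa [smul_inv_smul]), ?_⟩
    rwa [← Ac.dist_smul g, smul_inv_smul]
  · rintro ⟨w, hw, hd⟩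
    exact ⟨g • w, (Ac.mem_cone_smul g e w).2 hw, by rwa [Ac.dist_smul]⟩

include Ac in
lemma mem_deep_smul (ρ : ℕ) (g : Γ) (e : V × V) (v : V) :
    g • v ∈ deep T ρ (g • e) ↔ v ∈ deep T ρ e := by
  simp only [deep, Set.mem_ofPred_eq, Ac.mem_cone_smul, Prod.smul_snd, Ac.dist_smul]

lemma smul_mem_coneW (g : Γ) (e : V × V) (x : W) :
    g • x ∈ Ac.coneW (g • e) ↔ x ∈ Ac.coneW e := by
  show Ac.proj (g • x) ∈ cone T (g • e) ↔ Ac.proj x ∈ cone T e
  rw [Ac.proj_smul, Ac.mem_cone_smul]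

lemma smul_mem_core (D : ℕ) (g : Γ) (e : V × V) (x : W) :
    g • x ∈ Ac.core D (g • e) ↔ x ∈ Ac.core D e := by
  have key : ∀ (g : Γ) (e : V × V) (x : W), x ∈ Ac.core D e → g • x ∈ Ac.core D (g • e) := by
    rintro g e x ⟨hx, z, hz, hr⟩
    refine ⟨(Ac.smul_mem_coneW g e x).2 hx, g • z, ?_, hr.map ⟨fun w => g • w, ?_⟩⟩
    · rwa [Ac.proj_smul, Prod.smul_snd, Ac.dist_smul]
    · rintro a b ⟨hab, hs⟩
      rw [SimpleGraph.fromEdgeSet_adj] at hs
      refine ⟨(Ac.adj_smul g a b).2 hab, (SimpleGraph.fromEdgeSet_adj _).2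
        ⟨fun w hw => ?_, fun h => hs.2 ((Ac.actW g).injective h)⟩⟩
      rcases Sym2.mem_iff.1 hw with rfl | rfl
      · exact (Ac.smul_mem_coneW g e a).2 (hs.1 a (Sym2.mem_mk_left _ _))
      · exact (Ac.smul_mem_coneW g e b).2 (hs.1 b (Sym2.mem_mk_right _ _))
  exact ⟨fun h => by simpa using key g⁻¹ _ _ h, key g e x⟩

include Ac in
lemma eq_of_smul_eq {g g' : Γ} {x : W} (h : g • x = g' • x) : g = g' := by
  have := Ac.free (g'⁻¹ * g) x (by rw [mul_smul, h, inv_smul_smul])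
  exact (inv_mul_eq_one.1 this).symm

include Ac in
lemma exists_push_elt : ∃ a : Γ, cone T (a • Ac.f₀) ⊆ cone T Ac.f₀ ∧
    0 < T.dist Ac.f₀.2 (a • Ac.f₀).2 := by
  obtain ⟨g, -, g', -, h1, h2, h12⟩ := Ac.above _ Ac.f₀_adj (self_mem_cone Ac.f₀_adj)
  have hadj : ∀ k : Γ, T.Adj (k • Ac.f₀).1 (k • Ac.f₀).2 := fun k =>
    (Ac.tree_smul k _ _).2 Ac.f₀_adj
  by_contra hcon
  push Not at hcon
  have hg : g • Ac.f₀ = Ac.f₀ := eq_of_subset_of_dist Ac.isTree (hadj g) Ac.f₀_adj h1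
    (by have := hcon g h1; omega)
  have hg' : g' • Ac.f₀ = Ac.f₀ := eq_of_subset_of_dist Ac.isTree (hadj g') Ac.f₀_adj h2
    (by have := hcon g' h2; omega)
  rw [hg, hg'] at h12
  exact Set.disjoint_left.1 h12 (self_mem_cone Ac.f₀_adj) (self_mem_cone Ac.f₀_adj)

include Ac in
lemma push_le {a : Γ} (ha : cone T (a • Ac.f₀) ⊆ cone T Ac.f₀) :
    ∀ j : ℕ, cone T (a ^ j • Ac.f₀) ⊆ cone T Ac.f₀ := by
  intro j
  induction j with
  | zero => simp
  | succ j ih =>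
    rw [pow_succ, mul_smul]
    exact ((Ac.cone_smul_subset (a ^ j) _ _).2 ha).trans ih

include Ac in
lemma push_dist {a : Γ} (ha : cone T (a • Ac.f₀) ⊆ cone T Ac.f₀) :
    ∀ j : ℕ, T.dist Ac.f₀.2 (a ^ j • Ac.f₀).2 = j * T.dist Ac.f₀.2 (a • Ac.f₀).2 := by
  intro j
  induction j with
  | zero => simp
  | succ j ih =>
    have hadj : ∀ k : Γ, T.Adj (k • Ac.f₀).1 (k • Ac.f₀).2 := fun k =>
      (Ac.tree_smul k _ _).2 Ac.f₀_adj
    have h := depth_add Ac.isTree (hadj (a ^ (j + 1))) (hadj (a ^ j)) Ac.f₀_adj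
      (by rw [pow_succ, mul_smul]; exact (Ac.cone_smul_subset (a ^ j) _ _).2 ha) (Ac.push_le ha j)
    rw [h, ih, pow_succ, mul_smul, Prod.smul_snd (a ^ j) (a • Ac.f₀), Prod.smul_snd (a ^ j) Ac.f₀,
      Ac.dist_smul, Nat.succ_mul]

lemma smul_cls (g : Γ) (e : V × V) : Ac.actW g '' Ac.cls e = Ac.cls (g • e) := by
  ext x
  obtain ⟨x, rfl⟩ := (Ac.actW g).surjective x
  rw [(Ac.actW g).injective.mem_set_image, actW_apply]
  constructor
  · rintro ⟨k, rfl, rfl⟩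
    exact ⟨g * k, mul_smul _ _ _, mul_smul _ _ _⟩
  · rintro ⟨k, hk, hkx⟩
    exact ⟨g⁻¹ * k, by rw [mul_smul, hk, inv_smul_smul],
      by rw [mul_smul, hkx, inv_smul_smul]⟩

lemma smul_gate (g : Γ) (e : V × V) : Ac.actW g '' Ac.gate e = Ac.gate (g • e) := by
  ext x
  obtain ⟨x, rfl⟩ := (Ac.actW g).surjective x
  rw [(Ac.actW g).injective.mem_set_image, actW_apply]
  simp only [gate, Set.mem_ofPred_eq, Ac.smul_mem_coneW]
  refine and_congr_right fun _ => ⟨fun ⟨y, hy, hn⟩ => ⟨g • y, (Ac.adj_smul g x y).2 hy,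
    fun h => hn ((Ac.smul_mem_coneW g e y).1 h)⟩, fun ⟨y, hy, hn⟩ => ?_⟩
  obtain ⟨y, rfl⟩ := (Ac.actW g).surjective y
  exact ⟨y, (Ac.adj_smul g x y).1 hy, fun h => hn ((Ac.smul_mem_coneW g e y).2 h)⟩

lemma smul_entry (D : ℕ) (g : Γ) (e : V × V) :
    Ac.actW g '' Ac.entry D e = Ac.entry D (g • e) := by
  ext x
  obtain ⟨x, rfl⟩ := (Ac.actW g).surjective x
  rw [(Ac.actW g).injective.mem_set_image, actW_apply]
  simp only [entry, Set.mem_ofPred_eq, Ac.smul_mem_core]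
  refine and_congr_right fun _ => ⟨fun ⟨y, hy, hn⟩ => ⟨g • y, (Ac.adj_smul g x y).2 hy,
    fun h => hn ((Ac.smul_mem_core D g e y).1 h)⟩, fun ⟨y, hy, hn⟩ => ?_⟩
  obtain ⟨y, rfl⟩ := (Ac.actW g).surjective y
  exact ⟨y, (Ac.adj_smul g x y).1 hy, fun h => hn ((Ac.smul_mem_core D g e y).2 h)⟩

lemma smul_core (D : ℕ) (g : Γ) (e : V × V) :
    Ac.actW g '' Ac.core D e = Ac.core D (g • e) := by
  ext x
  obtain ⟨x, rfl⟩ := (Ac.actW g).surjective x
  rw [(Ac.actW g).injective.mem_set_image, actW_apply]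
  exact (Ac.smul_mem_core D g e x).symm

lemma smul_outE (D : ℕ) (g : Γ) (e : V × V) :
    Sym2.map (Ac.actW g) '' Ac.outE D e = Ac.outE D (g • e) := by
  ext s
  induction s with
  | h a b =>
    obtain ⟨a, rfl⟩ := (Ac.actW g).surjective a
    obtain ⟨b, rfl⟩ := (Ac.actW g).surjective b
    rw [← Sym2.map_mk, (Sym2.map.injective (Ac.actW g).injective).mem_set_image]
    simp [outE, inside, Ac.smul_mem_core]

lemma smul_band (ρ : ℕ) (g : Γ) (c e : V × V) :
    Sym2.map (Ac.actW g) '' Ac.band ρ c e = Ac.band ρ (g • c) (g • e) := by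
  ext s
  induction s with
  | h a b =>
    obtain ⟨a, rfl⟩ := (Ac.actW g).surjective a
    obtain ⟨b, rfl⟩ := (Ac.actW g).surjective b
    rw [← Sym2.map_mk, (Sym2.map.injective (Ac.actW g).injective).mem_set_image]
    simp [band, inside, Ac.proj_smul, Ac.mem_near_smul, Ac.mem_deep_smul]

lemma band_mono (hT : T.IsTree) (ρ : ℕ) {c a e : V × V} (_hc : T.Adj c.1 c.2) (ha : T.Adj a.1 a.2)
    (he : T.Adj e.1 e.2) (h1 : cone T a ⊆ cone T c) (h2 : cone T e ⊆ cone T a) :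
    Ac.band ρ c a ⊆ Ac.band ρ c e ∧ Ac.band ρ a e ⊆ Ac.band ρ c e := by
  refine ⟨fun s hs x hx => ⟨(hs x hx).1, fun h => (hs x hx).2 (deep_mono hT ρ he ha h2 h)⟩,
    fun s hs x hx => ⟨near_mono ρ h1 (hs x hx).1, (hs x hx).2⟩⟩

lemma cls_proj {e : V × V} {x : W} (hx : x ∈ Ac.cls e) : Ac.proj x = e.2 := by
  obtain ⟨g, rfl, rfl⟩ := hx
  rw [Ac.proj_smul, Ac.proj_rep _ Ac.r₀_mem]
  rfl

lemma cls_unique {e e' : V × V} {x : W} (h : x ∈ Ac.cls e) (h' : x ∈ Ac.cls e') : e = e' := by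
  obtain ⟨g, rfl, rfl⟩ := h
  obtain ⟨g', rfl, hx⟩ := h'
  rw [Ac.eq_of_smul_eq hx]

include Ac in
lemma countable_group (hH : H.Connected) [H.LocallyFinite] : Countable Γ := by
  classical
  have : Countable W := countable_of_connected hH
  exact Function.Injective.countable (f := fun g : Γ => g • Ac.r₀)
    fun _ _ h => Ac.eq_of_smul_eq h

include Ac in
lemma quasiTransitive : QuasiTransitive H := by
  refine ⟨↑Ac.reps, Ac.reps.finite_toSet, fun v => ?_⟩
  obtain ⟨g, r, hr, rfl⟩ := Ac.cover v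
  exact ⟨(Ac.actW g).symm, by
    rw [show (Ac.actW g).symm (g • r) = r from (Ac.actW g).symm_apply_apply r]; exact hr⟩

include Ac in
lemma infinite : Infinite W := by
  obtain ⟨a, ha, hd⟩ := Ac.exists_push_elt
  refine Infinite.of_injective (fun j : ℕ => a ^ j • Ac.r₀) fun i j h => ?_
  have h' := congrArg (fun g : Γ => T.dist Ac.f₀.2 (g • Ac.f₀).2) (Ac.eq_of_smul_eq h)
  simp only [Ac.push_dist ha] at h'
  exact Nat.eq_of_mul_eq_mul_right hd h'

include Ac in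
lemma degree_bound [H.LocallyFinite] : ∃ d : ℕ, ∀ x, (H.neighborFinset x).card ≤ d := by
  classical
  refine ⟨Ac.reps.sup fun r => (H.neighborFinset r).card, fun x => ?_⟩
  obtain ⟨g, r, hr, rfl⟩ := Ac.cover x
  refine le_trans (le_of_eq ?_) (Finset.le_sup (f := fun r => (H.neighborFinset r).card) hr)
  rw [show H.neighborFinset (g • r) = (H.neighborFinset r).map
    (Ac.actW g).toEquiv.toEmbedding from ?_, card_map]
  ext y
  obtain ⟨z, rfl⟩ := (Ac.actW g).surjective y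
  simp only [SimpleGraph.mem_neighborFinset]
  rw [show H.Adj (g • r) (Ac.actW g z) ↔ H.Adj r z from Ac.adj_smul g r z]
  simp
  erw [(Ac.actW g).toEquiv.symm_apply_apply]

lemma walk_proj {x y : W} (q : H.Walk x y) :
    T.dist (Ac.proj x) (Ac.proj y) ≤ Ac.R * q.length := by
  induction q with
  | nil => simp
  | @cons a b c h q ih =>
    refine (Ac.isTree.connected.dist_triangle (v := Ac.proj b)).trans ?_
    rw [SimpleGraph.Walk.length_cons, Nat.mul_succ]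
    have := Ac.jump _ _ h
    omega

variable {D : ℕ} {c e : V × V} {x y z : W}

lemma core_subset : Ac.core D e ⊆ Ac.coneW e := fun _ h => h.1

lemma mem_core_of_deep (h : x ∈ Ac.coneW e) (hd : D ≤ T.dist e.2 (Ac.proj x)) :
    x ∈ Ac.core D e := ⟨h, x, hd, .refl _⟩

lemma core_step (hx : x ∈ Ac.core D e) (hy : y ∈ Ac.coneW e) (h : H.Adj x y) :
    y ∈ Ac.core D e := by
  obtain ⟨hxc, z, hz, hxz⟩ := hx
  refine ⟨hy, z, hz, SimpleGraph.Reachable.trans (SimpleGraph.Adj.reachable ?_) hxz⟩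
  refine ⟨h.symm, (SimpleGraph.fromEdgeSet_adj _).2 ⟨fun w hw => ?_, h.ne'⟩⟩
  rcases Sym2.mem_iff.1 hw with rfl | rfl <;> assumption

lemma core_of_walk (q : H.Walk x y) (hs : ∀ w ∈ q.support, w ∈ Ac.coneW e)
    (hy : y ∈ Ac.core D e) : ∀ w ∈ q.support, w ∈ Ac.core D e := by
  induction q with
  | nil => simpa using hy
  | @cons a b d h q ih =>
    have hq : ∀ w ∈ q.support, w ∈ Ac.core D e := ih (fun w hw => hs w (by simp [hw])) hy
    intro w hw
    rcases List.mem_cons.1 hw with rfl | hw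
    · exact Ac.core_step (hq b q.start_mem_support) (hs _ (by simp)) h.symm
    · exact hq w hw

lemma core_mono (hc : T.Adj c.1 c.2) (he : T.Adj e.1 e.2) (h : cone T e ⊆ cone T c) :
    Ac.core D e ⊆ Ac.core D c := by
  rintro x ⟨hx, z, hz, hr⟩
  have hze : z ∈ Ac.coneW e := by
    obtain ⟨q⟩ := hr
    by_cases hn : q.Nil
    · obtain rfl := hn.eq
      exact hx
    · have h' := q.edges_subset_edgeSet (q.mk_penultimate_end_mem_edges hn)
      rw [SimpleGraph.edgeSet_inf, SimpleGraph.edgeSet_fromEdgeSet] at h'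
      exact h'.2.1 z (Sym2.mem_mk_right _ _)
  have hsub : inside (Ac.coneW e) ⊆ inside (Ac.coneW c) := by
    intro s hs w hw
    exact h (hs w hw)
  refine ⟨h hx, z, ?_, hr.mono (inf_le_inf_left _ (SimpleGraph.fromEdgeSet_mono hsub))⟩
  rw [dist_below Ac.isTree he hc h hze]
  omega

lemma mem_outE {a b : W} :
    s(a, b) ∈ Ac.outE D e ↔ a ∉ Ac.core D e ∨ b ∉ Ac.core D e := by
  simp only [outE, inside, Set.mem_compl_iff, Set.mem_ofPred_eq, Sym2.mem_iff]
  constructor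
  · intro h
    by_contra! h'
    exact h (by rintro w (rfl | rfl); exacts [h'.1, h'.2])
  · rintro (h | h) h'
    exacts [h (h' a (.inl rfl)), h (h' b (.inr rfl))]

lemma outE_mono (hc : T.Adj c.1 c.2) (he : T.Adj e.1 e.2) (h : cone T e ⊆ cone T c) :
    Ac.outE D c ⊆ Ac.outE D e := by
  show (inside (Ac.core D c))ᶜ ⊆ (inside (Ac.core D e))ᶜ
  refine Set.compl_subset_compl.2 ?_
  intro s hs w hw
  exact Ac.core_mono hc he h (hs w hw)

lemma entry_subset_gate : Ac.entry D e ⊆ Ac.gate e := fun _ ⟨hx, y, hxy, hy⟩ =>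
  ⟨hx.1, y, hxy, fun h => hy (Ac.core_step hx h hxy)⟩

lemma gate_near (he : T.Adj e.1 e.2) (h : x ∈ Ac.gate e) :
    T.dist (Ac.proj x) e.2 + 1 ≤ Ac.R := by
  obtain ⟨hx, y, hxy, hy⟩ := h
  have h1 := dist_through Ac.isTree he hx hy
  have h2 := Ac.jump _ _ hxy
  omega

/-- A walk from outside the core has its first core point at an entry. -/
lemma exists_entry_on_walk (q : H.Walk x y) (hx : x ∉ Ac.core D e) (hy : y ∈ Ac.core D e) :
    ∃ a ∈ Ac.entry D e, ∃ q' : H.Walk x a, q'.length ≤ q.length ∧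
      (∀ s ∈ q'.edges, s ∈ Ac.outE D e) ∧ ∀ w ∈ q'.support, w ∈ q.support := by
  induction q with
  | nil => exact absurd hy hx
  | @cons a b d h q ih =>
    by_cases hb : b ∈ Ac.core D e
    · refine ⟨b, ⟨hb, a, h.symm, hx⟩, .cons h .nil, by simp, ?_, ?_⟩
      · simp [Ac.mem_outE, hx]
      · intro w hw
        simp at hw
        rcases hw with rfl | rfl <;> simp
    · obtain ⟨u, hu, q', hl, hE, hs⟩ := ih hb hy
      refine ⟨u, hu, .cons h q', by simpa using hl, ?_, ?_⟩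
      · simp only [SimpleGraph.Walk.edges_cons, List.mem_cons]
        rintro s (rfl | hs')
        exacts [Ac.mem_outE.2 (.inl hx), hE s hs']
      · intro w hw
        rcases List.mem_cons.1 hw with rfl | hw
        · simp
        · exact List.mem_cons_of_mem _ (hs w hw)

/-- Where an exploration inside `outE` leaves it. -/
lemma entry_of_exit (hx : x ∉ Ac.coneW e) {a b : W} (q : H.Walk x a)
    (hq : ∀ s ∈ q.edges, s ∈ Ac.outE D e) (hab : H.Adj a b) (hs : s(a, b) ∉ Ac.outE D e) :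
    a ∈ Ac.entry D e := by
  rw [Ac.mem_outE, not_or, not_not, not_not] at hs
  obtain ⟨ha, -⟩ := hs
  refine ⟨ha, ?_⟩
  cases hq' : q.reverse with
  | nil => exact absurd (Ac.core_subset ha) hx
  | @cons _ b' _ h q'' =>
    refine ⟨b', h, fun hb' => ?_⟩
    have hmem : s(a, b') ∈ q.edges := by
      rw [← List.mem_reverse, ← SimpleGraph.Walk.edges_reverse, hq']
      simp
    rcases Ac.mem_outE.1 (hq _ hmem) with h' | h'
    exacts [h' ha, h' hb']

/-- Finitely many types describe every entry of every core. -/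
theorem exists_types [H.LocallyFinite] (D : ℕ) : ∃ types, Ac.IsTypes D types := by
  classical
  let near1 : Finset (W × (V × V)) := Ac.reps.biUnion fun r =>
    (H.neighborFinset r).biUnion fun y =>
      (between_finite Ac.isTree (Ac.proj y) (Ac.proj r)).toFinset.image fun c => (r, c)
  refine ⟨near1.filter fun τ => τ.1 ∈ Ac.entry D τ.2, ?_, ?_⟩
  · intro τ hτ
    obtain ⟨hτ, hent⟩ := mem_filter.1 hτ
    obtain ⟨r, hr, hτ⟩ := mem_biUnion.1 hτ
    obtain ⟨y, -, hτ⟩ := mem_biUnion.1 hτ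
    obtain ⟨c, hc, rfl⟩ := mem_image.1 hτ
    exact ⟨hr, ((Set.Finite.mem_toFinset _).1 hc).1, hent⟩
  · intro e he x hx
    obtain ⟨g, r, hr, rfl⟩ := Ac.cover x
    have hr' : r ∈ Ac.entry D (g⁻¹ • e) := by
      rw [← Ac.smul_entry D g⁻¹ e]
      exact ⟨g • r, hx, inv_smul_smul g r⟩
    obtain ⟨hrc, y, hy, hny⟩ := Ac.entry_subset_gate hr'
    refine ⟨(r, g⁻¹ • e), mem_filter.2 ⟨?_, hr'⟩, g, rfl, smul_inv_smul g e⟩
    refine mem_biUnion.2 ⟨r, hr, mem_biUnion.2 ⟨y, (SimpleGraph.mem_neighborFinset ..).2 hy,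
      mem_image.2 ⟨g⁻¹ • e, (Set.Finite.mem_toFinset _).2 ⟨?_, hny, hrc⟩, rfl⟩⟩⟩
    exact (Ac.tree_smul g⁻¹ e.1 e.2).2 he

/-- An element pushing the base half-tree into itself, with walks along its powers. -/
theorem exists_push (hH : H.Connected) : ∃ (a : Γ) (π : ℕ),
    cone T (a • Ac.f₀) ⊆ cone T Ac.f₀ ∧ 0 < T.dist Ac.f₀.2 (a • Ac.f₀).2 ∧
    (∀ j : ℕ, T.dist Ac.f₀.2 (a ^ j • Ac.f₀).2 = j * T.dist Ac.f₀.2 (a • Ac.f₀).2) ∧
    ∀ j : ℕ, ∃ q : H.Walk Ac.r₀ (a ^ j • Ac.r₀), q.length ≤ π * j ∧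
      ∀ w ∈ q.support, Ac.proj w ∈ near T π Ac.f₀ := by
  classical
  obtain ⟨a, ha, hd⟩ := Ac.exists_push_elt
  obtain ⟨q₀⟩ := hH.preconnected Ac.r₀ (a • Ac.r₀)
  refine ⟨a, (Ac.R + 1) * (q₀.length + 1), ha, hd, Ac.push_dist ha, fun j => ?_⟩
  induction j with
  | zero =>
    refine ⟨(SimpleGraph.Walk.nil : H.Walk Ac.r₀ Ac.r₀).copy rfl (by rw [pow_zero, one_smul]),
      by simp, fun w hw => ?_⟩
    simp at hw
    subst hw
    rw [Ac.proj_rep _ Ac.r₀_mem]
    exact cone_subset_near _ _ (self_mem_cone Ac.f₀_adj)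
  | succ j ih =>
    obtain ⟨q, hq, hs⟩ := ih
    let q' : H.Walk (a ^ j • Ac.r₀) (a ^ (j + 1) • Ac.r₀) :=
      (Ac.actWalk (a ^ j) q₀).copy rfl (by rw [← mul_smul, ← pow_succ])
    have hlen : q'.length = q₀.length := by simp [q']
    refine ⟨q.append q', ?_, fun w hw => ?_⟩
    · rw [SimpleGraph.Walk.length_append, hlen, Nat.mul_succ]
      nlinarith
    · rcases (SimpleGraph.Walk.mem_support_append_iff _ _).1 hw with hw | hw
      · exact hs w hw
      · simp only [q', SimpleGraph.Walk.support_copy, Ac.support_actWalk, List.mem_map] at hw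
        obtain ⟨w₀, hw₀, rfl⟩ := hw
        refine ⟨(a ^ j • Ac.f₀).2, Ac.push_le ha j (self_mem_cone
          ((Ac.tree_smul (a ^ j) _ _).2 Ac.f₀_adj)), ?_⟩
        show T.dist (Ac.proj (a ^ j • w₀)) _ ≤ _
        rw [Ac.proj_smul, Prod.smul_snd, Ac.dist_smul]
        have h1 := (Ac.walk_proj (q₀.takeUntil w₀ hw₀)).trans
          (Nat.mul_le_mul_left _ (q₀.length_takeUntil_le_length hw₀))
        rw [Ac.proj_rep _ Ac.r₀_mem, SimpleGraph.dist_comm] at h1
        nlinarith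

/-- From a deep point of a half-tree, short walks inside it to two disjoint standard half-trees. -/
theorem exists_connect (hH : H.Connected) (ρ : ℕ) : ∃ D ℓ : ℕ, ρ < D ∧ Ac.R < D ∧
    ∀ c : V × V, T.Adj c.1 c.2 → ∀ z ∈ Ac.coneW c, D ≤ T.dist c.2 (Ac.proj z) →
      ∃ g g' : Γ, cone T (g • Ac.f₀) ⊆ cone T c ∧ cone T (g' • Ac.f₀) ⊆ cone T c ∧
        Disjoint (cone T (g • Ac.f₀)) (cone T (g' • Ac.f₀)) ∧
        ∀ h ∈ ({g, g'} : Set Γ), ρ < T.dist c.2 (h • Ac.f₀).2 ∧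
          ∃ q : H.Walk z (h • Ac.r₀), q.length ≤ ℓ ∧ ∀ w ∈ q.support, w ∈ Ac.coneW c := by
  classical
  have hw : ∀ (r : W) (γ : Γ), Nonempty (H.Walk r (γ • Ac.r₀)) := fun r γ => hH.preconnected _ _
  let wk := fun (r : W) (γ : Γ) => (hw r γ).some
  let ℓ := (Ac.reps ×ˢ Ac.moves).sup fun t => (wk t.1 t.2).length
  let m := Ac.moves.sup fun γ => T.dist Ac.f₀.2 (γ • Ac.f₀).2
  refine ⟨ρ + m + Ac.R * (ℓ + 1) + 1, ℓ, by omega, by nlinarith, fun c hc z hz hd => ?_⟩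
  obtain ⟨k, r, hr, rfl⟩ := Ac.cover z
  have hc' : T.Adj (k⁻¹ • c).1 (k⁻¹ • c).2 := (Ac.tree_smul k⁻¹ c.1 c.2).2 hc
  have hpz : Ac.proj (k • r) = k • Ac.f₀.2 := by rw [Ac.proj_smul, Ac.proj_rep r hr]
  have ho : Ac.f₀.2 ∈ cone T (k⁻¹ • c) := by
    have := (Ac.mem_cone_smul k⁻¹ c (Ac.proj (k • r))).2 hz
    rwa [hpz, inv_smul_smul] at this
  obtain ⟨γ, hγ, γ', hγ', h1, h2, h12⟩ := Ac.above _ hc' ho
  have hsub : ∀ δ : Γ, cone T (δ • Ac.f₀) ⊆ cone T (k⁻¹ • c) →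
      cone T ((k * δ) • Ac.f₀) ⊆ cone T c := fun δ h => by
    have := (Ac.cone_smul_subset k _ _).2 h
    rwa [← mul_smul, smul_inv_smul] at this
  refine ⟨k * γ, k * γ', hsub γ h1, hsub γ' h2, ?_, ?_⟩
  · rw [mul_smul, mul_smul]
    exact (Ac.disjoint_cone_smul k _ _).2 h12
  intro h hh
  obtain ⟨δ, hδ, rfl⟩ : ∃ δ ∈ Ac.moves, k * δ = h := by
    rcases hh with rfl | rfl
    exacts [⟨γ, hγ, rfl⟩, ⟨γ', hγ', rfl⟩]
  rw [hpz] at hd
  refine ⟨?_, (Ac.actWalk k (wk r δ)).copy rfl (mul_smul k δ Ac.r₀).symm, ?_, fun w hw => ?_⟩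
  · have h3 := Finset.le_sup (f := fun γ => T.dist Ac.f₀.2 (γ • Ac.f₀).2) hδ
    have h4 := Ac.isTree.connected.dist_triangle (u := c.2) (v := ((k * δ) • Ac.f₀).2)
      (w := k • Ac.f₀.2)
    rw [mul_smul, Prod.smul_snd, SimpleGraph.dist_comm (u := k • (δ • Ac.f₀).2) (v := k • Ac.f₀.2),
      Ac.dist_smul] at h4
    rw [mul_smul, Prod.smul_snd]
    change _ ≤ m at h3
    omega
  · simp only [SimpleGraph.Walk.length_copy, Ac.length_actWalk]
    exact Finset.le_sup (f := fun t : W × Γ => (wk t.1 t.2).length)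
      (mem_product.2 ⟨hr, hδ⟩ : (r, δ) ∈ _)
  · simp only [SimpleGraph.Walk.support_copy, Ac.support_actWalk, List.mem_map] at hw
    obtain ⟨w₀, hw₀, rfl⟩ := hw
    show Ac.proj (k • w₀) ∈ cone T c
    by_contra hout
    have h5 := dist_through Ac.isTree hc hz hout
    have h6 := (Ac.walk_proj ((wk r δ).takeUntil w₀ hw₀)).trans
      (Nat.mul_le_mul_left _ (((wk r δ).length_takeUntil_le_length hw₀).trans
        (Finset.le_sup (f := fun t : W × Γ => (wk t.1 t.2).length)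
          (mem_product.2 ⟨hr, hδ⟩ : (r, δ) ∈ _))))
    rw [Ac.proj_rep r hr] at h6
    rw [hpz, Ac.proj_smul] at h5
    rw [Ac.dist_smul] at h5
    change _ ≤ Ac.R * ℓ at h6
    rw [SimpleGraph.dist_comm (u := k • Ac.f₀.2) (v := c.2)] at h5
    nlinarith

end Vale.Agent.P165.Tree.Act
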