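import Vale.Agent.P165.Tree.Moments
import Vale.Agent.P165.Quot.BootReal

/-!
Uniform bounds on entry means and levels below the threshold: one number bounds the far entry
means and the sphere sums, the levels are polynomial in it, and the tails cut at a polynomial
cut-off give it back with a small power.
-/

open Finset
open scoped ENNReal

namespace Vale.Agent.P165.Tree.Act

open Vale.Agent.P165.Quot

variable {W V Γ : Type*} [Group Γ] [MulAction Γ W] [MulAction Γ V] {H : SimpleGraph W}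
  [DecidableEq W] {T : SimpleGraph V} (Ac : Act (Γ := Γ) H T)

/-- One number bounds the far entry means and the sphere sums. -/
def MeanBd (D : ℕ) (p P : ℝ) : Prop :=
  (∀ n : ℕ, Ac.meanFar D p n ≤ ENNReal.ofReal (P / ((n : ℝ) + 1) ^ 30)) ∧
    ∀ n : ℕ, Ac.meanSphere D p n ≤ ENNReal.ofReal (P * ((n : ℝ) + 1) ^ 3)

lemma halfTail_mono_param {p q : ℝ} (h0 : 0 ≤ p) (hpq : p ≤ q) (h1 : q ≤ 1) (D : ℕ) (x : W)
    (e : V × V) (K : ℕ) : Ac.halfTail D p x e K ≤ Ac.halfTail D q x e K :=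
  prob_mono_param h0 hpq h1 (incr_manyIn _ _ _ _)

/-- Reaching an entry means meeting the gate. -/
lemma halfTail_le_hitFar {p : ℝ} (h0 : 0 ≤ p) (h1 : p ≤ 1) (D : ℕ) {x : W} {e : V × V}
    (he : T.Adj e.1 e.2) (hx : Ac.proj x ∉ cone T e) {K : ℕ} (hK : 0 < K) :
    Ac.halfTail D p x e K ≤ Ac.hitFar p (T.dist (Ac.proj x) e.1) := by
  refine le_trans (prob_mono h0 h1 ?_) (le_iSup_of_le (f := fun y => ⨆ (c : V × V)
    (_ : T.Adj c.1 c.2 ∧ Ac.proj y ∉ cone T c ∧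
      T.dist (Ac.proj x) e.1 ≤ T.dist (Ac.proj y) c.1),
      prob H p (connTo Set.univ y (Ac.gate c))) x (le_iSup₂_of_le e ⟨he, hx, le_rfl⟩ le_rfl))
  rintro S - ⟨Y, hY, hmem⟩
  obtain ⟨y, hy⟩ := Finset.card_pos.1 (lt_of_lt_of_le hK hY)
  exact ⟨y, Ac.entry_subset_gate (hmem y hy).1,
    cl_mono subset_rfl (inPart_mono_set (Set.subset_univ _) S) (hmem y hy).2⟩

/-- A small power of the cut-off. -/
lemma cut_rpow_le {P N e : ℝ} {K : ℕ} (hP : 1 ≤ P) (hN : 1 ≤ N) (he : 0 ≤ e)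
    (he1 : e ≤ 3 / 2000) (hK : (K : ℝ) ≤ 2 * P ^ 58 * N ^ 43) :
    (K : ℝ) ^ e ≤ 2 * P ^ (1 / 10 : ℝ) * N := by
  have hP0 : (0 : ℝ) ≤ P := zero_le_one.trans hP
  have hN0 : (0 : ℝ) ≤ N := zero_le_one.trans hN
  refine (Real.rpow_le_rpow (Nat.cast_nonneg K) hK he).trans ?_
  rw [Real.mul_rpow (by positivity) (by positivity), Real.mul_rpow (by norm_num) (by positivity)]
  refine mul_le_mul (mul_le_mul ?_ ?_ (by positivity) (by norm_num)) ?_ (by positivity)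
    (by positivity)
  · simpa using Real.rpow_le_rpow_of_exponent_le one_le_two (show e ≤ 1 by linarith)
  · rw [← Real.rpow_natCast, ← Real.rpow_mul hP0]
    exact Real.rpow_le_rpow_of_exponent_le hP (by push_cast; linarith)
  · rw [← Real.rpow_natCast, ← Real.rpow_mul hN0]
    exact (Real.rpow_le_rpow_of_exponent_le hN (by push_cast; linarith : (43 : ℕ) * e ≤ 1)).trans
      (Real.rpow_one N).le

/-- Interpolating a power tail with a fast decaying constant. -/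
lemma interp_sum_le {θ X Y N P : ℝ} {F : ℕ → ℝ} {K : ℕ} (hθ : 0 < θ) (hθ1 : θ ≤ 1 / 100000)
    (hX : 0 ≤ X) (hY : 0 ≤ Y) (hN : 1 ≤ N) (hP : 1 ≤ P) (hK : (K : ℝ) ≤ 2 * P ^ 58 * N ^ 43)
    (h1 : ∀ i < K, F i ≤ X * N ^ (-(1 / θ)))
    (h2 : ∀ i < K, F i ≤ Y * ((i : ℝ) + 1) ^ (-(1 - θ))) :
    ∑ i ∈ range K, F i ≤
      2000 * (X ^ (1 / 1000 : ℝ) * Y ^ (1 - 1 / 1000 : ℝ)) * P ^ (1 / 10 : ℝ) / N ^ 30 := by
  have hN0 : (0 : ℝ) < N := zero_lt_one.trans_le hN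
  obtain ⟨a, ha⟩ : ∃ a : ℝ, a = (1 - θ) * (1 - 1 / 1000) := ⟨_, rfl⟩
  obtain ⟨Z, hZ⟩ : ∃ Z : ℝ, Z = X ^ (1 / 1000 : ℝ) * Y ^ (1 - 1 / 1000 : ℝ) := ⟨_, rfl⟩
  have hZ0 : 0 ≤ Z := hZ ▸ mul_nonneg (Real.rpow_nonneg hX _) (Real.rpow_nonneg hY _)
  rw [← hZ]
  have hstep : ∀ i ∈ range K, F i ≤ Z * (N ^ 31)⁻¹ * ((i : ℝ) + 1) ^ (-a) := by
    intro i hi
    rw [mem_range] at hi
    have hi0 : (0 : ℝ) < (i : ℝ) + 1 := by positivity
    refine ((le_min (h1 i hi) (h2 i hi)).trans (interp_le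
      (mul_nonneg hX (Real.rpow_nonneg hN0.le _)) (mul_nonneg hY (Real.rpow_nonneg hi0.le _))
      (by norm_num : (0 : ℝ) ≤ 1 / 1000) (by norm_num))).trans ?_
    rw [Real.mul_rpow hX (Real.rpow_nonneg hN0.le _),
      Real.mul_rpow hY (Real.rpow_nonneg hi0.le _), ← Real.rpow_mul hN0.le,
      ← Real.rpow_mul hi0.le, show -(1 - θ) * (1 - 1 / 1000) = -a by rw [ha]; ring]
    calc X ^ (1 / 1000 : ℝ) * N ^ (-(1 / θ) * (1 / 1000)) *
          (Y ^ (1 - 1 / 1000 : ℝ) * ((i : ℝ) + 1) ^ (-a))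
        = Z * N ^ (-(1 / θ) * (1 / 1000)) * ((i : ℝ) + 1) ^ (-a) := by rw [hZ]; ring
      _ ≤ _ := by
          refine mul_le_mul_of_nonneg_right (mul_le_mul_of_nonneg_left ?_ hZ0)
            (Real.rpow_nonneg hi0.le _)
          rw [← Real.rpow_natCast N 31, ← Real.rpow_neg hN0.le]
          refine Real.rpow_le_rpow_of_exponent_le hN ?_
          have : (100000 : ℝ) ≤ 1 / θ := by
            rw [le_div_iff₀ hθ]
            linarith
          push_cast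
          linarith
  have ha0 : 0 ≤ a := by rw [ha]; exact mul_nonneg (by linarith) (by norm_num)
  have ha1 : a ≤ 1 - 1 / 1000 := by
    rw [ha]
    exact mul_le_of_le_one_left (by norm_num) (by linarith)
  refine (sum_le_sum hstep).trans ?_
  rw [← mul_sum]
  have hKe : (K : ℝ) ^ (1 - a) ≤ 2 * P ^ (1 / 10 : ℝ) * N :=
    cut_rpow_le hP hN (by linarith) (by rw [ha]; linarith) hK
  have hP10 : 0 ≤ P ^ (1 / 10 : ℝ) := Real.rpow_nonneg (by linarith) _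
  have hsum : ∑ i ∈ range K, ((i : ℝ) + 1) ^ (-a) ≤ 2000 * P ^ (1 / 10 : ℝ) * N := by
    refine (sum_range_rpow_le ha0 (by linarith) K).trans ?_
    rw [div_le_iff₀ (by linarith)]
    calc (K : ℝ) ^ (1 - a) ≤ 2000 * P ^ (1 / 10 : ℝ) * N * (1 / 1000) := by linarith
      _ ≤ _ := mul_le_mul_of_nonneg_left (by linarith) (by positivity)
  refine (mul_le_mul_of_nonneg_left hsum (by positivity)).trans (le_of_eq ?_)
  field_simp

/-- The first `K` tails at one edge and over a sphere. -/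
lemma exists_tail_sums {q : ℝ} (hq0 : 0 ≤ q) (hq1 : q ≤ 1) (D : ℕ) {θ A : ℝ} (hθ : 0 < θ)
    (hθ1 : θ ≤ 1 / 100000) {C : ℝ≥0∞} (hC : C ≠ ⊤) (hT : Ac.TailBound D q θ C)
    (hdec : ∀ n : ℕ, Ac.hitFar q n ≤ ENNReal.ofReal (A * ((n : ℝ) + 1) ^ (-(1 / θ)))) :
    ∃ E : ℝ, 0 ≤ E ∧ ∀ p, 0 ≤ p → p ≤ q → ∀ P : ℝ, 1 ≤ P → ∀ n K : ℕ,
      (K : ℝ) ≤ 2 * P ^ 58 * ((n : ℝ) + 1) ^ 43 →
      (∀ (x : W) (e : V × V), T.Adj e.1 e.2 → Ac.proj x ∉ cone T e →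
        T.dist (Ac.proj x) e.1 = n → ∑ i ∈ range K, Ac.halfTail D p x e (i + 1) ≤
          ENNReal.ofReal (E * P ^ (1 / 10 : ℝ) / ((n : ℝ) + 1) ^ 30)) ∧
      (∑ i ∈ range K, ⨆ x : W, ∑' e : away T (Ac.proj x) n, Ac.halfTail D p x e (i + 1)) ≤
        ENNReal.ofReal (E * P ^ (1 / 10 : ℝ) * ((n : ℝ) + 1)) := by
  classical
  obtain ⟨C', hC'0, rfl⟩ : ∃ C' : ℝ, 0 ≤ C' ∧ C = ENNReal.ofReal C' :=
    ⟨C.toReal, ENNReal.toReal_nonneg, (ENNReal.ofReal_toReal hC).symm⟩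
  obtain ⟨X, hX⟩ : ∃ X : ℝ, X = max A 0 := ⟨_, rfl⟩
  have hX0 : 0 ≤ X := hX ▸ le_max_right _ _
  refine ⟨2000 * (X ^ (1 / 1000 : ℝ) * C' ^ (1 - 1 / 1000 : ℝ)) + 2 * C' / θ, by positivity,
    fun p h0 hpq P hP n K hK => ?_⟩
  have hN : (1 : ℝ) ≤ (n : ℝ) + 1 := by linarith [(Nat.cast_nonneg n : (0 : ℝ) ≤ n)]
  have hpow : ∀ i : ℕ, ENNReal.ofReal C' * ((i + 1 : ℕ) : ℝ≥0∞) ^ (-(1 - θ)) =
      ENNReal.ofReal (C' * ((i : ℝ) + 1) ^ (-(1 - θ))) := fun i => by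
    rw [ENNReal.ofReal_mul hC'0, ← ENNReal.ofReal_rpow_of_pos (by positivity),
      ← ENNReal.ofReal_natCast (i + 1), Nat.cast_succ]
  have hX1 : 0 ≤ X ^ (1 / 1000 : ℝ) * C' ^ (1 - 1 / 1000 : ℝ) :=
    mul_nonneg (Real.rpow_nonneg hX0 _) (Real.rpow_nonneg hC'0 _)
  have hP10 : (0 : ℝ) ≤ P ^ (1 / 10 : ℝ) := Real.rpow_nonneg (zero_le_one.trans hP) _
  constructor
  · intro x e he hxe hn
    have hne : ∀ i, Ac.halfTail D p x e (i + 1) ≠ ⊤ := fun i =>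
      ne_top_of_le_ne_top ENNReal.one_ne_top (prob_le_one h0 (hpq.trans hq1) _)
    rw [← sum_congr rfl fun i _ => ENNReal.ofReal_toReal (hne i),
      ← ENNReal.ofReal_sum_of_nonneg fun i _ => ENNReal.toReal_nonneg]
    refine ENNReal.ofReal_le_ofReal (le_trans (interp_sum_le hθ hθ1 hX0 hC'0 hN hP hK
      (fun i _ => ?_) (fun i _ => ?_)) ?_)
    · refine ENNReal.toReal_le_of_le_ofReal (by positivity) ?_
      refine ((Ac.halfTail_mono_param h0 hpq hq1 D x e _).trans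
        (Ac.halfTail_le_hitFar hq0 hq1 D he hxe (Nat.succ_pos i))).trans ?_
      rw [hn, hX]
      exact (hdec n).trans (ENNReal.ofReal_le_ofReal (mul_le_mul_of_nonneg_right
        (le_max_left _ _) (Real.rpow_nonneg (zero_le_one.trans hN) _)))
    · refine ENNReal.toReal_le_of_le_ofReal (by positivity) ?_
      rw [← hpow]
      refine (Ac.halfTail_mono_param h0 hpq hq1 D x e _).trans
        (le_trans ?_ (hT.1 x n (i + 1) (Nat.succ_pos i)))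
      exact ENNReal.le_tsum (f := fun f : away T (Ac.proj x) n =>
        Ac.halfTail D q x (f : V × V) (i + 1)) ⟨e, he, hxe, hn⟩
    · have h2 : 0 ≤ 2 * C' / θ := div_nonneg (by linarith) hθ.le
      exact div_le_div_of_nonneg_right
        (mul_le_mul_of_nonneg_right (le_add_of_nonneg_right h2) hP10) (by positivity)
  · refine (sum_le_sum fun i _ => iSup_le fun x =>
      (ENNReal.tsum_le_tsum fun e => Ac.halfTail_mono_param h0 hpq hq1 D x _ _).trans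
        ((hT.1 x n (i + 1) (Nat.succ_pos i)).trans_eq (hpow i))).trans ?_
    rw [← ENNReal.ofReal_sum_of_nonneg fun i _ => by positivity, ← mul_sum]
    refine ENNReal.ofReal_le_ofReal ?_
    have h1 := sum_range_rpow_le (a := 1 - θ) (by linarith) (by linarith) K
    rw [sub_sub_cancel] at h1
    have h2 := cut_rpow_le hP hN hθ.le (by linarith) hK
    calc C' * ∑ i ∈ range K, ((i : ℝ) + 1) ^ (-(1 - θ))
        ≤ C' * (2 * P ^ (1 / 10 : ℝ) * ((n : ℝ) + 1) / θ) :=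
          mul_le_mul_of_nonneg_left (h1.trans (div_le_div_of_nonneg_right h2 hθ.le)) hC'0
      _ = 2 * C' / θ * P ^ (1 / 10 : ℝ) * ((n : ℝ) + 1) := by ring
      _ ≤ _ := by
        gcongr
        exact le_add_of_nonneg_left (by positivity)

variable [H.LocallyFinite]

/-- The levels are polynomial in the bound on the means. -/
lemma exists_level_bound (hH : H.Connected) (D : ℕ) {p₀ : ℝ} (hp₀ : 0 < p₀) :
    ∃ c : ℝ, 1 ≤ c ∧ ∀ p, p₀ ≤ p → p < pc H → p ≤ 1 → ∀ P : ℝ, 1 ≤ P → Ac.MeanBd D p P →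
      ∀ k : ℕ, Ac.level p k ≤ ENNReal.ofReal (c * P ^ 19 * ((k : ℝ) + 1) ^ 3) := by
  obtain ⟨C₀, hC₀, hlev⟩ := Ac.exists_level_le hH D hp₀
  obtain ⟨C₁, Rc, R₁, hC₁, hfib⟩ := Ac.exists_fib_le hH D hp₀
  obtain ⟨c₀, hc₀, rfl⟩ : ∃ c : ℝ, 0 ≤ c ∧ C₀ = ENNReal.ofReal c :=
    ⟨C₀.toReal, ENNReal.toReal_nonneg, (ENNReal.ofReal_toReal hC₀).symm⟩
  obtain ⟨c₁, hc₁, rfl⟩ : ∃ c : ℝ, 0 ≤ c ∧ C₁ = ENNReal.ofReal c :=
    ⟨C₁.toReal, ENNReal.toReal_nonneg, (ENNReal.ofReal_toReal hC₁).symm⟩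
  obtain ⟨a, ha⟩ : ∃ a : ℝ, a = 2 * c₁ * ((R₁ : ℝ) + 1) ^ 3 + 1 := ⟨_, rfl⟩
  have ha1 : 1 ≤ a := ha ▸ le_add_of_nonneg_left (by positivity)
  obtain ⟨b, hb⟩ : ∃ b : ℝ, b = 2 * c₁ * (a + Rc + 2) ^ 8 + 1 := ⟨_, rfl⟩
  have hb1 : 1 ≤ b := hb ▸ le_add_of_nonneg_left (by positivity)
  refine ⟨b + 2 * c₀ * b, le_add_of_le_of_nonneg hb1 (by positivity),
    fun p hp hpc hp1 P hP hbd k => ?_⟩
  obtain ⟨hφ, hS⟩ := hbd
  have hP0 : (0 : ℝ) ≤ P := zero_le_one.trans hP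
  have haP : 1 ≤ a * P ^ 2 := one_le_mul_of_one_le_of_one_le ha1 (one_le_pow₀ hP)
  set L := ⌈a * P ^ 2⌉₊
  have hL1 : a * P ^ 2 ≤ L := Nat.le_ceil _
  have hL2 : (L : ℝ) ≤ a * P ^ 2 + 1 := (Nat.ceil_lt_add_one (by positivity)).le
  have hLpos : (0 : ℝ) < (L : ℝ) + 1 := by positivity
  -- the fibre
  have hsum : (∑ j ∈ range (L + Rc + 1), Ac.meanSphere D p j) ≤
      ENNReal.ofReal (P * ((a + Rc + 2) * P ^ 2) ^ 4) := by
    refine (sum_le_card_nsmul _ _ (ENNReal.ofReal (P * ((L : ℝ) + Rc + 1) ^ 3)) fun j hj =>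
      (hS j).trans (ENNReal.ofReal_le_ofReal ?_)).trans ?_
    · have : (j : ℝ) + 1 ≤ (L : ℝ) + Rc + 1 := by exact_mod_cast mem_range.1 hj
      gcongr
    · rw [card_range, nsmul_eq_mul, ← ENNReal.ofReal_natCast,
        ← ENNReal.ofReal_mul (Nat.cast_nonneg _)]
      refine ENNReal.ofReal_le_ofReal ?_
      push_cast
      have h1 : (L : ℝ) + Rc + 1 ≤ (a + Rc + 2) * P ^ 2 := by
        have : (Rc : ℝ) + 2 ≤ ((Rc : ℝ) + 2) * P ^ 2 :=
          le_mul_of_one_le_right (by positivity) (one_le_pow₀ hP)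
        linarith
      calc ((L : ℝ) + Rc + 1) * (P * ((L : ℝ) + Rc + 1) ^ 3)
          = P * ((L : ℝ) + Rc + 1) ^ 4 := by ring
        _ ≤ _ := by gcongr
  have hlong : ENNReal.ofReal c₁ * Ac.meanSphere D p (L + R₁) * Ac.meanFar D p L ≤
      ENNReal.ofReal (1 / 2) := by
    refine (mul_le_mul' (mul_le_mul_right (hS _) _) (hφ L)).trans ?_
    rw [← ENNReal.ofReal_mul hc₁, ← ENNReal.ofReal_mul (by positivity)]
    refine ENNReal.ofReal_le_ofReal ?_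
    have h1 : ((L + R₁ : ℕ) : ℝ) + 1 ≤ ((R₁ : ℝ) + 1) * ((L : ℝ) + 1) := by
      push_cast
      nlinarith [(Nat.cast_nonneg L : (0 : ℝ) ≤ L), (Nat.cast_nonneg R₁ : (0 : ℝ) ≤ R₁)]
    calc c₁ * (P * (((L + R₁ : ℕ) : ℝ) + 1) ^ 3) * (P / ((L : ℝ) + 1) ^ 30)
        ≤ c₁ * (P * (((R₁ : ℝ) + 1) * ((L : ℝ) + 1)) ^ 3) * (P / ((L : ℝ) + 1) ^ 30) := by
          gcongr
      _ = c₁ * ((R₁ : ℝ) + 1) ^ 3 * P ^ 2 / ((L : ℝ) + 1) ^ 27 := by
          field_simp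
      _ ≤ 1 / 2 := by
          rw [div_le_iff₀ (by positivity)]
          have h2 : (L : ℝ) + 1 ≤ ((L : ℝ) + 1) ^ 27 :=
            le_self_pow₀ (by linarith [(Nat.cast_nonneg L : (0 : ℝ) ≤ L)]) (by norm_num)
          rw [ha] at hL1
          nlinarith [sq_nonneg P]
  obtain ⟨C, r, hC, -, -, -, hfin, -, -⟩ := Ac.exists_finite_below hH D (hp₀.le.trans hp) hpc
  have hfibne : Ac.fib p Ac.R ≠ ⊤ := ne_top_of_le_ne_top hC (hfin _)
  have hF : Ac.fib p Ac.R ≤ ENNReal.ofReal (b * P ^ 18) := by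
    have h := (hfib p hp hp1 L).trans (add_le_add
      (mul_le_mul_right (pow_le_pow_left' hsum 2) _) (mul_le_mul_left hlong _))
    rw [← ENNReal.ofReal_toReal hfibne, ← ENNReal.ofReal_mul (by norm_num),
      ← ENNReal.ofReal_pow (by positivity), ← ENNReal.ofReal_mul hc₁,
      ← ENNReal.ofReal_add (by positivity) (by positivity),
      ENNReal.ofReal_le_ofReal_iff (by positivity)] at h
    rw [← ENNReal.ofReal_toReal hfibne]
    refine ENNReal.ofReal_le_ofReal ?_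
    have e : 2 * (c₁ * (P * ((a + Rc + 2) * P ^ 2) ^ 4) ^ 2) =
        2 * c₁ * (a + Rc + 2) ^ 8 * P ^ 18 := by ring
    have hP18 : 0 ≤ P ^ 18 := by positivity
    rw [hb, add_mul]
    linarith
  rcases k with - | k
  · refine le_trans (le_trans ?_ hF) (ENNReal.ofReal_le_ofReal ?_)
    · refine iSup_le fun x => le_trans (le_of_eq ?_) (le_iSup_of_le (f := fun x => ⨆ (q : V)
        (_ : T.dist (Ac.proj x) q ≤ Ac.R), mean H p Set.univ x {z | Ac.proj z = q}) x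
        (le_iSup₂_of_le (Ac.proj x) (by rw [SimpleGraph.dist_self]; exact Nat.zero_le _) le_rfl))
      congr 1
      ext z
      simp only [Set.mem_ofPred_eq]
      rw [Ac.isTree.connected.dist_eq_zero_iff]
      exact eq_comm
    · have hP19 : P ^ 18 ≤ P ^ 19 := pow_le_pow_right₀ hP (by norm_num)
      simp only [Nat.cast_zero, zero_add, one_pow, mul_one]
      refine mul_le_mul ?_ hP19 (by positivity) (by positivity)
      exact le_add_of_nonneg_right (by positivity)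
  · refine (hlev p hp hp1 k).trans ?_
    refine (mul_le_mul' (mul_le_mul_right (add_le_add_right (hS k) 1) _) hF).trans ?_
    rw [← ENNReal.ofReal_one, ← ENNReal.ofReal_add zero_le_one (by positivity),
      ← ENNReal.ofReal_mul hc₀, ← ENNReal.ofReal_mul (by positivity)]
    refine ENNReal.ofReal_le_ofReal ?_
    push_cast
    have h1 : (1 : ℝ) + P * ((k : ℝ) + 1) ^ 3 ≤ 2 * P * ((k : ℝ) + 1 + 1) ^ 3 := by
      have h2 : ((k : ℝ) + 1) ^ 3 ≤ ((k : ℝ) + 1 + 1) ^ 3 := by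
        gcongr
        linarith
      have h3 : (1 : ℝ) ≤ ((k : ℝ) + 1 + 1) ^ 3 :=
        one_le_pow₀ (by linarith [(Nat.cast_nonneg k : (0 : ℝ) ≤ k)])
      nlinarith
    calc c₀ * (1 + P * ((k : ℝ) + 1) ^ 3) * (b * P ^ 18)
        ≤ c₀ * (2 * P * ((k : ℝ) + 1 + 1) ^ 3) * (b * P ^ 18) := by gcongr
      _ = 2 * c₀ * b * P ^ 19 * ((k : ℝ) + 1 + 1) ^ 3 := by ring
      _ ≤ _ := by
          gcongr
          exact le_add_of_nonneg_left (zero_le_one.trans hb1)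

omit [H.LocallyFinite] in
/-- The bound of a moment by the levels. -/
lemma farMean_le {D Rc : ℕ} {p P c : ℝ} (hP : 1 ≤ P) (hc : 1 ≤ c)
    (hφ : ∀ n : ℕ, Ac.meanFar D p n ≤ ENNReal.ofReal (P / ((n : ℝ) + 1) ^ 30))
    (hlev : ∀ k : ℕ, Ac.level p k ≤ ENNReal.ofReal (c * P ^ 19 * ((k : ℝ) + 1) ^ 3)) :
    (∑ j ∈ range (Rc + 1), Ac.level p j) ≤ ENNReal.ofReal (c * ((Rc : ℝ) + 1) ^ 4 * P ^ 19) ∧
    ∀ d : ℕ, Ac.farMean D Rc p d ≤ ENNReal.ofReal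
      (2 * c * ((Rc : ℝ) + 1) ^ 4 * (2 * (Rc : ℝ) + 2) ^ 30 * P ^ 19 / ((d : ℝ) + 1) ^ 30) := by
  have hlevs : (∑ j ∈ range (Rc + 1), Ac.level p j) ≤
      ENNReal.ofReal (c * ((Rc : ℝ) + 1) ^ 4 * P ^ 19) := by
    refine (sum_le_card_nsmul _ _ (ENNReal.ofReal (c * P ^ 19 * ((Rc : ℝ) + 1) ^ 3)) fun j hj =>
      (hlev j).trans (ENNReal.ofReal_le_ofReal ?_)).trans ?_
    · have : (j : ℝ) + 1 ≤ (Rc : ℝ) + 1 := by exact_mod_cast mem_range.1 hj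
      gcongr
    · rw [card_range, nsmul_eq_mul, ← ENNReal.ofReal_natCast,
        ← ENNReal.ofReal_mul (Nat.cast_nonneg _)]
      refine ENNReal.ofReal_le_ofReal (le_of_eq ?_)
      push_cast
      ring
  refine ⟨hlevs, fun d => ?_⟩
  obtain ⟨G, hG⟩ : ∃ G : ℝ, G = c * ((Rc : ℝ) + 1) ^ 4 * P ^ 19 := ⟨_, rfl⟩
  have hPG : P ≤ G := by
    rw [hG]
    refine (le_self_pow₀ hP (by norm_num : (19 : ℕ) ≠ 0)).trans
      (le_mul_of_one_le_left (by positivity) (one_le_mul_of_one_le_of_one_le hc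
        (one_le_pow₀ (le_add_of_nonneg_left (Nat.cast_nonneg _)))))
  rw [← hG] at hlevs
  have hP0 : (0 : ℝ) ≤ P := zero_le_one.trans hP
  have hG0 : 0 ≤ G := hP0.trans hPG
  have e : 2 * c * ((Rc : ℝ) + 1) ^ 4 * (2 * (Rc : ℝ) + 2) ^ 30 * P ^ 19 =
      2 * (2 * (Rc : ℝ) + 2) ^ 30 * G := by
    rw [hG]
    generalize (2 * (Rc : ℝ) + 2) ^ 30 = M
    ring
  rw [e, farMean]
  by_cases hd : d ≤ 2 * Rc
  · rw [if_pos hd]
    refine (add_le_add ((hφ _).trans (ENNReal.ofReal_le_ofReal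
      ((div_le_self hP0 (one_le_pow₀ (le_add_of_nonneg_left (Nat.cast_nonneg _)))).trans hPG)))
      hlevs).trans ?_
    rw [← ENNReal.ofReal_add hG0 hG0]
    refine ENNReal.ofReal_le_ofReal ?_
    rw [le_div_iff₀ (by positivity)]
    have h1 : (d : ℝ) + 1 ≤ 2 * (Rc : ℝ) + 2 := by
      have : (d : ℝ) ≤ 2 * (Rc : ℝ) := by exact_mod_cast hd
      linarith
    calc (G + G) * ((d : ℝ) + 1) ^ 30 ≤ (G + G) * (2 * (Rc : ℝ) + 2) ^ 30 := by gcongr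
      _ = _ := by
          generalize (2 * (Rc : ℝ) + 2) ^ 30 = M
          ring
  · rw [if_neg hd, add_zero]
    refine (hφ _).trans (ENNReal.ofReal_le_ofReal ?_)
    rw [Nat.cast_sub (by omega), div_le_div_iff₀ (pow_pos (by
      have : (Rc : ℝ) ≤ d := by exact_mod_cast (show Rc ≤ d by omega)
      linarith) _) (by positivity)]
    have hd' : 2 * (Rc : ℝ) + 1 ≤ d := by exact_mod_cast (show 2 * Rc + 1 ≤ d by omega)
    have h1 : (d : ℝ) + 1 ≤ (2 * (Rc : ℝ) + 2) * ((d : ℝ) - Rc + 1) := by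
      nlinarith [(Nat.cast_nonneg Rc : (0 : ℝ) ≤ Rc)]
    calc P * ((d : ℝ) + 1) ^ 30 ≤ G * ((2 * (Rc : ℝ) + 2) * ((d : ℝ) - Rc + 1)) ^ 30 := by gcongr
      _ ≤ 2 * (G * ((2 * (Rc : ℝ) + 2) * ((d : ℝ) - Rc + 1)) ^ 30) :=
          le_mul_of_one_le_left (mul_nonneg hG0 (pow_nonneg (mul_nonneg (by positivity)
            (by linarith)) _)) one_le_two
      _ = _ := by
          rw [mul_pow]
          generalize (2 * (Rc : ℝ) + 2) ^ 30 = M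
          generalize ((d : ℝ) - Rc + 1) ^ 30 = M'
          ring

/-- The cut-off. -/
lemma exists_cut {P : ℝ} (hP : 1 ≤ P) (n : ℕ) : ∃ K : ℕ, 0 < K ∧
    P ^ 58 * ((n : ℝ) + 1) ^ 43 ≤ K ∧ (K : ℝ) ≤ 2 * P ^ 58 * ((n : ℝ) + 1) ^ 43 := by
  have h1 : (1 : ℝ) ≤ P ^ 58 * ((n : ℝ) + 1) ^ 43 :=
    one_le_mul_of_one_le_of_one_le (one_le_pow₀ hP)
      (one_le_pow₀ (by linarith [(Nat.cast_nonneg n : (0 : ℝ) ≤ n)]))
  refine ⟨_, Nat.ceil_pos.2 (zero_lt_one.trans_le h1), Nat.le_ceil _, ?_⟩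
  have := Nat.ceil_lt_add_one (zero_le_one.trans h1)
  linarith

lemma succ_le_dist_mul (k n : ℕ) :
    (k : ℝ) + 1 ≤ ((n : ℝ) + 1) * ((Nat.dist k n : ℝ) + 1) := by
  have h : k + 1 ≤ (n + 1) * (Nat.dist k n + 1) := by
    unfold Nat.dist
    nlinarith [Nat.zero_le (n * (k - n + (n - k))), (show k ≤ n + (k - n + (n - k)) by omega)]
  exact_mod_cast h

omit [H.LocallyFinite] in
/-- The far means from the layer cake. -/
lemma meanFar_step {D Rh : ℕ} {p P c F E Z : ℝ} (hP : 1 ≤ P) (hc0 : 0 ≤ c) (hF0 : 0 ≤ F)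
    (hE0 : 0 ≤ E) (hZ0 : 0 ≤ Z)
    (hZ : ∀ a, 0 ≤ a → ∑' m : ℕ, ENNReal.ofReal (a / ((m : ℝ) + 1) ^ 2) ≤ ENNReal.ofReal (a * Z))
    (hhalf : ∀ (x : W) (e : V × V) (K : ℕ), T.Adj e.1 e.2 → Ac.proj x ∉ cone T e → 0 < K →
      Ac.halfMean D p x e ≤ (∑ i ∈ range K, Ac.halfTail D p x e (i + 1)) +
        (∑' k : ℕ, Ac.level p k *
          Ac.farMean D Rh p (Nat.dist k (T.dist (Ac.proj x) e.1)) ^ 2) / K)
    (hE : ∀ n K : ℕ, (K : ℝ) ≤ 2 * P ^ 58 * ((n : ℝ) + 1) ^ 43 → ∀ (x : W) (e : V × V),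
      T.Adj e.1 e.2 → Ac.proj x ∉ cone T e → T.dist (Ac.proj x) e.1 = n →
      ∑ i ∈ range K, Ac.halfTail D p x e (i + 1) ≤
        ENNReal.ofReal (E * P ^ (1 / 10 : ℝ) / ((n : ℝ) + 1) ^ 30))
    (hl : ∀ k : ℕ, Ac.level p k ≤ ENNReal.ofReal (c * P ^ 19 * ((k : ℝ) + 1) ^ 3))
    (hfh : ∀ d : ℕ, Ac.farMean D Rh p d ≤ ENNReal.ofReal (F * P ^ 19 / ((d : ℝ) + 1) ^ 30))
    (n : ℕ) : Ac.meanFar D p n ≤
      ENNReal.ofReal ((E + c * F ^ 2 * Z) * P ^ (1 / 10 : ℝ) / ((n : ℝ) + 1) ^ 30) := by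
  have hP0 : (0 : ℝ) ≤ P := zero_le_one.trans hP
  have hP10 : 1 ≤ P ^ (1 / 10 : ℝ) := Real.one_le_rpow hP (by norm_num)
  refine iSup_le fun x => iSup₂_le fun e he => ?_
  obtain ⟨he1, he2, he3⟩ := he
  obtain ⟨m, hm⟩ : ∃ m, T.dist (Ac.proj x) e.1 = m := ⟨_, rfl⟩
  rw [hm] at he3
  obtain ⟨K, hK0, hKge, hKle⟩ := exists_cut hP m
  have hKR : (0 : ℝ) < K := Nat.cast_pos.2 hK0
  refine (hhalf x e K he1 he2 hK0).trans ?_
  rw [hm]
  have hsec : (∑' k : ℕ, Ac.level p k * Ac.farMean D Rh p (Nat.dist k m) ^ 2) ≤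
      ENNReal.ofReal (c * F ^ 2 * P ^ 57 * ((m : ℝ) + 1) ^ 5 * Z) := by
    refine le_trans (ENNReal.tsum_le_tsum fun k => ?_) (hZ _ (by positivity))
    refine (mul_le_mul' (hl k) (pow_le_pow_left' (hfh _) 2)).trans ?_
    rw [← ENNReal.ofReal_pow (by positivity), ← ENNReal.ofReal_mul (by positivity)]
    refine ENNReal.ofReal_le_ofReal ?_
    rw [div_pow, mul_div, div_le_div_iff₀ (by positivity) (by positivity)]
    have h5 : ((k : ℝ) + 1) ^ 5 ≤ ((m : ℝ) + 1) ^ 5 * ((Nat.dist k m : ℝ) + 1) ^ 60 := by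
      refine (pow_le_pow_left₀ (by positivity) (succ_le_dist_mul k m) 5).trans ?_
      rw [mul_pow]
      exact mul_le_mul_of_nonneg_left (pow_le_pow_right₀
        (le_add_of_nonneg_left (Nat.cast_nonneg _)) (by norm_num)) (by positivity)
    calc c * P ^ 19 * ((k : ℝ) + 1) ^ 3 * (F * P ^ 19) ^ 2 * ((k : ℝ) + 1) ^ 2
        = c * F ^ 2 * P ^ 57 * ((k : ℝ) + 1) ^ 5 := by ring
      _ ≤ c * F ^ 2 * P ^ 57 * (((m : ℝ) + 1) ^ 5 * ((Nat.dist k m : ℝ) + 1) ^ 60) := by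
          gcongr
      _ = _ := by ring
  refine (add_le_add (hE m K hKle x e he1 he2 hm)
    (ENNReal.div_le_div_right hsec _)).trans ?_
  rw [← ENNReal.ofReal_natCast K, ← ENNReal.ofReal_div_of_pos hKR,
    ← ENNReal.ofReal_add (by positivity) (by positivity)]
  refine ENNReal.ofReal_le_ofReal ?_
  have hN : (1 : ℝ) ≤ (m : ℝ) + 1 := le_add_of_nonneg_left (Nat.cast_nonneg _)
  have h2 : c * F ^ 2 * P ^ 57 * ((m : ℝ) + 1) ^ 5 * Z / K ≤
      c * F ^ 2 * Z * P ^ (1 / 10 : ℝ) / ((m : ℝ) + 1) ^ 30 := by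
    rw [div_le_div_iff₀ hKR (by positivity)]
    calc c * F ^ 2 * P ^ 57 * ((m : ℝ) + 1) ^ 5 * Z * ((m : ℝ) + 1) ^ 30
        = c * F ^ 2 * Z * (P ^ 57 * ((m : ℝ) + 1) ^ 35) := by ring
      _ ≤ c * F ^ 2 * Z * (P ^ 58 * ((m : ℝ) + 1) ^ 43) := by
          gcongr <;> norm_num
      _ ≤ c * F ^ 2 * Z * K := mul_le_mul_of_nonneg_left hKge (by positivity)
      _ ≤ _ := mul_le_mul_of_nonneg_right
          (le_mul_of_one_le_right (by positivity) hP10) hKR.le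
  refine (add_le_add le_rfl h2).trans ?_
  rw [← add_div, ← add_mul]
  refine (div_le_div_of_nonneg_right (mul_le_mul_of_nonneg_right ?_
    (zero_le_one.trans hP10)) (by positivity)).trans
    (div_le_div_of_nonneg_left (by positivity) (by positivity)
      (pow_le_pow_left₀ (by positivity) (by exact_mod_cast Nat.succ_le_succ he3) 30))
  linarith

omit [H.LocallyFinite] in
/-- The sphere sums from the layer cake. -/
lemma meanSphere_step {D Rs : ℕ} {p P c F' Lv E Z : ℝ} (hP : 1 ≤ P) (hc0 : 0 ≤ c) (hF'0 : 0 ≤ F')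
    (hLv : 0 ≤ Lv) (hE0 : 0 ≤ E) (hZ0 : 0 ≤ Z)
    (hZ : ∀ a, 0 ≤ a → ∑' m : ℕ, ENNReal.ofReal (a / ((m : ℝ) + 1) ^ 2) ≤ ENNReal.ofReal (a * Z))
    (hsph : ∀ n K : ℕ, 0 < K → Ac.meanSphere D p n ≤ (∑ i ∈ range K,
          ⨆ x : W, ∑' e : away T (Ac.proj x) n, Ac.halfTail D p x e (i + 1)) +
        (∑' k : ℕ, Ac.level p k * Ac.farMean D Rs p (Nat.dist k n) *
          ∑ l ∈ range (k + n + 1),
            (Ac.meanSphere D p l + (∑ j ∈ range (Rs + 1), Ac.level p j))) / K)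
    (hE : ∀ n K : ℕ, (K : ℝ) ≤ 2 * P ^ 58 * ((n : ℝ) + 1) ^ 43 →
      (∑ i ∈ range K, ⨆ x : W, ∑' e : away T (Ac.proj x) n, Ac.halfTail D p x e (i + 1)) ≤
        ENNReal.ofReal (E * P ^ (1 / 10 : ℝ) * ((n : ℝ) + 1)))
    (hS : ∀ n : ℕ, Ac.meanSphere D p n ≤ ENNReal.ofReal (P * ((n : ℝ) + 1) ^ 3))
    (hl : ∀ k : ℕ, Ac.level p k ≤ ENNReal.ofReal (c * P ^ 19 * ((k : ℝ) + 1) ^ 3))
    (hls : (∑ j ∈ range (Rs + 1), Ac.level p j) ≤ ENNReal.ofReal (Lv * P ^ 19))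
    (hfs : ∀ d : ℕ, Ac.farMean D Rs p d ≤ ENNReal.ofReal (F' * P ^ 19 / ((d : ℝ) + 1) ^ 30))
    (n : ℕ) : Ac.meanSphere D p n ≤
      ENNReal.ofReal ((E + c * F' * (1 + Lv) * Z) * P ^ (1 / 10 : ℝ) * ((n : ℝ) + 1) ^ 3) := by
  have hP0 : (0 : ℝ) ≤ P := zero_le_one.trans hP
  have hP10 : 1 ≤ P ^ (1 / 10 : ℝ) := Real.one_le_rpow hP (by norm_num)
  obtain ⟨K, hK0, hKge, hKle⟩ := exists_cut hP n
  have hKR : (0 : ℝ) < K := Nat.cast_pos.2 hK0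
  refine (hsph n K hK0).trans ?_
  have hsec : (∑' k : ℕ, Ac.level p k * Ac.farMean D Rs p (Nat.dist k n) *
      ∑ l ∈ range (k + n + 1), (Ac.meanSphere D p l + ∑ j ∈ range (Rs + 1), Ac.level p j)) ≤
      ENNReal.ofReal
        (c * F' * (1 + Lv) * P ^ 57 * ((n : ℝ) + 1) ^ 13 * Z) := by
    refine le_trans (ENNReal.tsum_le_tsum fun k => ?_) (hZ _ (by positivity))
    have hin : (∑ l ∈ range (k + n + 1),
        (Ac.meanSphere D p l + ∑ j ∈ range (Rs + 1), Ac.level p j)) ≤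
        ENNReal.ofReal ((1 + Lv) * P ^ 19 *
          (((k : ℝ) + 1) * ((n : ℝ) + 1)) ^ 4) := by
      refine (sum_le_card_nsmul _ _ (ENNReal.ofReal ((1 + Lv) * P ^ 19 *
        (((k : ℝ) + 1) * ((n : ℝ) + 1)) ^ 3)) fun l hl' => ?_).trans ?_
      · refine (add_le_add (hS l) hls).trans ?_
        rw [← ENNReal.ofReal_add (by positivity) (by positivity)]
        refine ENNReal.ofReal_le_ofReal ?_
        have hl1 : (l : ℝ) + 1 ≤ ((k : ℝ) + 1) * ((n : ℝ) + 1) := by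
          have h : (l : ℝ) + 1 ≤ (k : ℝ) + n + 1 := by exact_mod_cast mem_range.1 hl'
          nlinarith [(Nat.cast_nonneg k : (0 : ℝ) ≤ k), (Nat.cast_nonneg n : (0 : ℝ) ≤ n)]
        have hX : (1 : ℝ) ≤ (((k : ℝ) + 1) * ((n : ℝ) + 1)) ^ 3 :=
          one_le_pow₀ (le_trans (le_add_of_nonneg_left (Nat.cast_nonneg l)) hl1)
        calc P * ((l : ℝ) + 1) ^ 3 + Lv * P ^ 19
            ≤ P ^ 19 * (((k : ℝ) + 1) * ((n : ℝ) + 1)) ^ 3 + Lv * P ^ 19 *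
                (((k : ℝ) + 1) * ((n : ℝ) + 1)) ^ 3 := by
              refine add_le_add (mul_le_mul (le_self_pow₀ hP (by norm_num))
                (pow_le_pow_left₀ (by positivity) hl1 3) (by positivity) (by positivity)) ?_
              exact le_mul_of_one_le_right (by positivity) hX
          _ = _ := by ring
      · rw [card_range, nsmul_eq_mul, ← ENNReal.ofReal_natCast,
          ← ENNReal.ofReal_mul (Nat.cast_nonneg _)]
        refine ENNReal.ofReal_le_ofReal ?_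
        push_cast
        have h : (k : ℝ) + n + 1 ≤ ((k : ℝ) + 1) * ((n : ℝ) + 1) := by
          nlinarith [(Nat.cast_nonneg k : (0 : ℝ) ≤ k), (Nat.cast_nonneg n : (0 : ℝ) ≤ n)]
        refine (mul_le_mul_of_nonneg_right h (by positivity)).trans (le_of_eq ?_)
        ring
    refine (mul_le_mul' (mul_le_mul' (hl k) (hfs _)) hin).trans ?_
    rw [← ENNReal.ofReal_mul (by positivity), ← ENNReal.ofReal_mul (by positivity)]
    refine ENNReal.ofReal_le_ofReal ?_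
    rw [mul_div, div_mul_eq_mul_div, div_le_div_iff₀ (by positivity) (by positivity)]
    have h9 : ((k : ℝ) + 1) ^ 9 ≤ ((n : ℝ) + 1) ^ 9 * ((Nat.dist k n : ℝ) + 1) ^ 30 := by
      refine (pow_le_pow_left₀ (by positivity) (succ_le_dist_mul k n) 9).trans ?_
      rw [mul_pow]
      exact mul_le_mul_of_nonneg_left (pow_le_pow_right₀
        (le_add_of_nonneg_left (Nat.cast_nonneg _)) (by norm_num)) (by positivity)
    calc c * P ^ 19 * ((k : ℝ) + 1) ^ 3 * (F' * P ^ 19) * ((1 + Lv) *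
          P ^ 19 * (((k : ℝ) + 1) * ((n : ℝ) + 1)) ^ 4) * ((k : ℝ) + 1) ^ 2
        = c * F' * (1 + Lv) * P ^ 57 * ((n : ℝ) + 1) ^ 4 *
            ((k : ℝ) + 1) ^ 9 := by ring
      _ ≤ c * F' * (1 + Lv) * P ^ 57 * ((n : ℝ) + 1) ^ 4 *
            (((n : ℝ) + 1) ^ 9 * ((Nat.dist k n : ℝ) + 1) ^ 30) := by gcongr
      _ = _ := by ring
  refine (add_le_add (hE n K hKle)
    (ENNReal.div_le_div_right hsec _)).trans ?_
  rw [← ENNReal.ofReal_natCast K, ← ENNReal.ofReal_div_of_pos hKR,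
    ← ENNReal.ofReal_add (by positivity) (by positivity)]
  refine ENNReal.ofReal_le_ofReal ?_
  have hN : (1 : ℝ) ≤ (n : ℝ) + 1 := le_add_of_nonneg_left (Nat.cast_nonneg _)
  obtain ⟨G, hG⟩ : ∃ G : ℝ, G = c * F' * (1 + Lv) := ⟨_, rfl⟩
  have hG0 : 0 ≤ G := hG ▸ by positivity
  rw [← hG]
  have h2 : G * P ^ 57 * ((n : ℝ) + 1) ^ 13 * Z / K ≤ G * Z := by
    rw [div_le_iff₀ hKR]
    calc G * P ^ 57 * ((n : ℝ) + 1) ^ 13 * Z = G * Z * (P ^ 57 * ((n : ℝ) + 1) ^ 13) := by ring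
      _ ≤ G * Z * (P ^ 58 * ((n : ℝ) + 1) ^ 43) := by
          gcongr <;> norm_num
      _ ≤ _ := mul_le_mul_of_nonneg_left hKge (by positivity)
  refine (add_le_add le_rfl h2).trans ?_
  have hN3 : (n : ℝ) + 1 ≤ ((n : ℝ) + 1) ^ 3 := le_self_pow₀ hN (by norm_num)
  calc E * P ^ (1 / 10 : ℝ) * ((n : ℝ) + 1) + G * Z
      ≤ E * P ^ (1 / 10 : ℝ) * ((n : ℝ) + 1) ^ 3 +
          G * Z * P ^ (1 / 10 : ℝ) * ((n : ℝ) + 1) ^ 3 := by
        refine add_le_add (by gcongr) ?_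
        refine le_trans (le_mul_of_one_le_right (by positivity) hP10)
          (le_mul_of_one_le_right (by positivity) (one_le_pow₀ hN))
    _ = (E + G * Z) * P ^ (1 / 10 : ℝ) * ((n : ℝ) + 1) ^ 3 := by ring

/-- One round of the bootstrap. -/
lemma exists_step (hH : H.Connected) {q : ℝ} (hq0 : 0 < q) (hq1 : q ≤ 1) (hqpc : q ≤ pc H)
    (D : ℕ) {θ A : ℝ} (hθ : 0 < θ) (hθ1 : θ ≤ 1 / 100000) {C : ℝ≥0∞} (hC : C ≠ ⊤)
    (hT : Ac.TailBound D q θ C)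
    (hdec : ∀ n : ℕ, Ac.hitFar q n ≤ ENNReal.ofReal (A * ((n : ℝ) + 1) ^ (-(1 / θ)))) :
    ∃ S : ℝ, 1 ≤ S ∧ ∀ p, q / 2 ≤ p → p < q → ∀ P : ℝ, 1 ≤ P → Ac.MeanBd D p P →
      Ac.MeanBd D p (S * P ^ (1 / 10 : ℝ)) := by
  classical
  obtain ⟨c, hc, hlev⟩ := Ac.exists_level_bound hH D (p₀ := q / 2) (by linarith)
  obtain ⟨Rh, hhalf⟩ := Ac.exists_halfMean_le hH D
  obtain ⟨Rs, hsph⟩ := Ac.exists_meanSphere_le hH D
  obtain ⟨E, hE0, hE⟩ := Ac.exists_tail_sums hq0.le hq1 D hθ hθ1 hC hT hdec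
  obtain ⟨Z, hZ1, hZ⟩ := exists_inv_sq_bound
  obtain ⟨F, hF⟩ : ∃ F : ℝ, F = 2 * c * ((Rh : ℝ) + 1) ^ 4 * (2 * (Rh : ℝ) + 2) ^ 30 := ⟨_, rfl⟩
  obtain ⟨F', hF'⟩ : ∃ F' : ℝ, F' = 2 * c * ((Rs : ℝ) + 1) ^ 4 * (2 * (Rs : ℝ) + 2) ^ 30 :=
    ⟨_, rfl⟩
  obtain ⟨Lv, hLvd⟩ : ∃ Lv : ℝ, Lv = c * ((Rs : ℝ) + 1) ^ 4 := ⟨_, rfl⟩
  have hc0 : 0 ≤ c := zero_le_one.trans hc
  have hZ0 : 0 ≤ Z := zero_le_one.trans hZ1
  have hF0 : 0 ≤ F := hF ▸ by positivity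
  have hF'0 : 0 ≤ F' := hF' ▸ by positivity
  have hLv : 0 ≤ Lv := hLvd ▸ by positivity
  have hS1 : 0 ≤ c * F ^ 2 * Z := by positivity
  have hS2 : 0 ≤ c * F' * (1 + Lv) * Z := by positivity
  refine ⟨1 + E + c * F ^ 2 * Z + c * F' * (1 + Lv) * Z, by linarith,
    fun p hqp hpq P hP hbd => ?_⟩
  have hp0 : 0 ≤ p := by linarith
  have hp1 : p ≤ 1 := hpq.le.trans hq1
  have hP10 : 0 ≤ P ^ (1 / 10 : ℝ) := Real.rpow_nonneg (zero_le_one.trans hP) _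
  obtain ⟨hφ, hS⟩ := hbd
  have hl := hlev p hqp (hpq.trans_le hqpc) hp1 P hP ⟨hφ, hS⟩
  obtain ⟨-, hfh⟩ := Ac.farMean_le (Rc := Rh) hP hc hφ hl
  obtain ⟨hls, hfs⟩ := Ac.farMean_le (Rc := Rs) hP hc hφ hl
  simp only [← hF] at hfh
  simp only [← hF'] at hfs
  rw [← hLvd] at hls
  refine ⟨fun n => (Ac.meanFar_step hP hc0 hF0 hE0 hZ0 hZ (hhalf p hp0 hp1)
      (fun n K hK => (hE p hp0 hpq.le P hP n K hK).1) hl hfh n).trans (ENNReal.ofReal_le_ofReal ?_),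
    fun n => (Ac.meanSphere_step hP hc0 hF'0 hLv hE0 hZ0 hZ (hsph p hp0 hp1)
      (fun n K hK => (hE p hp0 hpq.le P hP n K hK).2) hS hl hls hfs n).trans
        (ENNReal.ofReal_le_ofReal ?_)⟩
  · exact div_le_div_of_nonneg_right (mul_le_mul_of_nonneg_right (by linarith) hP10)
      (by positivity)
  · exact mul_le_mul_of_nonneg_right (mul_le_mul_of_nonneg_right (by linarith) hP10)
      (by positivity)

/-- A tail bound and fast decay at the threshold bound the entry means and levels below it. -/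
theorem exists_bound (hH : H.Connected) (hpc : 0 < pc H) (hpc1 : pc H ≤ 1) (D : ℕ) {θ A : ℝ}
    (hθ : 0 < θ) (hθ1 : θ ≤ 1 / 100000) {C : ℝ≥0∞} (hC : C ≠ ⊤)
    (hT : Ac.TailBound D (pc H) θ C)
    (hdec : ∀ n : ℕ, Ac.hitFar (pc H) n ≤ ENNReal.ofReal (A * ((n : ℝ) + 1) ^ (-(1 / θ)))) :
    ∃ B : ℝ, 0 ≤ B ∧ ∀ p, pc H / 2 ≤ p → p < pc H → ∀ n : ℕ,
      Ac.meanFar D p n ≤ ENNReal.ofReal (B * ((n : ℝ) + 1) ^ (-(8 : ℝ))) ∧
      Ac.level p n ≤ ENNReal.ofReal (B * ((n : ℝ) + 1) ^ 8) := by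
  classical
  obtain ⟨S, hS1, hS⟩ := Ac.exists_step hH hpc hpc1 le_rfl D hθ hθ1 hC hT hdec
  obtain ⟨c, hc, hlev⟩ := Ac.exists_level_bound hH D (p₀ := pc H / 2) (by linarith)
  obtain ⟨Q, hQ⟩ : ∃ Q : ℝ, Q = (2 * S) ^ (1 / (1 - 1 / 10) : ℝ) + 1 := ⟨_, rfl⟩
  have hQ1 : 1 ≤ Q := hQ ▸ le_add_of_nonneg_left (by positivity)
  have hcQ : 0 ≤ c * Q ^ 19 := mul_nonneg (zero_le_one.trans hc) (by positivity)
  refine ⟨Q + c * Q ^ 19, by linarith, fun p hqp hpq n => ?_⟩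
  have hp0 : 0 ≤ p := by linarith
  let Ps : Set ℝ := {P | 1 ≤ P ∧ Ac.MeanBd D p P}
  have hne : Ps.Nonempty := by
    obtain ⟨C', r, hC', hr0, hr1, -, -, hsph, hfar⟩ := Ac.exists_finite_below hH D hp0 hpq
    obtain ⟨M, hM⟩ : ∃ M : ℝ, ∀ k : ℕ, ((k : ℝ) + 1) ^ 30 * r ^ k ≤ M := by
      have h := tendsto_pow_const_mul_const_pow_of_lt_one 30 hr0 hr1
      obtain ⟨M, hM⟩ := h.bddAbove_range
      refine ⟨2 ^ 30 * (max M 1), fun k => ?_⟩
      have hM' : (k : ℝ) ^ 30 * r ^ k ≤ max M 1 := (hM ⟨k, rfl⟩).trans (le_max_left _ _)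
      rcases Nat.eq_zero_or_pos k with rfl | hk
      · norm_num
        nlinarith [le_max_right M 1]
      · have h2 : (k : ℝ) + 1 ≤ 2 * k := by
          have : (1 : ℝ) ≤ k := by exact_mod_cast hk
          linarith
        calc ((k : ℝ) + 1) ^ 30 * r ^ k ≤ (2 * (k : ℝ)) ^ 30 * r ^ k := by gcongr
          _ = 2 ^ 30 * ((k : ℝ) ^ 30 * r ^ k) := by ring
          _ ≤ _ := mul_le_mul_of_nonneg_left hM' (by positivity)
    refine ⟨max 1 (max C'.toReal (C'.toReal * M)), le_max_left _ _, fun k => ?_, fun k => ?_⟩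
    · refine (hfar k).trans ?_
      rw [← ENNReal.ofReal_pow hr0, ← ENNReal.ofReal_toReal hC',
        ← ENNReal.ofReal_mul ENNReal.toReal_nonneg, ENNReal.toReal_ofReal ENNReal.toReal_nonneg]
      refine ENNReal.ofReal_le_ofReal ?_
      rw [le_div_iff₀ (by positivity)]
      refine le_trans ?_ ((le_max_right _ _).trans (le_max_right _ _))
      rw [mul_assoc, mul_comm (r ^ k)]
      exact mul_le_mul_of_nonneg_left (hM k) ENNReal.toReal_nonneg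
    · refine (hsph k).trans ?_
      rw [← ENNReal.ofReal_toReal hC', ENNReal.toReal_ofReal ENNReal.toReal_nonneg]
      exact ENNReal.ofReal_le_ofReal (((le_max_left _ _).trans (le_max_right _ _)).trans
        (le_mul_of_one_le_right (zero_le_one.trans (le_max_left _ _))
          (one_le_pow₀ (le_add_of_nonneg_left (Nat.cast_nonneg _)))))
  obtain ⟨x, hx⟩ : ∃ x, x = sInf Ps := ⟨_, rfl⟩
  have hbdd : BddBelow Ps := ⟨1, fun P hP => hP.1⟩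
  have hx1 : 1 ≤ x := hx ▸ le_csInf hne fun P hP => hP.1
  obtain ⟨P, ⟨hP1, hP⟩, hPlt⟩ := exists_lt_of_csInf_lt hne (show sInf Ps < 2 * x by linarith)
  have hmem : S * P ^ (1 / 10 : ℝ) ∈ Ps :=
    ⟨one_le_mul_of_one_le_of_one_le hS1 (Real.one_le_rpow hP1 (by norm_num)),
      hS p hqp hpq P hP1 hP⟩
  have hself : x ≤ 2 * S * x ^ (1 / 10 : ℝ) := by
    refine (hx ▸ csInf_le hbdd hmem : x ≤ S * P ^ (1 / 10 : ℝ)).trans ?_
    calc S * P ^ (1 / 10 : ℝ) ≤ S * (2 * x) ^ (1 / 10 : ℝ) := by gcongr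
      _ ≤ S * (2 * x ^ (1 / 10 : ℝ)) := by
          rw [Real.mul_rpow zero_le_two (by linarith)]
          gcongr
          simpa using Real.rpow_le_rpow_of_exponent_le one_le_two
            (show (1 / 10 : ℝ) ≤ 1 by norm_num)
      _ = _ := by ring
  have hxQ : sInf Ps < Q := by
    have := self_bound (by linarith) (by linarith) (by norm_num) (by norm_num) hself
    rw [← hx, hQ]
    linarith
  obtain ⟨P', ⟨hP'1, hP'⟩, hP'Q⟩ := exists_lt_of_csInf_lt hne hxQ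
  have hN : (1 : ℝ) ≤ (n : ℝ) + 1 := le_add_of_nonneg_left (Nat.cast_nonneg _)
  refine ⟨(hP'.1 n).trans (ENNReal.ofReal_le_ofReal ?_),
    (hlev p hqp hpq (hpq.le.trans hpc1) P' hP'1 hP' n).trans (ENNReal.ofReal_le_ofReal ?_)⟩
  · rw [show (-(8 : ℝ)) = -((8 : ℕ) : ℝ) by norm_num, Real.rpow_neg (by positivity),
      Real.rpow_natCast, ← div_eq_mul_inv]
    refine div_le_div₀ (by linarith) (by linarith) (by positivity)
      (pow_le_pow_right₀ hN (by norm_num))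
  · have h1 : c * P' ^ 19 ≤ Q + c * Q ^ 19 := by
      have : c * P' ^ 19 ≤ c * Q ^ 19 := mul_le_mul_of_nonneg_left
        (pow_le_pow_left₀ (by linarith) hP'Q.le 19) (zero_le_one.trans hc)
      linarith
    exact mul_le_mul h1 (pow_le_pow_right₀ hN (by norm_num)) (by positivity) (by linarith)

end Vale.Agent.P165.Tree.Act
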