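import Vale.Agent.P165.Tree.Basic

/-!
From a free cofinite action on a graph and an action on a tree with a half-tree that contains two
disjoint translates of itself and whose complement lies in a translate, to the working data.
-/

open Finset

namespace Vale.Agent.P165.Tree

variable {W V Γ : Type*} [Group Γ] [MulAction Γ V] {T : SimpleGraph V}

/-- A half-tree avoiding the head of an edge lies on one side of it. -/
lemma side_of_head_not_mem (hT : T.IsTree) {e f : V × V} (he : T.Adj e.1 e.2)
    (hf : T.Adj f.1 f.2) (ho : f.2 ∉ cone T e) :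
    cone T e ⊆ cone T f ∨ cone T e ⊆ (cone T f)ᶜ := by
  by_contra h
  obtain ⟨h1, h2⟩ := not_or.1 h
  obtain ⟨v, hv, hvf⟩ := Set.not_subset.1 h1
  obtain ⟨u, hu, huf⟩ := Set.not_subset.1 h2
  have huf' : u ∈ cone T f := not_not.1 huf
  have a1 := dist_through hT hf huf' hvf
  have a2 := dist_head_of_not_mem hT hf hvf
  have a3 := dist_through hT he hu ho
  have a4 := dist_through hT he hv ho
  have a5 := hT.connected.dist_triangle (u := u) (v := e.2) (w := v)
  rw [SimpleGraph.dist_comm (u := f.1) (v := v)] at a1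
  rw [SimpleGraph.dist_comm (u := e.2) (v := v)] at a5
  omega

/-- The hypothesis on the tree action: two disjoint translates inside a half-tree, one translate
covering its complement. -/
structure Flip (T : SimpleGraph V) (f : V × V) (a b d : Γ) : Prop where
  adj : T.Adj f.1 f.2
  inv : ∀ (g : Γ) u v, T.Adj (g • u) (g • v) ↔ T.Adj u v
  left : cone T (a • f) ⊆ cone T f
  right : cone T (b • f) ⊆ cone T f
  disj : Disjoint (cone T (a • f)) (cone T (b • f))
  flip : (cone T f)ᶜ ⊆ cone T (d • f)

lemma smul_cone_iff (hinv : ∀ (g : Γ) u v, T.Adj (g • u) (g • v) ↔ T.Adj u v) (g : Γ) (e : V × V)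
    (v : V) : g • v ∈ cone T (g • e) ↔ v ∈ cone T e := by
  let φ : T ≃g T := { toEquiv := MulAction.toPerm g, map_rel_iff' := hinv g _ _ }
  have h : ∀ u w : V, T.dist (g • u) (g • w) = T.dist u w := fun u w => dist_map φ u w
  simp only [cone, Set.mem_ofPred_eq, Prod.smul_fst, Prod.smul_snd, h]

lemma exists_below_above (hT : T.IsTree) {f : V × V} {a b d : Γ} (F : Flip T f a b d)
    {e : V × V} (he : T.Adj e.1 e.2) :
    (f.2 ∉ cone T e → cone T e ⊆ cone T f ∨ cone T e ⊆ cone T (d • f)) ∧
    (f.2 ∈ cone T e →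
      (cone T (a • f) ⊆ cone T e ∧ cone T (b • f) ⊆ cone T e) ∨
      (cone T ((b⁻¹ * a * a) • f) ⊆ cone T e ∧ cone T ((b⁻¹ * a * b) • f) ⊆ cone T e)) := by
  refine ⟨fun ho => (side_of_head_not_mem hT he F.adj ho).imp id fun h => h.trans F.flip,
    fun ho => ?_⟩
  have hrev : f.2 ∉ cone T (e.2, e.1) := fun h => (mem_cone_swap hT he).1 h ho
  have hmem : ∀ {v}, v ∈ cone T (e.2, e.1) ∨ v ∈ cone T e := fun {v} => by
    by_cases h : v ∈ cone T e
    exacts [.inr h, .inl ((mem_cone_swap hT he).2 h)]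
  rcases side_of_head_not_mem hT (e := (e.2, e.1)) he.symm F.adj hrev with h | h
  · refine .inr ?_
    have key : ∀ g : Γ, cone T (g • f) ⊆ cone T f →
        cone T ((b⁻¹ * a * g) • f) ⊆ cone T e := by
      intro g hg v hv
      refine (hmem (v := v)).resolve_left fun hve => ?_
      have hvf := h hve
      obtain ⟨u, rfl⟩ : ∃ u : V, b⁻¹ • a • u = v :=
        ⟨a⁻¹ • b • v, by rw [smul_inv_smul, inv_smul_smul]⟩
      rw [mul_smul, mul_smul, smul_cone_iff F.inv, smul_cone_iff F.inv] at hv
      refine Set.disjoint_left.1 F.disj ((smul_cone_iff F.inv a f u).2 (hg hv)) ?_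
      have := (smul_cone_iff F.inv b f _).2 hvf
      rwa [smul_inv_smul] at this
    exact ⟨key a F.left, key b F.right⟩
  · refine .inl ⟨fun v hv => ?_, fun v hv => ?_⟩
    · exact (hmem (v := v)).resolve_left fun hve => h hve (F.left hv)
    · exact (hmem (v := v)).resolve_left fun hve => h hve (F.right hv)

variable [MulAction Γ W] {H : SimpleGraph W}

open Vale.Agent.P165.Quot in
/-- The data from the hypotheses. -/
theorem exists_act [H.LocallyFinite] (hH : H.Connected)
    (hadj : ∀ (g : Γ) x y, H.Adj (g • x) (g • y) ↔ H.Adj x y)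
    (hfree : ∀ (g : Γ) (x : W), g • x = x → g = 1)
    (hfin : ∃ F : Set W, F.Finite ∧ ∀ x, ∃ g : Γ, g • x ∈ F) (hT : T.IsTree) {f : V × V}
    {a b d : Γ} (F : Flip T f a b d) : Nonempty (Act (Γ := Γ) H T) := by
  classical
  obtain ⟨Fs, hF, hcov⟩ := hfin
  let q : W → MulAction.orbitRel.Quotient Γ W := Quotient.mk''
  have : Fintype (MulAction.orbitRel.Quotient Γ W) := by
    have := hF.fintype
    refine Fintype.ofSurjective (fun x : Fs => q x) fun o => ?_
    induction o using Quotient.inductionOn' with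
    | h x =>
      obtain ⟨g, hg⟩ := hcov x
      exact ⟨⟨g • x, hg⟩, Quotient.sound' ⟨g, rfl⟩⟩
  let out : MulAction.orbitRel.Quotient Γ W → W := Quotient.out
  have hmem : ∀ x : W, ∃ g : Γ, g • out (q x) = x := fun x => by
    obtain ⟨g, hg⟩ : out (q x) ∈ MulAction.orbit Γ x :=
      Quotient.mk_out (s := MulAction.orbitRel Γ W) x
    exact ⟨g⁻¹, inv_smul_eq_iff.2 hg.symm⟩
  choose g hg using hmem
  have huniq : ∀ (x : W) (h : Γ), h • out (q x) = x → g x = h := fun x h hh =>
    inv_mul_eq_one.1 (hfree _ (out (q x)) (by rw [mul_smul, hh, inv_smul_eq_iff, hg]))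
  have hq : ∀ (h : Γ) (x : W), q (h • x) = q x := fun h x => Quotient.sound' ⟨h, rfl⟩
  have hgs : ∀ (h : Γ) (x : W), g (h • x) = h * g x := fun h x =>
    huniq _ _ (by rw [hq, mul_smul, hg])
  have hqo : ∀ o, q (out o) = o := fun o => Quotient.out_eq' o
  have hgo : ∀ o, g (out o) = 1 := fun o => huniq _ _ (by rw [hqo, one_smul])
  set proj : W → V := fun x => g x • f.2 with hproj
  set reps : Finset W := univ.image out
  have hrep : ∀ x : W, out (q x) ∈ reps := fun x => mem_image_of_mem _ (mem_univ _)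
  refine ⟨{
    isTree := hT, tree_smul := F.inv, adj_smul := hadj, free := hfree, reps := reps
    cover := fun x => ⟨g x, out (q x), hrep x, hg x⟩
    rep_inj := ?_
    r₀ := out (q hH.nonempty.some), r₀_mem := hrep _
    f₀ := f, f₀_adj := F.adj, proj := proj
    proj_smul := fun h x => by simp only [proj, hgs, mul_smul]
    proj_rep := ?_
    R := reps.sup fun r => (H.neighborFinset r).sup fun y => T.dist f.2 (proj y)
    jump := ?_
    moves := {1, d, a, b, b⁻¹ * a * a, b⁻¹ * a * b}
    below := ?_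
    above := ?_ }⟩
  · intro r hr r' hr' h hh
    obtain ⟨o, -, rfl⟩ := mem_image.1 hr
    obtain ⟨o', -, rfl⟩ := mem_image.1 hr'
    have := hq h (out o)
    rw [hh, hqo, hqo] at this
    rw [this]
  · intro r hr
    obtain ⟨o, -, rfl⟩ := mem_image.1 hr
    simp only [proj, hgo, one_smul]
  · intro x y hxy
    have e : g x • (g x)⁻¹ • y = y := smul_inv_smul _ _
    have hadj' : H.Adj (out (q x)) ((g x)⁻¹ • y) := by
      rw [← hadj (g x), hg, e]
      exact hxy
    refine le_trans (le_of_eq ?_) (le_trans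
      (le_sup (f := fun y => T.dist f.2 (proj y)) ((H.mem_neighborFinset _ _).2 hadj'))
      (le_sup (f := fun r => (H.neighborFinset r).sup fun y => T.dist f.2 (proj y)) (hrep x)))
    let φ : T ≃g T := { toEquiv := MulAction.toPerm (g x)⁻¹, map_rel_iff' := F.inv _ _ _ }
    have hφ : ∀ v, φ v = (g x)⁻¹ • v := fun _ => rfl
    rw [← dist_map φ (proj x) (proj y), hφ, hφ]
    simp only [proj, hgs, mul_smul, inv_smul_smul]
  · intro e he ho
    rcases (exists_below_above hT F he).1 ho with h | h
    exacts [⟨1, by simp, by simpa using h⟩, ⟨d, by simp, h⟩]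
  · intro e he ho
    rcases (exists_below_above hT F he).2 ho with ⟨h, h'⟩ | ⟨h, h'⟩
    · exact ⟨a, by simp, b, by simp, h, h', F.disj⟩
    · refine ⟨_, by simp, _, by simp, h, h', ?_⟩
      rw [Set.disjoint_left]
      intro v hv hv'
      obtain ⟨u, rfl⟩ : ∃ u, (b⁻¹ * a) • u = v := ⟨(b⁻¹ * a)⁻¹ • v, smul_inv_smul _ v⟩
      rw [mul_smul, smul_cone_iff F.inv] at hv hv'
      exact Set.disjoint_left.1 F.disj hv hv'

end Vale.Agent.P165.Tree
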