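import Vale.Agent.P165.Tree.Basic
import Vale.Agent.P165.Quot.Finite

/-!
One stage: translates of one block carry many entries of a type to many entries of a child.
-/

open Finset
open scoped ENNReal

namespace Vale.Agent.P165.Tree.Act

open Vale.Agent.P165.Quot

variable {W V Γ : Type*} [Group Γ] [MulAction Γ W] [MulAction Γ V] {H : SimpleGraph W}
  [DecidableEq W] {T : SimpleGraph V} {Ac : Act (Γ := Γ) H T}

open scoped Classical in
/-- The mean that the seeds `Y` send to the child `v` at the type `τ`. -/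
noncomputable def Hop.flow {D : ℕ} {p : ℝ} {σ : W × (V × V)} {types : Finset (W × (V × V))}
    (h : Ac.Hop D p σ types) (Y : Finset Γ) (τ : W × (V × V)) (v : V × V) : ℝ :=
  ∑ y ∈ Y, ∑ e ∈ h.A.filter (fun e => y • e = v ∧ h.kind e = τ), h.g e

omit [MulAction Γ V] in
/-- A point of a bounded cluster meets few of finitely many events based at distinct seeds. -/
lemma sum_pr_le_mul_exists {p : ℝ} (h0 : 0 ≤ p) (h1 : p ≤ 1) (U : Finset (Sym2 W)) {ι : Type*}
    (s : Finset ι) (B : ι → Finset (Sym2 W) → Prop) {N : ℕ}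
    (hN : ∀ S, S ⊆ U → ∀ t : Finset ι, t ⊆ s → (∀ i ∈ t, B i S) → t.card ≤ N) :
    ∑ i ∈ s, pr p U (B i) ≤ N * pr p U (fun S => ∃ i ∈ s, B i S) := by
  classical
  simp only [pr, sum_filter, mul_sum]
  rw [sum_comm]
  refine sum_le_sum fun S hS => ?_
  have hw := wt_nonneg h0 h1 U S
  by_cases hex : ∃ i ∈ s, B i S
  · rw [if_pos hex, ← sum_filter, sum_const, nsmul_eq_mul]
    exact mul_le_mul_of_nonneg_right (Nat.cast_le.2
      (hN S (mem_powerset.1 hS) _ (filter_subset _ _) fun i hi => (mem_filter.1 hi).2)) hw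
  · rw [if_neg hex, mul_zero, sum_eq_zero fun i hi => if_neg fun h => hex ⟨i, hi, h⟩]

open scoped Classical in
/-- Seeds of one type send many entries of the child, with high probability when the flow is
large. -/
theorem exists_stage {D : ℕ} {p : ℝ} (h0 : 0 ≤ p) (h1 : p ≤ 1) {σ : W × (V × V)}
    {types : Finset (W × (V × V))} (h : Ac.Hop D p σ types) :
    ∃ L : ℕ, ∀ (c v : V × V) (τ : W × (V × V)) (Y : Finset Γ), (∀ y ∈ Y, y • σ.2 = c) →
      0 < h.flow Y τ v →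
      ∃ U' : Finset (Sym2 W), ↑U' ⊆ H.edgeSet ∧ ↑U' ⊆ Ac.outE D v \ Ac.outE D c ∧
        1 - 4 * L / h.flow Y τ v ≤ pr p U' (manyFrom (Ac.outE D v) (Y.image fun y : Γ => y • σ.1)
          {u | OfKind (Γ := Γ) τ u v} ⌈h.flow Y τ v / 2⌉₊) := by
  have cancel : ∀ {a b : Γ} {x : W}, a • x = b • x → a = b := fun {a b x} e =>
    inv_mul_eq_one.1 (Ac.free (a⁻¹ * b) x (by rw [mul_smul, ← e, inv_smul_smul]))
  -- everything a landing looks at, seen from the landing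
  set Z₀ : Finset Γ := h.A.biUnion h.Z with hZ₀
  set mv : Γ → (Sym2 W ↪ Sym2 W) :=
    fun g => (MulAction.toPerm (α := Γ) (β := W) g).toEmbedding.sym2Map with hmv
  have hmv_apply : ∀ g e, mv g e = Sym2.map (fun x => g • x) e := fun g e => rfl
  set V₁ : Finset W := Z₀.biUnion fun γ => h.U.biUnion fun e => e.toFinset.image fun x => γ⁻¹ • x
    with hV₁
  refine ⟨(V₁ ×ˢ V₁).card + 1, fun c v τ Y hY hflow => ?_⟩
  -- the seeds with a child at `v` of the type `τ`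
  set Y' := Y.filter fun y => y⁻¹ • v ∈ h.A ∧ h.kind (y⁻¹ • v) = τ with hY'
  have hflow' : h.flow Y τ v = ∑ y ∈ Y', h.g (y⁻¹ • v) := by
    rw [Hop.flow, hY', sum_filter]
    refine sum_congr rfl fun y _ => ?_
    have heq : ∀ e, y • e = v ↔ e = y⁻¹ • v := fun e => by rw [eq_inv_smul_iff]
    simp only [heq]
    by_cases hc : y⁻¹ • v ∈ h.A ∧ h.kind (y⁻¹ • v) = τ
    · rw [if_pos hc, sum_eq_single (y⁻¹ • v)]
      · intro e he hne
        exact absurd (mem_filter.1 he).2.1 hne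
      · intro hno
        exact absurd (mem_filter.2 ⟨hc.1, rfl, hc.2⟩) hno
    · rw [if_neg hc]
      refine sum_eq_zero fun e he => ?_
      obtain ⟨he, rfl, hk⟩ := mem_filter.1 he
      exact absurd ⟨he, hk⟩ hc
  -- the edges a seed may use, and the points it may land at
  set base : Γ → Finset (Sym2 W) := fun y => h.U.filter (· ∈ Ac.outE D (y⁻¹ • v)) with hbase
  set blk : Γ → Finset (Sym2 W) := fun y => (base y).map (mv y) with hblk
  set Δ : Finset Γ := Y'.biUnion fun y => (h.Z (y⁻¹ • v)).image fun γ => y * γ with hΔ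
  set src : Γ → Finset Γ := fun δ => Y'.filter fun y => y⁻¹ * δ ∈ h.Z (y⁻¹ • v) with hsrc
  set loc : Γ → Finset (Sym2 W) := fun δ => (src δ).biUnion blk with hloc
  set U' : Finset (Sym2 W) := Y'.biUnion blk with hU'
  have hblkU : ∀ y ∈ Y', blk y ⊆ U' := fun y hy => subset_biUnion_of_mem blk hy
  have hUe : ↑U' ⊆ H.edgeSet := by
    intro a ha
    obtain ⟨y, -, ha⟩ := mem_biUnion.1 (mem_coe.1 ha)
    obtain ⟨a₀, ha₀, rfl⟩ := mem_map.1 ha
    have he := h.U_edges (mem_coe.2 (mem_filter.1 ha₀).1)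
    induction a₀ with
    | h a b => exact (Ac.adj_smul y a b).2 he
  have hinj : ∀ y : Γ, Function.Injective (Sym2.map (Ac.actW y)) := fun y =>
    Sym2.map.injective (Ac.actW y).injective
  have hUout : ↑U' ⊆ Ac.outE D v \ Ac.outE D c := by
    intro a ha
    obtain ⟨y, hy, ha⟩ := mem_biUnion.1 (mem_coe.1 ha)
    obtain ⟨a₀, ha₀, rfl⟩ := mem_map.1 ha
    obtain ⟨ha₁, ha₂⟩ := mem_filter.1 ha₀
    refine ⟨?_, fun hc => ?_⟩
    · have := Ac.smul_outE D y (y⁻¹ • v)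
      rw [smul_inv_smul] at this
      rw [← this]
      exact ⟨a₀, ha₂, rfl⟩
    · rw [← hY y (mem_filter.1 hy).1, ← Ac.smul_outE D y σ.2] at hc
      obtain ⟨a₁, ha₁', heq⟩ := hc
      rw [hinj y heq] at ha₁'
      exact ha₁' (h.U_core (mem_coe.2 ha₁))
  refine ⟨U', hUe, hUout, ?_⟩
  set X : Γ → Finset (Sym2 W) → Prop :=
    fun δ S => ∃ y ∈ src δ, δ • τ.1 ∈ cl {y • σ.1} (S ∩ blk y) with hX
  -- a seed reaches its landings through a small cluster with probability at least `g * Lt`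
  set good : Γ → Γ → Finset (Sym2 W) → Prop := fun δ y S =>
    δ • τ.1 ∈ cl {y • σ.1} (S ∩ blk y) ∧ ¬ manyIn Set.univ (δ • τ.1) Set.univ (h.Lt + 1) S with hgood
  have hone : ∀ y ∈ Y', h.g (y⁻¹ • v) * h.Lt ≤
      ∑ γ ∈ h.Z (y⁻¹ • v), pr p U' (good (y * γ) y) := by
    intro y hy
    obtain ⟨hyA, hyk⟩ := (mem_filter.1 hy).2
    have hhit := h.g_hit _ hyA
    rw [hyk] at hhit
    have h1' : pr p h.U (connTo (Ac.outE D (y⁻¹ • v)) σ.1
        ((fun γ : Γ => γ • τ.1) '' ↑(h.Z (y⁻¹ • v)))) ≤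
        ∑ γ ∈ h.Z (y⁻¹ • v), pr p U' (fun S => (y * γ) • τ.1 ∈ cl {y • σ.1} (S ∩ blk y)) := by
      refine (pr_le_sum h0 h1 (h.Z (y⁻¹ • v))
        (fun γ S => γ • τ.1 ∈ cl {σ.1} (S ∩ base y)) fun S hS hc => ?_).trans (le_of_eq ?_)
      · obtain ⟨_, ⟨γ, hγ, rfl⟩, hc⟩ := hc
        refine ⟨γ, hγ, cl_mono subset_rfl (fun a ha => ?_) hc⟩
        obtain ⟨ha1, ha2⟩ := mem_inPart.1 ha
        exact mem_inter.2 ⟨ha1, mem_filter.2 ⟨hS ha1, ha2⟩⟩
      · refine sum_congr rfl fun γ _ => ?_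
        rw [pr_marginal p (filter_subset _ _) fun S => γ • τ.1 ∈ cl {σ.1} S,
          pr_marginal p (hblkU y hy) fun S => (y * γ) • τ.1 ∈ cl {y • σ.1} S,
          show blk y = (base y).map (mv y) from rfl, pr_image]
        refine pr_congr fun S _ => ?_
        rw [mul_smul]
        exact (cl_map (MulAction.toPerm (α := Γ) (β := W) y) σ.1 (γ • τ.1) S).symm
    have h2 : ∀ γ ∈ h.Z (y⁻¹ • v),
        pr p U' (fun S => (y * γ) • τ.1 ∈ cl {y • σ.1} (S ∩ blk y)) ≤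
          pr p U' (good (y * γ) y) + h.tau := by
      intro γ _
      have hbig : pr p U' (manyIn Set.univ ((y * γ) • τ.1) Set.univ (h.Lt + 1)) ≤ h.tau := by
        have hp : ENNReal.ofReal (pr p U' (manyIn Set.univ ((y * γ) • τ.1) Set.univ (h.Lt + 1))) ≤
            prob H p (manyIn Set.univ ((y * γ) • τ.1) Set.univ (h.Lt + 1)) :=
          le_iSup₂_of_le U' hUe le_rfl
        exact (ENNReal.ofReal_le_ofReal_iff h.tau_nonneg).1 (hp.trans (h.tail _))
      refine le_trans ?_ (add_le_add_right hbig _)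
      refine le_trans ?_ (le_trans (le_add_of_nonneg_right (pr_nonneg h0 h1 _ _))
        (pr_or_and p U' (good (y * γ) y)
          (manyIn Set.univ ((y * γ) • τ.1) Set.univ (h.Lt + 1))).le)
      refine pr_mono h0 h1 fun S _ hS => ?_
      by_cases hb : manyIn Set.univ ((y * γ) • τ.1) Set.univ (h.Lt + 1) S
      · exact Or.inr hb
      · exact Or.inl ⟨hS, hb⟩
    have h3 := h1'.trans (sum_le_sum h2)
    rw [sum_add_distrib, sum_const, nsmul_eq_mul] at h3
    linarith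
  have hfew : ∀ δ ∈ Δ, ∑ y ∈ src δ, pr p U' (good δ y) ≤ h.Lt * pr p U' (X δ) := by
    intro δ _
    refine (sum_pr_le_mul_exists h0 h1 U' (src δ) (good δ) fun S _ t _ ht => ?_).trans
      (mul_le_mul_of_nonneg_left (pr_mono h0 h1 fun S _ ⟨y, hy, hg⟩ => ⟨y, hy, hg.1⟩)
        (Nat.cast_nonneg _))
    by_contra hlt
    obtain ⟨y₀, hy₀⟩ := card_pos.1 (show 0 < t.card by omega)
    refine (ht y₀ hy₀).2 ⟨t.image fun y : Γ => y • σ.1, ?_, fun w hw => ⟨Set.mem_univ _, ?_⟩⟩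
    · rw [card_image_of_injective _ fun a b e => cancel e]
      omega
    · obtain ⟨y, hy, rfl⟩ := mem_image.1 hw
      have := (ht y hy).1
      rw [mem_cl_single] at this ⊢
      refine (this.mono (SimpleGraph.fromEdgeSet_mono fun a ha => ?_)).symm
      exact mem_coe.2 (mem_inPart.2 ⟨(mem_inter.1 (mem_coe.1 ha)).1, Set.mem_univ a⟩)
  have hμ : h.flow Y τ v ≤ ∑ δ ∈ Δ, pr p U' (X δ) := by
    refine le_of_mul_le_mul_left ?_ (show (0 : ℝ) < h.Lt by exact_mod_cast h.Lt_pos)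
    rw [mul_sum, hflow', mul_sum]
    calc ∑ y ∈ Y', (h.Lt : ℝ) * h.g (y⁻¹ • v)
        ≤ ∑ y ∈ Y', ∑ δ ∈ Δ.filter (fun δ => y⁻¹ * δ ∈ h.Z (y⁻¹ • v)), pr p U' (good δ y) := by
          refine sum_le_sum fun y hy => ?_
          rw [mul_comm]
          refine (hone y hy).trans (le_of_eq ?_)
          refine sum_bij' (fun γ _ => y * γ) (fun δ _ => y⁻¹ * δ) ?_ ?_ ?_ ?_ ?_
          · intro γ hγ
            exact mem_filter.2 ⟨mem_biUnion.2 ⟨y, hy, mem_image_of_mem _ hγ⟩,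
              by rwa [inv_mul_cancel_left]⟩
          · intro δ hδ
            exact (mem_filter.1 hδ).2
          · intro γ _
            exact inv_mul_cancel_left y γ
          · intro δ _
            exact mul_inv_cancel_left y δ
          · intro γ _
            rfl
      _ = ∑ δ ∈ Δ, ∑ y ∈ src δ, pr p U' (good δ y) := by
          simp only [hsrc, sum_filter]
          exact sum_comm
      _ ≤ ∑ δ ∈ Δ, (h.Lt : ℝ) * pr p U' (X δ) := sum_le_sum hfew
  have hlocal : ∀ δ ∈ Δ, ∀ S ⊆ U', (X δ S ↔ X δ (S ∩ loc δ)) := by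
    intro δ _ S _
    refine exists_congr fun y => and_congr_right fun hy => ?_
    rw [inter_assoc, inter_eq_right.2 (show blk y ⊆ loc δ from subset_biUnion_of_mem blk hy)]
  have hsee : ∀ δ, ∀ a ∈ loc δ, ∀ x ∈ a, ∃ x₀ ∈ V₁, δ • x₀ = x := by
    intro δ a ha x hx
    obtain ⟨y, hy, ha⟩ := mem_biUnion.1 ha
    obtain ⟨a₀, ha₀, rfl⟩ := mem_map.1 ha
    obtain ⟨hyY, hγ⟩ := mem_filter.1 hy
    rw [hmv_apply, Sym2.mem_map] at hx
    obtain ⟨x₀, hx₀, rfl⟩ := hx
    refine ⟨(y⁻¹ * δ)⁻¹ • x₀, mem_biUnion.2 ⟨y⁻¹ * δ,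
      mem_biUnion.2 ⟨_, (mem_filter.1 hyY).2.1, hγ⟩, mem_biUnion.2 ⟨a₀, (mem_filter.1 ha₀).1,
        mem_image.2 ⟨x₀, Sym2.mem_toFinset.2 hx₀, rfl⟩⟩⟩, ?_⟩
    rw [mul_inv_rev, inv_inv, mul_smul, smul_inv_smul]
  have hdep : ∀ i ∈ Δ, ∀ t : Finset Γ, t ⊆ Δ →
      (∀ j ∈ t, ¬ Disjoint (loc i) (loc j) ∨ j = i) → t.card ≤ (V₁ ×ˢ V₁).card + 1 := by
    intro i _ t _ ht
    suffices (t.erase i).card ≤ (V₁ ×ˢ V₁).card by
      have := pred_card_le_card_erase (s := t) (a := i)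
      omega
    have key : ∀ j, ∃ ab : W × W, j ∈ t.erase i → ab ∈ V₁ ×ˢ V₁ ∧ i • ab.1 = j • ab.2 := by
      intro j
      by_cases hj : j ∈ t.erase i
      · obtain ⟨hne, hjt⟩ := mem_erase.1 hj
        obtain ⟨a, hai, haj⟩ := Finset.not_disjoint_iff.1 ((ht j hjt).resolve_right hne)
        induction a with
        | h x x' =>
          obtain ⟨x₁, hx₁, e1⟩ := hsee i _ hai x (Sym2.mem_mk_left x x')
          obtain ⟨x₂, hx₂, e2⟩ := hsee j _ haj x (Sym2.mem_mk_left x x')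
          exact ⟨(x₁, x₂), fun _ => ⟨mem_product.2 ⟨hx₁, hx₂⟩, e1.trans e2.symm⟩⟩
      · exact ⟨(σ.1, σ.1), fun hh => absurd hh hj⟩
    choose ab hab using key
    refine card_le_card_of_injOn ab (fun j hj => (hab j hj).1) fun j hj l hl hjl => ?_
    have e1 := (hab j hj).2
    have e2 := (hab l hl).2
    rw [← hjl, e1] at e2
    exact cancel e2
  refine (pr_count_ge h0 h1 U' Δ loc X hlocal hdep hflow hμ).trans (pr_mono h0 h1 ?_)
  rintro S hS ⟨t, htΔ, htcard, htX⟩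
  refine ⟨t.image fun δ : Γ => δ • τ.1, ?_, fun w hw => ?_⟩
  · rw [card_image_of_injective _ fun a b e => cancel e]
    exact Nat.ceil_le.2 htcard
  obtain ⟨δ, hδ, rfl⟩ := mem_image.1 hw
  obtain ⟨y, hy, hc⟩ := htX δ hδ
  obtain ⟨hyY, hγ⟩ := mem_filter.1 hy
  obtain ⟨hyY0, hyA, hyk⟩ := mem_filter.1 hyY
  refine ⟨⟨δ, rfl, ?_⟩, cl_mono (Set.singleton_subset_iff.2 ?_) (fun a ha => ?_) hc⟩
  · have := h.Z_kind _ hyA _ hγ
    rw [hyk] at this
    calc δ • τ.2 = y • ((y⁻¹ * δ) • τ.2) := by rw [← mul_smul, mul_inv_cancel_left]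
      _ = v := by rw [this, smul_inv_smul]
  · exact mem_coe.2 (mem_image.2 ⟨y, hyY0, rfl⟩)
  · obtain ⟨ha1, -⟩ := mem_inter.1 ha
    exact mem_inPart.2 ⟨ha1, (hUout (mem_coe.2 (hS ha1))).1⟩

end Vale.Agent.P165.Tree.Act
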