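import Vale.Agent.P165.Tree.Pressure
import Vale.Agent.P165.Tree.Stage
import Vale.Agent.P165.Quot.Series

/-!
Iterating stages: the tail bound at the threshold.
-/

open Finset
open scoped ENNReal

namespace Vale.Agent.P165.Tree.Act

open Vale.Agent.P165.Quot

/-- Concavity of a power with exponent at most one, for weights of any total. -/
lemma sum_mul_rpow_le {ι : Type*} (s : Finset ι) (w a : ι → ℝ) (hw : ∀ i ∈ s, 0 ≤ w i)
    (ha : ∀ i ∈ s, 0 ≤ a i) {t : ℝ} (ht0 : 0 < t) (ht1 : t ≤ 1) :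
    ∑ i ∈ s, w i * a i ^ t ≤ (∑ i ∈ s, w i) ^ (1 - t) * (∑ i ∈ s, w i * a i) ^ t := by
  set q := ∑ i ∈ s, w i with hq
  rcases eq_or_lt_of_le (sum_nonneg hw) with h | h
  · have : ∀ i ∈ s, w i = 0 := (sum_eq_zero_iff_of_nonneg hw).1 h.symm
    rw [sum_eq_zero fun i hi => by rw [this i hi, zero_mul]]
    exact mul_nonneg (Real.rpow_nonneg (sum_nonneg hw) _)
      (Real.rpow_nonneg (sum_nonneg fun i hi => mul_nonneg (hw i hi) (ha i hi)) _)
  have hq' : (0 : ℝ) < q := h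
  have hwn : ∀ i ∈ s, 0 ≤ w i / q := fun i hi => div_nonneg (hw i hi) hq'.le
  have key := Real.rpow_arith_mean_le_arith_mean_rpow s (fun i => w i / q) (fun i => a i ^ t) hwn
    (by rw [← sum_div, div_self hq'.ne']) (fun i hi => Real.rpow_nonneg (ha i hi) _)
    (one_le_one_div ht0 ht1)
  have hsimp : ∀ i ∈ s, w i / q * (a i ^ t) ^ (1 / t) = w i / q * a i := fun i hi => by
    rw [← Real.rpow_mul (ha i hi), mul_one_div_cancel ht0.ne', Real.rpow_one]
  rw [sum_congr rfl hsimp] at key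
  have h1 : 0 ≤ ∑ i ∈ s, w i / q * a i ^ t :=
    sum_nonneg fun i hi => mul_nonneg (hwn i hi) (Real.rpow_nonneg (ha i hi) _)
  have h2 := Real.rpow_le_rpow (Real.rpow_nonneg h1 _) key ht0.le
  rw [← Real.rpow_mul h1, one_div_mul_cancel ht0.ne', Real.rpow_one] at h2
  calc ∑ i ∈ s, w i * a i ^ t = q * ∑ i ∈ s, w i / q * a i ^ t := by
        rw [mul_sum]
        exact sum_congr rfl fun i _ => by field_simp
    _ ≤ q * (∑ i ∈ s, w i / q * a i) ^ t := mul_le_mul_of_nonneg_left h2 hq'.le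
    _ = q * ((∑ i ∈ s, w i * a i) / q) ^ t := by
        rw [sum_div]
        simp only [div_mul_eq_mul_div]
    _ = q ^ (1 - t) * (∑ i ∈ s, w i * a i) ^ t := by
        rw [Real.div_rpow (sum_nonneg fun i hi => mul_nonneg (hw i hi) (ha i hi)) hq'.le,
          Real.rpow_sub hq', Real.rpow_one]
        field_simp

/-- A sum with at most one term commutes with a positive power. -/
lemma rpow_sum_of_card_le_one {ι : Type*} (s : Finset ι) (hs : s.card ≤ 1) (g : ι → ℝ) {t : ℝ}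
    (ht : 0 < t) : (∑ i ∈ s, g i) ^ t = ∑ i ∈ s, g i ^ t := by
  rcases s.eq_empty_or_nonempty with rfl | hne
  · simp [Real.zero_rpow ht.ne']
  · obtain ⟨i, rfl⟩ := card_eq_one.1 (le_antisymm hs hne.card_pos)
    simp

variable {W V Γ : Type*} [Group Γ] [MulAction Γ W] [MulAction Γ V] {H : SimpleGraph W}
  [DecidableEq W] {T : SimpleGraph V} (Ac : Act (Γ := Γ) H T)

/-- Some point of `P` is joined to an entry of the core of `v`. -/
def hitFrom (D : ℕ) (P : Finset W) (v : V × V) (S : Finset (Sym2 W)) : Prop :=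
  ∃ z ∈ Ac.entry D v, z ∈ cl (↑P : Set W) S

omit [DecidableEq W] in
lemma incr_hitFrom (D : ℕ) (P : Finset W) (v : V × V) : Incr (Ac.hitFrom D P v) :=
  fun _ _ h ⟨z, hz, hc⟩ => ⟨z, hz, cl_mono subset_rfl h hc⟩

section Recursion

variable {D : ℕ} {p : ℝ} {types : Finset (W × (V × V))}

open scoped Classical in
/-- Each seed sends at most one block to a child. -/
lemma flow_filter_card {σ : W × (V × V)} (h : Ac.Hop D p σ types) (y : Γ) (τ : W × (V × V))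
    (v : V × V) : (h.A.filter fun e => y • e = v ∧ h.kind e = τ).card ≤ 1 :=
  card_le_one.2 fun _ ha _ hb =>
    smul_left_cancel y ((mem_filter.1 ha).2.1.trans (mem_filter.1 hb).2.1.symm)

lemma flow_nonneg {σ : W × (V × V)} (h : Ac.Hop D p σ types) (Y : Finset Γ) (τ : W × (V × V))
    (v : V × V) : 0 ≤ h.flow Y τ v := by
  classical
  exact sum_nonneg fun y _ => sum_nonneg fun e he => (h.g_pos e (mem_filter.1 he).1).le

lemma flow_le {σ : W × (V × V)} (h : Ac.Hop D p σ types) (Y : Finset Γ) (τ : W × (V × V))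
    (v : V × V) : h.flow Y τ v ≤ Y.card / 4 := by
  classical
  refine (sum_le_card_nsmul _ _ (1 / 4 : ℝ) fun y _ => ?_).trans_eq (by rw [nsmul_eq_mul]; ring)
  refine (sum_le_card_nsmul _ _ (1 / 4 : ℝ) fun e he => h.g_le e (mem_filter.1 he).1).trans ?_
  rw [nsmul_eq_mul]
  exact mul_le_of_le_one_left (by norm_num) (Nat.cast_le_one.2 (Ac.flow_filter_card h y τ v))

open scoped Classical in
/-- The powers of the flows add up to the powers of the weights. -/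
lemma sum_flow_rpow_ge {σ : W × (V × V)} (h : Ac.Hop D p σ types) (Y : Finset Γ) {t : ℝ}
    (ht0 : 0 < t) (ht1 : t ≤ 1) :
    (Y.card : ℝ) ^ t * ∑ e ∈ h.A, h.g e ^ t ≤
      ∑ v ∈ (Y ×ˢ h.A).image (fun ye => ye.1 • ye.2), ∑ τ ∈ types, h.flow Y τ v ^ t := by
  rcases Y.eq_empty_or_nonempty with rfl | hne
  · simp [Real.zero_rpow ht0.ne']
  set n : ℝ := (Y.card : ℝ) with hn
  have hn0 : 0 < n := by rw [hn]; exact_mod_cast hne.card_pos
  set Vs := (Y ×ˢ h.A).image fun ye : Γ × (V × V) => ye.1 • ye.2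
  set F : Γ → W × (V × V) → V × V → Finset (V × V) :=
    fun y τ v => h.A.filter fun e => y • e = v ∧ h.kind e = τ with hF
  have hstep : ∀ v τ, n ^ (t - 1) * ∑ y ∈ Y, ∑ e ∈ F y τ v, h.g e ^ t ≤ h.flow Y τ v ^ t := by
    intro v τ
    have hnn : ∀ y ∈ Y, 0 ≤ ∑ e ∈ F y τ v, h.g e := fun y _ =>
      sum_nonneg fun e he => (h.g_pos e (mem_filter.1 he).1).le
    have key := sum_mul_rpow_le Y (fun _ => (1 : ℝ)) (fun y => ∑ e ∈ F y τ v, h.g e)
      (fun _ _ => zero_le_one) hnn ht0 ht1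
    simp only [one_mul, sum_const, nsmul_eq_mul, mul_one] at key
    rw [← hn] at key
    have e1 : ∀ y ∈ Y, (∑ e ∈ F y τ v, h.g e) ^ t = ∑ e ∈ F y τ v, h.g e ^ t := fun y _ =>
      rpow_sum_of_card_le_one _ (Ac.flow_filter_card h y τ v) _ ht0
    rw [sum_congr rfl e1] at key
    calc n ^ (t - 1) * ∑ y ∈ Y, ∑ e ∈ F y τ v, h.g e ^ t
        ≤ n ^ (t - 1) * (n ^ (1 - t) * (∑ y ∈ Y, ∑ e ∈ F y τ v, h.g e) ^ t) :=
          mul_le_mul_of_nonneg_left key (Real.rpow_nonneg hn0.le _)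
      _ = h.flow Y τ v ^ t := by
          rw [← mul_assoc, ← Real.rpow_add hn0, show t - 1 + (1 - t) = 0 by ring, Real.rpow_zero,
            one_mul]
          rfl
  have htot : ∀ y ∈ Y, ∑ v ∈ Vs, ∑ τ ∈ types, ∑ e ∈ F y τ v, h.g e ^ t =
      ∑ e ∈ h.A, h.g e ^ t := by
    intro y hy
    rw [← sum_product']
    rw [← sum_fiberwise_of_maps_to (g := fun e => (y • e, h.kind e))
      (fun e he => mem_product.2 ⟨mem_image_of_mem (fun ye : Γ × (V × V) => ye.1 • ye.2)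
        (a := (y, e)) (mem_product.2 ⟨hy, he⟩), h.kind_mem e he⟩) (fun e => h.g e ^ t)]
    refine sum_congr rfl fun vτ _ => sum_congr (filter_congr fun e _ => ?_) fun _ _ => rfl
    simp [Prod.ext_iff]
  calc n ^ t * ∑ e ∈ h.A, h.g e ^ t
      = ∑ v ∈ Vs, ∑ τ ∈ types, n ^ (t - 1) * ∑ y ∈ Y, ∑ e ∈ F y τ v, h.g e ^ t := by
        simp only [← mul_sum]
        rw [sum_congr rfl fun v _ => sum_comm (s := types), sum_comm, sum_congr rfl htot,
          sum_const, nsmul_eq_mul, ← hn, ← mul_assoc]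
        congr 1
        calc n ^ t = n ^ (t - 1 + 1) := by rw [sub_add_cancel]
          _ = n ^ (t - 1) * n := by rw [Real.rpow_add hn0, Real.rpow_one]
    _ ≤ _ := sum_le_sum fun v _ => sum_le_sum fun τ _ => hstep v τ

variable (h0 : 0 ≤ p) (h1 : p ≤ 1)

include h0 h1 in
open scoped Classical in
/-- Seeds of a type, pointwise: some finite edge set in the core joins them to descendants with a
large sum of powers. -/
lemma exists_reach (hty : Ac.IsTypes D types) (hop : ∀ σ ∈ types, Bool → Ac.Hop D p σ types)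
    {t₀ t₁ : ℝ} (ht0 : 0 < t₀) (ht0' : t₀ ≤ 1) (ht1 : 0 < t₁) (ht1' : t₁ ≤ 1) {N₀ : ℕ}
    (hN₀ : ∀ σ hσ b, (hop σ hσ b).N ≤ N₀) {γ₀ : ℝ} (hγ₀ : 0 < γ₀)
    (hγ : ∀ σ hσ b, ∀ e ∈ (hop σ hσ b).A, γ₀ ≤ (hop σ hσ b).g e)
    (hS : ∀ σ hσ b, 4 * (types.card : ℝ) ≤ ∑ e ∈ (hop σ hσ b).A, (hop σ hσ b).g e ^ t₀) :
    ∃ a : ℝ, 0 < a ∧ ∀ (n : ℕ) (σ : W × (V × V)) (hσ : σ ∈ types) (b : Bool) (c : V × V)
      (Y : Finset Γ), T.Adj c.1 c.2 → (∀ y ∈ Y, y • σ.2 = c) → Y.card = n → 0 < n →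
      ∃ (U : Finset (Sym2 W)) (Fs : Finset (V × V)), ↑U ⊆ H.edgeSet ∧
        ↑U ⊆ inside (Ac.core D c) ∧
        (∀ v ∈ Fs, T.Adj v.1 v.2 ∧ cone T v ⊆ cone T c ∧
          T.dist c.2 v.2 ≤ N₀ * (Nat.log 2 n + 1) ∧
          ∃ y ∈ Y, ∃ e ∈ (hop σ hσ b).A, cone T v ⊆ cone T (y • e)) ∧
        a * (n : ℝ) ^ t₀ ≤
          ∑ v ∈ Fs, pr p U (Ac.hitFrom D (Y.image fun y : Γ => y • σ.1) v) ^ t₁ := by
  choose L₁ hL₁ using fun (σ : {σ // σ ∈ types}) (b : Bool) =>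
    exists_stage h0 h1 (hop σ.1 σ.2 b)
  set L : ℕ := (univ.sup fun σb : {σ // σ ∈ types} × Bool => L₁ σb.1 σb.2) + 1 with hL
  have hLle : ∀ σ b, L₁ σ b ≤ L := fun σ b => (le_sup (f := fun σb : {σ // σ ∈ types} × Bool =>
    L₁ σb.1 σb.2) (mem_univ (σ, b))).trans (Nat.le_succ _)
  have hL0 : (1 : ℝ) ≤ L := by rw [hL]; exact_mod_cast Nat.succ_le_succ (Nat.zero_le _)
  set a : ℝ := 4 * min γ₀ 1 / (8 * L) with ha
  have hmin : 0 < min γ₀ 1 := lt_min hγ₀ one_pos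
  have ha0 : 0 < a := by rw [ha]; positivity
  refine ⟨a, ha0, fun n => ?_⟩
  induction n using Nat.strong_induction_on with
  | _ n ih =>
  intro σ hσ b c Y hc hY hcard hn
  set h := hop σ hσ b with hh
  set pts := Y.image fun y : Γ => y • σ.1 with hpts
  set Vs := (Y ×ˢ h.A).image fun ye : Γ × (V × V) => ye.1 • ye.2 with hVs
  have hkid : ∀ v ∈ Vs, T.Adj v.1 v.2 ∧ cone T v ⊆ cone T c ∧ T.dist c.2 v.2 = h.N ∧
      ∃ y ∈ Y, ∃ e ∈ h.A, cone T v ⊆ cone T (y • e) := by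
    intro v hv
    obtain ⟨⟨y, e⟩, hye, rfl⟩ := mem_image.1 hv
    obtain ⟨hy, he⟩ := mem_product.1 hye
    refine ⟨(Ac.tree_smul y _ _).2 (h.A_adj e he), ?_, ?_, y, hy, e, he, subset_rfl⟩
    · rw [← hY y hy, Ac.cone_smul_subset]
      exact (h.A_le e he).trans h.sub_le
    · rw [← hY y hy]
      exact (Ac.dist_smul y _ _).trans (h.A_depth e he)
  have hrec : ∀ v ∈ Vs, ∀ τ ∈ types, ∃ (U : Finset (Sym2 W)) (Fs : Finset (V × V)),
      ↑U ⊆ H.edgeSet ∧ ↑U ⊆ inside (Ac.core D c) ∧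
      (∀ v' ∈ Fs, T.Adj v'.1 v'.2 ∧ cone T v' ⊆ cone T v ∧
        T.dist c.2 v'.2 ≤ N₀ * (Nat.log 2 n + 1)) ∧
      a / 4 * h.flow Y τ v ^ t₀ ≤ ∑ v' ∈ Fs, pr p U (Ac.hitFrom D pts v') ^ t₁ := by
    intro v hv τ hτ
    obtain ⟨hvadj, hvc, hvN, -⟩ := hkid v hv
    have hfn := Ac.flow_nonneg h Y τ v
    rcases eq_or_lt_of_le hfn with hz | hfpos
    · exact ⟨∅, ∅, by simp, by simp, by simp, by simp [← hz, Real.zero_rpow ht0.ne']⟩
    rcases lt_or_ge (h.flow Y τ v) (8 * L) with hsmall | hbig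
    · -- one seed is enough
      obtain ⟨y, hy, e, he, hye, hk⟩ : ∃ y ∈ Y, ∃ e ∈ h.A, y • e = v ∧ h.kind e = τ := by
        by_contra hno
        refine hfpos.ne' (sum_eq_zero fun y hy => sum_eq_zero fun e he => ?_)
        obtain ⟨he, h2, h3⟩ := mem_filter.1 he
        exact absurd ⟨y, hy, e, he, h2, h3⟩ hno
      set mv : Sym2 W ↪ Sym2 W :=
        (MulAction.toPerm (α := Γ) (β := W) y).toEmbedding.sym2Map with hmv
      refine ⟨h.U.map mv, {v}, ?_, ?_, ?_, ?_⟩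
      · intro s hs
        obtain ⟨s₀, hs₀, rfl⟩ := mem_map.1 (mem_coe.1 hs)
        have := h.U_edges (mem_coe.2 hs₀)
        induction s₀ with
        | h a b => exact (Ac.adj_smul y a b).2 this
      · intro s hs
        obtain ⟨s₀, hs₀, rfl⟩ := mem_map.1 (mem_coe.1 hs)
        intro z hz
        obtain ⟨z₀, hz₀, rfl⟩ := Sym2.mem_map.1 (show z ∈ Sym2.map (fun x => y • x) s₀ from hz)
        rw [← hY y hy]
        exact (Ac.smul_mem_core D y σ.2 z₀).2 (h.U_core (mem_coe.2 hs₀) z₀ hz₀)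
      · intro v' hv'
        rw [mem_singleton.1 hv']
        refine ⟨hvadj, subset_rfl, hvN.le.trans ?_⟩
        exact (hN₀ σ hσ b).trans (Nat.le_mul_of_pos_right _ (Nat.succ_pos _))
      · rw [sum_singleton]
        have hge : γ₀ ≤ pr p (h.U.map mv) (Ac.hitFrom D pts v) := by
          refine le_trans ?_ (le_of_eq_of_le (pr_image p mv h.U
            (fun S => ∃ z ∈ Ac.entry D v, z ∈ cl {y • σ.1} S)).symm (pr_mono h0 h1 fun S _ ⟨z, hz, hc⟩ =>
              ⟨z, hz, cl_mono (Set.singleton_subset_iff.2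
                (mem_coe.2 (mem_image.2 ⟨y, hy, rfl⟩))) subset_rfl hc⟩))
          refine (hγ σ hσ b e he).trans ((le_trans ?_ (h.g_hit e he)).trans ?_)
          · refine le_add_of_le_of_nonneg ?_ (mul_nonneg (Nat.cast_nonneg _) h.tau_nonneg)
            exact le_mul_of_one_le_right (h.g_pos e he).le (by exact_mod_cast h.Lt_pos)
          refine pr_mono h0 h1 fun S _ ⟨z, ⟨γ, hγZ, hγz⟩, hc⟩ => ⟨y • z, ?_, ?_⟩
          · rw [← hye, ← Ac.smul_entry D y e]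
            refine ⟨z, ?_, rfl⟩
            rw [← h.Z_kind e he γ hγZ, ← Ac.smul_entry D γ, ← hγz]
            exact ⟨(h.kind e).1, (hty.1 _ (h.kind_mem e he)).2.2, rfl⟩
          · exact (cl_map (MulAction.toPerm (α := Γ) (β := W) y) σ.1 z S).2
              (cl_mono subset_rfl (inPart_subset _ _) hc)
        calc a / 4 * h.flow Y τ v ^ t₀ ≤ a / 4 * (8 * L) := by
              refine mul_le_mul_of_nonneg_left ((Real.rpow_le_rpow hfn hsmall.le ht0.le).trans ?_)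
                (by positivity)
              exact (Real.rpow_le_rpow_of_exponent_le (by linarith) ht0').trans_eq (Real.rpow_one _)
          _ = min γ₀ 1 := by rw [ha]; field_simp
          _ ≤ min γ₀ 1 ^ t₁ := by
              calc min γ₀ 1 = min γ₀ 1 ^ (1 : ℝ) := (Real.rpow_one _).symm
                _ ≤ _ := Real.rpow_le_rpow_of_exponent_ge hmin (min_le_right _ _) ht1'
          _ ≤ _ := Real.rpow_le_rpow hmin.le ((min_le_left _ _).trans hge) ht1.le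
    -- many seeds: one stage and induction
    obtain ⟨U', hU'e, hU'o, hU'pr⟩ := hL₁ ⟨σ, hσ⟩ b c v τ Y hY hfpos
    set k := ⌈h.flow Y τ v / 2⌉₊ with hk
    have hk0 : 0 < k := Nat.ceil_pos.2 (by linarith)
    have hkn : 2 * k ≤ n := by
      have h2 := Ac.flow_le h Y τ v
      rw [hcard] at h2
      have h3 := Nat.ceil_lt_add_one (show 0 ≤ h.flow Y τ v / 2 by linarith)
      rw [← hk] at h3
      exact_mod_cast (show (2 * k : ℝ) ≤ n by linarith)
    set G := U'.powerset.filter (manyFrom (Ac.outE D v) pts {u | OfKind (Γ := Γ) τ u v} k) with hG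
    have hsucc : ∀ S ∈ G, ∃ (U₂ : Finset (Sym2 W)) (Fs : Finset (V × V)),
        ↑U₂ ⊆ H.edgeSet ∧ ↑U₂ ⊆ inside (Ac.core D v) ∧
        (∀ v' ∈ Fs, T.Adj v'.1 v'.2 ∧ cone T v' ⊆ cone T v ∧
          T.dist v.2 v'.2 ≤ N₀ * (Nat.log 2 k + 1)) ∧
        ∃ P : Finset W, (∀ z ∈ P, z ∈ cl (↑pts : Set W) S) ∧
          a * (k : ℝ) ^ t₀ ≤ ∑ v' ∈ Fs, pr p U₂ (Ac.hitFrom D P v') ^ t₁ := by
      intro S hS
      obtain ⟨Z, hZ, hZ'⟩ := (mem_filter.1 hS).2
      obtain ⟨Z', hZ'sub, hZ'card⟩ := exists_subset_card_eq hZ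
      have hδ : ∀ z : {z // z ∈ Z'}, ∃ δ : Γ, δ • τ.1 = z.1 ∧ δ • τ.2 = v :=
        fun z => (hZ' z.1 (hZ'sub z.2)).1
      choose δ hδ1 hδ2 using hδ
      have hinj : Function.Injective δ := fun z z' e =>
        Subtype.ext ((hδ1 z).symm.trans (e ▸ hδ1 z'))
      obtain ⟨U₂, Fs, e1, e2, e3, e4⟩ := ih k (by omega) τ hτ true v (Z'.attach.image δ) hvadj
        (fun y hy => by obtain ⟨z, -, rfl⟩ := mem_image.1 hy; exact hδ2 z)
        (by rw [card_image_of_injective _ hinj, card_attach, hZ'card]) hk0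
      refine ⟨U₂, Fs, e1, e2, fun v' hv' => ⟨(e3 v' hv').1, (e3 v' hv').2.1, (e3 v' hv').2.2.1⟩,
        _, fun z hz => ?_, e4⟩
      obtain ⟨y, hy, rfl⟩ := mem_image.1 hz
      obtain ⟨z, -, rfl⟩ := mem_image.1 hy
      rw [hδ1 z]
      exact cl_mono subset_rfl (inPart_subset _ _) (hZ' z.1 (hZ'sub z.2)).2
    choose U₂ Fs hU₂e hU₂c hFs P hP hval using hsucc
    set UA := G.attach.biUnion fun S => U₂ S.1 S.2 with hUA
    set FA := G.attach.biUnion fun S => Fs S.1 S.2 with hFA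
    have hUAc : ↑UA ⊆ inside (Ac.core D v) := by
      intro s hs
      obtain ⟨S, -, hs⟩ := mem_biUnion.1 (mem_coe.1 hs)
      exact hU₂c _ _ (mem_coe.2 hs)
    have hdisj : Disjoint U' UA := Finset.disjoint_left.2 fun s hs hs' =>
      (hU'o (mem_coe.2 hs)).1 (hUAc (mem_coe.2 hs'))
    refine ⟨U' ∪ UA, FA, ?_, ?_, ?_, ?_⟩
    · intro s hs
      rcases mem_union.1 (mem_coe.1 hs) with hs | hs
      · exact hU'e (mem_coe.2 hs)
      · obtain ⟨S, -, hs⟩ := mem_biUnion.1 hs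
        exact hU₂e _ _ (mem_coe.2 hs)
    · intro s hs
      rcases mem_union.1 (mem_coe.1 hs) with hs | hs
      · exact Classical.not_not.1 (hU'o (mem_coe.2 hs)).2
      · exact fun z hz => Ac.core_mono hc hvadj hvc (hUAc (mem_coe.2 hs) z hz)
    · intro v' hv'
      obtain ⟨S, -, hv'⟩ := mem_biUnion.1 hv'
      obtain ⟨e1, e2, e3⟩ := hFs _ _ v' hv'
      refine ⟨e1, e2, ?_⟩
      rw [depth_add Ac.isTree e1 hvadj hc e2 hvc, hvN]
      have hlog : Nat.log 2 k + 1 ≤ Nat.log 2 n := by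
        rw [← Nat.log_mul_base one_lt_two hk0.ne', mul_comm]
        exact Nat.log_mono_right hkn
      calc h.N + T.dist v.2 v'.2 ≤ N₀ + N₀ * (Nat.log 2 k + 1) := add_le_add (hN₀ σ hσ b) e3
        _ ≤ N₀ + N₀ * Nat.log 2 n := add_le_add le_rfl (Nat.mul_le_mul_left _ hlog)
        _ = N₀ * (Nat.log 2 n + 1) := by ring
    have hmix : ∀ v', ∑ S ∈ G.attach, wt p U' S.1 * pr p (U₂ S.1 S.2) (Ac.hitFrom D (P S.1 S.2) v')
        ≤ pr p (U' ∪ UA) (Ac.hitFrom D pts v') := by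
      intro v'
      refine le_trans ?_ (sum_wt_mul_le_pr h0 h1 hdisj (Ac.hitFrom D pts v') G fun S hS =>
        mem_powerset.1 (mem_filter.1 hS).1)
      rw [← sum_attach G fun S => wt p U' S * pr p UA fun b => Ac.hitFrom D pts v' (S ∪ b)]
      refine sum_le_sum fun S _ => mul_le_mul_of_nonneg_left ?_ (wt_nonneg h0 h1 _ _)
      refine (pr_mono_set h0 h1 (subset_biUnion_of_mem (fun S : {S // S ∈ G} => U₂ S.1 S.2)
        (mem_attach G S)) (Ac.incr_hitFrom D _ v')).trans (pr_mono h0 h1 fun b _ ⟨z, hz, hzc⟩ => ?_)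
      exact ⟨z, hz, cl_trans (fun w hw => cl_mono subset_rfl subset_union_left
        (hP S.1 S.2 w (mem_coe.1 hw))) subset_union_right hzc⟩
    have hwnn : ∀ S ∈ G.attach, 0 ≤ wt p U' S.1 := fun S _ => wt_nonneg h0 h1 _ _
    have hwsum : ∑ S ∈ G.attach, wt p U' S.1 = pr p U' (manyFrom (Ac.outE D v) pts
        {u | OfKind (Γ := Γ) τ u v} k) := by
      rw [sum_attach G fun S => wt p U' S]
      rfl
    have hjen : ∀ v', ∑ S ∈ G.attach, wt p U' S.1 *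
        pr p (U₂ S.1 S.2) (Ac.hitFrom D (P S.1 S.2) v') ^ t₁ ≤
        pr p (U' ∪ UA) (Ac.hitFrom D pts v') ^ t₁ := by
      intro v'
      have hnn : ∀ S ∈ G.attach, 0 ≤ pr p (U₂ S.1 S.2) (Ac.hitFrom D (P S.1 S.2) v') :=
        fun S _ => pr_nonneg h0 h1 _ _
      refine (sum_mul_rpow_le _ _ _ hwnn hnn ht1 ht1').trans ?_
      refine (mul_le_of_le_one_left (Real.rpow_nonneg (sum_nonneg fun S hS =>
        mul_nonneg (hwnn S hS) (hnn S hS)) _) (Real.rpow_le_one (sum_nonneg hwnn) ?_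
          (by linarith))).trans ?_
      · rw [hwsum]; exact pr_le_one h0 h1 _ _
      · exact Real.rpow_le_rpow (sum_nonneg fun S hS => mul_nonneg (hwnn S hS) (hnn S hS))
          (hmix v') ht1.le
    have hhalf : 1 / 2 ≤ ∑ S ∈ G.attach, wt p U' S.1 := by
      rw [hwsum]
      refine le_trans ?_ hU'pr
      have : (L₁ ⟨σ, hσ⟩ b : ℝ) ≤ L := Nat.cast_le.2 (hLle _ _)
      rw [le_sub_comm, div_le_iff₀ hfpos]
      linarith
    calc a / 4 * h.flow Y τ v ^ t₀ ≤ 1 / 2 * (a * (k : ℝ) ^ t₀) := by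
          have h2 : (h.flow Y τ v / 2) ^ t₀ ≤ (k : ℝ) ^ t₀ :=
            Real.rpow_le_rpow (by linarith) (Nat.le_ceil _) ht0.le
          rw [Real.div_rpow hfn zero_le_two] at h2
          have h3 : (2 : ℝ) ^ t₀ ≤ 2 :=
            (Real.rpow_le_rpow_of_exponent_le one_le_two ht0').trans_eq (Real.rpow_one _)
          have h4 : h.flow Y τ v ^ t₀ / 2 ≤ (k : ℝ) ^ t₀ := le_trans
            (div_le_div_of_nonneg_left (Real.rpow_nonneg hfn _) (Real.rpow_pos_of_pos two_pos _) h3)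
            h2
          nlinarith
      _ ≤ (∑ S ∈ G.attach, wt p U' S.1) * (a * (k : ℝ) ^ t₀) :=
          mul_le_mul_of_nonneg_right hhalf (by positivity)
      _ ≤ ∑ S ∈ G.attach, wt p U' S.1 * ∑ v' ∈ FA,
            pr p (U₂ S.1 S.2) (Ac.hitFrom D (P S.1 S.2) v') ^ t₁ := by
          rw [sum_mul]
          refine sum_le_sum fun S hS => mul_le_mul_of_nonneg_left ((hval S.1 S.2).trans
            (sum_le_sum_of_subset_of_nonneg (subset_biUnion_of_mem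
              (fun S : {S // S ∈ G} => Fs S.1 S.2) hS)
              fun v' _ _ => Real.rpow_nonneg (pr_nonneg h0 h1 _ _) _)) (hwnn S hS)
      _ ≤ _ := by
          simp only [mul_sum]
          rw [sum_comm]
          exact sum_le_sum fun v' _ => hjen v'
  -- the best type at every child
  have htne : types.Nonempty := ⟨σ, hσ⟩
  choose best hbest hbest' using fun v : V × V =>
    exists_max_image types (fun τ => h.flow Y τ v ^ t₀) htne
  choose Uv Fv hUv1 hUv2 hFv hUv3 using fun (v : {v // v ∈ Vs}) =>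
    hrec v.1 v.2 (best v.1) (hbest v.1)
  set U := Vs.attach.biUnion Uv with hU
  set Fs := Vs.attach.biUnion Fv with hFs
  have hFd : (↑Vs.attach : Set {v // v ∈ Vs}).PairwiseDisjoint Fv := by
    intro v _ v' _ hne
    refine Finset.disjoint_left.2 fun u hu hu' => hne (Subtype.ext ?_)
    obtain ⟨hua, huv, -⟩ := hFv v u hu
    obtain ⟨-, huv', -⟩ := hFv v' u hu'
    obtain ⟨a1, a2, a3, -⟩ := hkid v.1 v.2
    obtain ⟨b1, b2, b3, -⟩ := hkid v'.1 v'.2
    rcases eq_or_disjoint_below Ac.isTree a1 b1 hc a2 b2 (a3.trans b3.symm) with he | he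
    · exact he
    · exact absurd (huv' (self_mem_cone hua)) (Set.disjoint_left.1 he (huv (self_mem_cone hua)))
  refine ⟨U, Fs, ?_, ?_, ?_, ?_⟩
  · intro s hs
    obtain ⟨v, -, hs⟩ := mem_biUnion.1 (mem_coe.1 hs)
    exact hUv1 v (mem_coe.2 hs)
  · intro s hs
    obtain ⟨v, -, hs⟩ := mem_biUnion.1 (mem_coe.1 hs)
    exact hUv2 v (mem_coe.2 hs)
  · intro u hu
    obtain ⟨v, -, hu⟩ := mem_biUnion.1 hu
    obtain ⟨e1, e2, e3⟩ := hFv v u hu
    obtain ⟨-, hvc, -, y, hy, e, he, hve⟩ := hkid v.1 v.2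
    exact ⟨e1, e2.trans hvc, e3, y, hy, e, he, e2.trans hve⟩
  have hm : (0 : ℝ) < types.card := by exact_mod_cast htne.card_pos
  calc a * (n : ℝ) ^ t₀
      = a / (4 * types.card) * ((n : ℝ) ^ t₀ * (4 * types.card)) := by field_simp
    _ ≤ a / (4 * types.card) * ((n : ℝ) ^ t₀ * ∑ e ∈ h.A, h.g e ^ t₀) :=
        mul_le_mul_of_nonneg_left (mul_le_mul_of_nonneg_left (hS σ hσ b) (by positivity))
          (by positivity)
    _ ≤ a / (4 * types.card) * ∑ v ∈ Vs, ∑ τ ∈ types, h.flow Y τ v ^ t₀ := by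
        rw [← hcard]
        exact mul_le_mul_of_nonneg_left (Ac.sum_flow_rpow_ge h Y ht0 ht0') (by positivity)
    _ ≤ a / (4 * types.card) * ∑ v ∈ Vs, (types.card : ℝ) * h.flow Y (best v) v ^ t₀ := by
        refine mul_le_mul_of_nonneg_left (sum_le_sum fun v _ => ?_) (by positivity)
        exact (sum_le_card_nsmul _ _ _ (hbest' v)).trans_eq (nsmul_eq_mul _ _)
    _ = ∑ v ∈ Vs.attach, a / 4 * h.flow Y (best v.1) v.1 ^ t₀ := by
        rw [sum_attach Vs fun v => a / 4 * h.flow Y (best v) v ^ t₀, mul_sum]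
        exact sum_congr rfl fun v _ => by field_simp
    _ ≤ ∑ v ∈ Vs.attach, ∑ u ∈ Fv v, pr p U (Ac.hitFrom D pts u) ^ t₁ := by
        refine sum_le_sum fun v hv => (hUv3 v).trans (sum_le_sum fun u _ => ?_)
        exact Real.rpow_le_rpow (pr_nonneg h0 h1 _ _) (pr_mono_set h0 h1
          (subset_biUnion_of_mem Uv hv) (Ac.incr_hitFrom D pts u)) ht1.le
    _ = _ := (sum_biUnion hFd).symm

end Recursion

/-- The descendants counted below `c`: bounded depth, inside a first child avoiding `w`. -/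
def desc (N₀ Λ : ℕ) (w : V) (c : V × V) : Set (V × V) :=
  {v | T.Adj v.1 v.2 ∧ cone T v ⊆ cone T c ∧ T.dist c.2 v.2 ≤ Λ ∧
    ∃ c₁ : V × V, T.Adj c₁.1 c₁.2 ∧ cone T c₁ ⊆ cone T c ∧ cone T v ⊆ cone T c₁ ∧
      T.dist c.2 c₁.2 ≤ N₀ ∧ w ∉ cone T c₁}

/-- The entries of descendants of a family of edges, grouped into few antichains. -/
lemma sum_desc_le {D N₀ Λ : ℕ} {x : W} {w : V} {t : ℝ} {p : ℝ} {B : ℝ≥0∞}
    (hB : ∀ A : Finset (V × V), (∀ e ∈ A, T.Adj e.1 e.2 ∧ Ac.proj x ∉ cone T e) →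
      (∀ e ∈ A, ∀ e' ∈ A, e ≠ e' → Disjoint (cone T e) (cone T e')) →
      ∑ e ∈ A, prob H p (connTo Set.univ x (Ac.entry D e)) ^ t ≤ B)
    (F : Finset (V × V)) (hF : ∀ c ∈ F, T.Adj c.1 c.2 ∧ Ac.proj x ∉ cone T c)
    (hsep : ∀ c ∈ F, ∀ c' ∈ F, c ≠ c' →
      T.dist (Ac.proj x) c.1 % (N₀ + 1) = T.dist (Ac.proj x) c'.1 % (N₀ + 1) →
      ∀ v ∈ desc (T := T) N₀ Λ w c, ∀ v' ∈ desc (T := T) N₀ Λ w c',
        Disjoint (cone T v) (cone T v')) :
    ∑ c ∈ F, ∑' v : desc (T := T) N₀ Λ w c, prob H p (connTo Set.univ x (Ac.entry D v)) ^ t ≤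
      (((Λ + 1) * (N₀ + 1) : ℕ) : ℝ≥0∞) * B := by
  classical
  set f : V × V → ℝ≥0∞ := fun v => prob H p (connTo Set.univ x (Ac.entry D v)) ^ t
  have he : ∀ c, ∑' v : desc (T := T) N₀ Λ w c, f v =
      ∑' v, (desc (T := T) N₀ Λ w c).indicator f v := fun c => tsum_subtype _ _
  rw [sum_congr rfl fun c _ => he c, ← Summable.tsum_finsetSum fun c _ => ENNReal.summable,
    ENNReal.tsum_eq_iSup_sum]
  refine iSup_le fun A => ?_
  simp only [Set.indicator_apply]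
  rw [sum_comm, ← sum_product', ← sum_filter]
  set P := (F ×ˢ A).filter fun cv => cv.2 ∈ desc (T := T) N₀ Λ w cv.1 with hP
  have hmaps : ∀ cv ∈ P, (T.dist cv.1.2 cv.2.2, T.dist (Ac.proj x) cv.1.1 % (N₀ + 1)) ∈
      range (Λ + 1) ×ˢ range (N₀ + 1) := fun cv hcv => mem_product.2
    ⟨mem_range.2 (Nat.lt_succ_of_le (mem_filter.1 hcv).2.2.2.1),
      mem_range.2 (Nat.mod_lt _ (Nat.succ_pos _))⟩
  rw [← sum_fiberwise_of_maps_to hmaps]
  refine (sum_le_card_nsmul _ _ B fun j _ => ?_).trans_eq (by simp [nsmul_eq_mul])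
  have hinj : ∀ a ∈ P.filter (fun cv : (V × V) × (V × V) =>
      (T.dist cv.1.2 cv.2.2, T.dist (Ac.proj x) cv.1.1 % (N₀ + 1)) = j),
      ∀ b ∈ P.filter (fun cv : (V × V) × (V × V) =>
      (T.dist cv.1.2 cv.2.2, T.dist (Ac.proj x) cv.1.1 % (N₀ + 1)) = j),
      a = b ∨ Disjoint (cone T a.2) (cone T b.2) := by
    intro a ha b hb
    obtain ⟨ha, hja⟩ := mem_filter.1 ha
    obtain ⟨hb, hjb⟩ := mem_filter.1 hb
    obtain ⟨hd1, hd2⟩ := Prod.ext_iff.1 (hja.trans hjb.symm)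
    obtain ⟨haF, hav⟩ := mem_filter.1 ha
    obtain ⟨hbF, hbv⟩ := mem_filter.1 hb
    by_cases hc : a.1 = b.1
    · rw [← hc] at hbv hd1
      rcases eq_or_disjoint_below Ac.isTree hav.1 hbv.1 (hF _ (mem_product.1 haF).1).1 hav.2.1
        hbv.2.1 hd1 with h | h
      · exact Or.inl (Prod.ext hc h)
      · exact Or.inr h
    · exact Or.inr (hsep _ (mem_product.1 haF).1 _ (mem_product.1 hbF).1 hc hd2 _ hav _ hbv)
  refine le_of_eq_of_le (sum_image (f := f) fun a ha b hb hab => ?_).symm (hB _ ?_ ?_)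
  · rcases hinj a ha b hb with h | h
    · exact h
    · have hm := (mem_filter.1 (mem_filter.1 ha).1).2
      exact absurd (show a.2.2 ∈ cone T b.2 from hab ▸ self_mem_cone hm.1)
        (Set.disjoint_left.1 h (self_mem_cone hm.1))
  · intro v hv
    obtain ⟨cv, hcv, rfl⟩ := mem_image.1 hv
    obtain ⟨hcF, hcd⟩ := mem_filter.1 (mem_filter.1 hcv).1
    exact ⟨hcd.1, fun hx => (hF _ (mem_product.1 hcF).1).2 (hcd.2.1 hx)⟩
  · intro v hv v' hv' hne
    obtain ⟨a, ha, rfl⟩ := mem_image.1 hv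
    obtain ⟨b, hb, rfl⟩ := mem_image.1 hv'
    exact (hinj a ha b hb).resolve_left fun h => hne (by rw [h])

omit [DecidableEq W] in
/-- Descendants below edges of one path that are far apart never meet. -/
lemma path_sep (hT : T.IsTree) {x₀ w : V} {N₀ Λ : ℕ} {c c' v v' : V × V}
    (hc : T.Adj c.1 c.2 ∧ x₀ ∉ cone T c ∧ w ∈ cone T c)
    (hc' : T.Adj c'.1 c'.2 ∧ x₀ ∉ cone T c' ∧ w ∈ cone T c') (hne : c ≠ c')
    (hmod : T.dist x₀ c.1 % (N₀ + 1) = T.dist x₀ c'.1 % (N₀ + 1))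
    (hv : v ∈ desc (T := T) N₀ Λ w c) (hv' : v' ∈ desc (T := T) N₀ Λ w c') :
    Disjoint (cone T v) (cone T v') := by
  have main : ∀ {c c' v v' : V × V}, (T.Adj c.1 c.2 ∧ x₀ ∉ cone T c ∧ w ∈ cone T c) →
      (T.Adj c'.1 c'.2 ∧ x₀ ∉ cone T c' ∧ w ∈ cone T c') →
      T.dist x₀ c.1 + (N₀ + 1) ≤ T.dist x₀ c'.1 → v ∈ desc (T := T) N₀ Λ w c →
      v' ∈ desc (T := T) N₀ Λ w c' → Disjoint (cone T v) (cone T v') := by
    rintro c c' v v' ⟨hca, hcx, hcw⟩ ⟨hca', hcx', hcw'⟩ hd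
      ⟨-, -, -, c₁, h1a, h1c, h1v, h1d, h1w⟩ ⟨-, hv'c, -⟩
    rcases nested_or_disjoint hT h1a hca' (fun h => hcx (h1c h)) hcx' with h | h | h
    · exfalso
      rcases nested_or_disjoint hT hca hca' hcx hcx' with g | g | g
      · rcases eq_or_ne c c' with rfl | hne'
        · omega
        obtain ⟨g1, -⟩ := tail_mem_of_subset hT hca hca' g hne'
        have a1 := dist_through hT hca' g1 hcx'
        rw [SimpleGraph.dist_comm (u := c.1) (v := x₀),
          SimpleGraph.dist_comm (u := c'.1) (v := x₀)] at a1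
        omega
      · rcases eq_or_ne c' c with rfl | hne'
        · omega
        obtain ⟨g1, g2⟩ := tail_mem_of_subset hT hca' hca g hne'
        have a1 := dist_through hT hca g1 hcx
        have a2 := dist_head_of_not_mem hT hca' g2
        have a3 := depth_add hT h1a hca' hca h g
        rw [SimpleGraph.dist_comm (u := c'.1) (v := x₀), SimpleGraph.dist_comm (u := c.1) (v := x₀),
          SimpleGraph.dist_comm (u := c'.1) (v := c.2)] at a1
        omega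
      · exact Set.disjoint_left.1 g hcw hcw'
    · exact absurd (h hcw') h1w
    · exact h.mono h1v hv'c
  rcases lt_trichotomy (T.dist x₀ c.1) (T.dist x₀ c'.1) with hlt | heq | hgt
  · exact main hc hc' (Nat.ModEq.add_le_of_lt hmod hlt) hv hv'
  · rcases eq_or_disjoint_of_dist hT hc.1 hc'.1 hc.2.1 hc'.2.1 heq with h | h
    · exact absurd h hne
    · exact absurd hc'.2.2 (Set.disjoint_left.1 h hc.2.2)
  · exact (main hc' hc (Nat.ModEq.add_le_of_lt hmod.symm hgt) hv' hv).symm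

/-- Logarithms are absorbed by any power. -/
lemma exists_log_bound (A B : ℕ) {δ : ℝ} (hδ : 0 < δ) :
    ∃ M : ℝ, 0 ≤ M ∧ ∀ K : ℕ, 0 < K →
      (((A * (Nat.log 2 K + 1) + 1) * B : ℕ) : ℝ) ≤ M * (K : ℝ) ^ δ := by
  have hl2 : 0 < Real.log 2 := Real.log_pos one_lt_two
  refine ⟨((A : ℝ) * (1 / (δ * Real.log 2) + 1) + 1) * B, by positivity, fun K hK => ?_⟩
  have hK1 : (1 : ℝ) ≤ (K : ℝ) ^ δ := Real.one_le_rpow (by exact_mod_cast hK) hδ.le
  have hlog : (Nat.log 2 K : ℝ) ≤ 1 / (δ * Real.log 2) * (K : ℝ) ^ δ := by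
    have h2 : (2 : ℝ) ^ Nat.log 2 K ≤ K := by exact_mod_cast Nat.pow_log_le_self 2 hK.ne'
    have h3 := Real.log_le_log (by positivity) h2
    rw [Real.log_pow] at h3
    have h4 := h3.trans (Real.log_le_rpow_div (Nat.cast_nonneg K) hδ)
    rw [le_div_iff₀ hδ] at h4
    rw [div_mul_eq_mul_div, one_mul, le_div_iff₀ (by positivity)]
    linarith
  push_cast
  have hA : (A : ℝ) * (Nat.log 2 K + 1) ≤
      A * ((1 / (δ * Real.log 2) + 1) * (K : ℝ) ^ δ) :=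
    mul_le_mul_of_nonneg_left (by linarith) (Nat.cast_nonneg A)
  calc ((A : ℝ) * (Nat.log 2 K + 1) + 1) * B
      ≤ (A * ((1 / (δ * Real.log 2) + 1) * (K : ℝ) ^ δ) + (K : ℝ) ^ δ) * B :=
        mul_le_mul_of_nonneg_right (by linarith) (Nat.cast_nonneg B)
    _ = ((A : ℝ) * (1 / (δ * Real.log 2) + 1) + 1) * B * (K : ℝ) ^ δ := by ring

/-- The bound for one core by the entries of its descendants. -/
noncomputable def descBound (D : ℕ) (p : ℝ) (N₀ : ℕ) (a t₀ t₁ : ℝ) (m : ℕ) (w : V) (x : W)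
    (c : V × V) (K : ℕ) : ℝ≥0∞ :=
  ENNReal.ofReal (2 * m / a) * (K : ℝ≥0∞) ^ (-t₀) *
    ∑' v : desc (T := T) N₀ (N₀ * (Nat.log 2 K + 1)) w c,
      prob H p (connTo Set.univ x (Ac.entry D v)) ^ t₁

set_option maxHeartbeats 800000 in
-- one long composition of the pointwise bound with the first stage
lemma halfTail_le_desc {D : ℕ} {types : Finset (W × (V × V))} (hty : Ac.IsTypes D types)
    (hpc0 : 0 < pc H) (hpc1 : pc H < 1) {p : ℝ} (hp0 : 0 < p) (hp1 : p ≤ 1) (hpp : p < pc H)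
    (hop : ∀ σ ∈ types, Bool → Ac.Hop D p σ types)
    (hdis : ∀ σ hσ, Disjoint (cone T (hop σ hσ true).sub) (cone T (hop σ hσ false).sub))
    {t₀ t₁ : ℝ} (ht0 : 0 < t₀) (ht0' : t₀ ≤ 1) (ht1 : 0 < t₁) (ht1' : t₁ ≤ 1) {N₀ : ℕ}
    (hN₀ : ∀ σ hσ b, (hop σ hσ b).N ≤ N₀) {a : ℝ} (ha : 0 < a)
    (hreach : ∀ (n : ℕ) (σ : W × (V × V)) (hσ : σ ∈ types) (b : Bool) (c : V × V)
      (Y : Finset Γ), T.Adj c.1 c.2 → (∀ y ∈ Y, y • σ.2 = c) → Y.card = n → 0 < n →
      ∃ (U : Finset (Sym2 W)) (Fs : Finset (V × V)), ↑U ⊆ H.edgeSet ∧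
        ↑U ⊆ inside (Ac.core D c) ∧
        (∀ v ∈ Fs, T.Adj v.1 v.2 ∧ cone T v ⊆ cone T c ∧
          T.dist c.2 v.2 ≤ N₀ * (Nat.log 2 n + 1) ∧
          ∃ y ∈ Y, ∃ e ∈ (hop σ hσ b).A, cone T v ⊆ cone T (y • e)) ∧
        a * (n : ℝ) ^ t₀ ≤
          ∑ v ∈ Fs, pr p U (Ac.hitFrom D (Y.image fun y : Γ => y • σ.1) v) ^ t₁)
    (w : V) (x : W) (c : V × V) (K : ℕ) (hc : T.Adj c.1 c.2) (hK : 0 < K) :
    Ac.halfTail D (pc H) x c K ≤
      (types.card : ℝ≥0∞) * Ac.descBound D (pc H) N₀ a t₀ t₁ types.card w x c K ^ (1 / t₁) := by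
  classical
  refine iSup₂_le fun U₀ hU₀ => ?_
  set m := types.card with hm
  unfold descBound
  set U₁ := U₀.filter (· ∈ Ac.outE D c) with hU₁
  have hmarg : pr (pc H) U₀ (manyIn (Ac.outE D c) x (Ac.entry D c) K) =
      pr (pc H) U₁ (manyIn (Ac.outE D c) x (Ac.entry D c) K) := by
    rw [← pr_marginal (pc H) (filter_subset _ _) (manyIn (Ac.outE D c) x (Ac.entry D c) K)]
    refine pr_congr fun S hS => manyIn_inPart ?_
    ext e
    have := @hS e
    simp only [mem_inPart, mem_inter, mem_filter]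
    tauto
  rw [hmarg]
  set k₁ := (K - 1) / m + 1 with hk₁
  have hsplit : pr (pc H) U₁ (manyIn (Ac.outE D c) x (Ac.entry D c) K) ≤
      ∑ τ ∈ types, pr (pc H) U₁ (manyIn (Ac.outE D c) x {u | OfKind (Γ := Γ) τ u c} k₁) := by
    refine pr_le_sum hpc0.le hpc1.le types
      (fun τ => manyIn (Ac.outE D c) x {u | OfKind (Γ := Γ) τ u c} k₁) fun S _ hS => ?_
    obtain ⟨Y, hY, hY'⟩ := hS
    by_contra hno
    simp only [not_exists, not_and] at hno
    have hle : ∀ τ ∈ types, (Y.filter fun u => OfKind (Γ := Γ) τ u c).card ≤ (K - 1) / m := by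
      intro τ hτ
      by_contra hlt
      exact hno τ hτ ⟨Y.filter fun u => OfKind (Γ := Γ) τ u c, by omega, fun u hu =>
        ⟨(mem_filter.1 hu).2, (hY' u (mem_filter.1 hu).1).2⟩⟩
    have hcov : Y ⊆ types.biUnion fun τ => Y.filter fun u => OfKind (Γ := Γ) τ u c := by
      intro u hu
      obtain ⟨τ, hτ, hk⟩ := hty.2 c hc u (hY' u hu).1
      exact mem_biUnion.2 ⟨τ, hτ, mem_filter.2 ⟨hu, hk⟩⟩
    have h5 := (card_le_card hcov).trans (card_biUnion_le.trans (sum_le_card_nsmul _ _ _ hle))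
    rw [smul_eq_mul, ← hm] at h5
    have := Nat.mul_div_le (K - 1) m
    omega
  refine (ENNReal.ofReal_le_ofReal hsplit).trans ?_
  rw [ENNReal.ofReal_sum_of_nonneg fun τ _ => pr_nonneg hpc0.le hpc1.le _ _]
  refine (sum_le_card_nsmul _ _ ((ENNReal.ofReal (2 * m / a) * (K : ℝ≥0∞) ^ (-t₀) *
    ∑' v : desc (T := T) N₀ (N₀ * (Nat.log 2 K + 1)) w c,
      prob H (pc H) (connTo Set.univ x (Ac.entry D v)) ^ t₁) ^ (1 / t₁)) fun τ hτ => ?_).trans_eq
    (by rw [nsmul_eq_mul])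
  have hm1 : 1 ≤ m := card_pos.2 ⟨τ, hτ⟩
  set G := U₁.powerset.filter (manyIn (Ac.outE D c) x {u | OfKind (Γ := Γ) τ u c} k₁) with hG
  have hsucc : ∀ S ∈ G, ∃ (U : Finset (Sym2 W)) (Fs : Finset (V × V)) (P : Finset W),
      ↑U ⊆ H.edgeSet ∧ ↑U ⊆ inside (Ac.core D c) ∧
      (∀ v ∈ Fs, v ∈ desc (T := T) N₀ (N₀ * (Nat.log 2 K + 1)) w c) ∧
      (∀ z ∈ P, z ∈ cl {x} S) ∧
      a / (2 * m) * (K : ℝ) ^ t₀ ≤ ∑ v ∈ Fs, pr p U (Ac.hitFrom D P v) ^ t₁ := by
    intro S hS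
    obtain ⟨Z, hZ, hZ'⟩ := (mem_filter.1 hS).2
    obtain ⟨Z', hZ'sub, hZ'card⟩ := exists_subset_card_eq hZ
    have hδ : ∀ z : {z // z ∈ Z'}, ∃ δ : Γ, δ • τ.1 = z.1 ∧ δ • τ.2 = c :=
      fun z => (hZ' z.1 (hZ'sub z.2)).1
    choose δ hδ1 hδ2 using hδ
    have hinj : Function.Injective δ := fun z z' e =>
      Subtype.ext ((hδ1 z).symm.trans (e ▸ hδ1 z'))
    set Y := Z'.attach.image δ with hY
    -- each seed has an option avoiding `w`; keep the larger part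
    set Y₁ := Y.filter (fun y => w ∉ cone T (y • (hop τ hτ true).sub)) with hY₁
    set Y₂ := Y.filter (fun y => w ∉ cone T (y • (hop τ hτ false).sub)) with hY₂
    have hsum : Y.card ≤ Y₁.card + Y₂.card := by
      refine (card_le_card fun y hy => ?_).trans (card_union_le _ _)
      by_cases h1 : w ∈ cone T (y • (hop τ hτ true).sub)
      · refine mem_union_right _ (mem_filter.2 ⟨hy, fun h2 => ?_⟩)
        exact Set.disjoint_left.1 ((Ac.disjoint_cone_smul y _ _).2 (hdis τ hτ)) h1 h2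
      · exact mem_union_left _ (mem_filter.2 ⟨hy, h1⟩)
    have hYcard : Y.card = k₁ := by
      rw [card_image_of_injective _ hinj, card_attach, hZ'card]
    obtain ⟨b, Y', hY'Y, hY'w, hY'card⟩ : ∃ (b : Bool) (Y' : Finset Γ), Y' ⊆ Y ∧
        (∀ y ∈ Y', w ∉ cone T (y • (hop τ hτ b).sub)) ∧ k₁ ≤ 2 * Y'.card := by
      rcases le_total Y₂.card Y₁.card with h | h
      · exact ⟨true, Y₁, filter_subset _ _, fun y hy => (mem_filter.1 hy).2,
          by omega⟩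
      · exact ⟨false, Y₂, filter_subset _ _, fun y hy => (mem_filter.1 hy).2,
          by omega⟩
    have hY'δ : ∀ y ∈ Y', y • τ.2 = c := fun y hy => by
      obtain ⟨z, -, rfl⟩ := mem_image.1 (hY'Y hy)
      exact hδ2 z
    obtain ⟨U, Fs, e1, e2, e3, e4⟩ :=
      hreach Y'.card τ hτ b c Y' hc hY'δ rfl (Nat.pos_of_ne_zero fun h0 => by rw [h0, hk₁] at hY'card; simp at hY'card)
    have hY'K : Y'.card ≤ K := by
      have := card_le_card hY'Y
      have := Nat.div_le_self (K - 1) m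
      omega
    refine ⟨U, Fs, _, e1, e2, fun v hv => ?_, fun z hz => ?_, le_trans ?_ e4⟩
    · obtain ⟨f1, f2, f3, y, hy, e, he, f4⟩ := e3 v hv
      refine ⟨f1, f2, f3.trans (Nat.mul_le_mul_left _ (Nat.succ_le_succ
        (Nat.log_mono_right hY'K))), y • e, (Ac.tree_smul y _ _).2 ((hop τ hτ b).A_adj e he),
        ?_, f4, ?_, fun hw => hY'w y hy ((Ac.cone_smul_subset y _ _).2
          ((hop τ hτ b).A_le e he) hw)⟩
      · rw [← hY'δ y hy, Ac.cone_smul_subset]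
        exact ((hop τ hτ b).A_le e he).trans (hop τ hτ b).sub_le
      · rw [← hY'δ y hy]
        exact ((Ac.dist_smul y _ _).trans ((hop τ hτ b).A_depth e he)).le.trans (hN₀ τ hτ b)
    · obtain ⟨y, hy, rfl⟩ := mem_image.1 hz
      obtain ⟨z, -, rfl⟩ := mem_image.1 (hY'Y hy)
      rw [hδ1 z]
      exact cl_mono subset_rfl (inPart_subset _ _) (hZ' z.1 (hZ'sub z.2)).2
    · have hK' : (K : ℝ) ≤ 2 * m * Y'.card := by
        have hh : K ≤ m * k₁ := by
          have h6 := Nat.lt_mul_div_succ (K - 1) hm1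
          rw [hk₁]
          omega
        have hh2 : m * k₁ ≤ 2 * m * Y'.card := by
          rw [show 2 * m * Y'.card = m * (2 * Y'.card) by ring]
          exact Nat.mul_le_mul_left m hY'card
        exact_mod_cast hh.trans hh2
      have hm' : (1 : ℝ) ≤ 2 * m := by
        have : (1 : ℝ) ≤ m := by exact_mod_cast hm1
        linarith
      have h7 := Real.rpow_le_rpow (Nat.cast_nonneg K) hK' ht0.le
      rw [Real.mul_rpow (by positivity) (Nat.cast_nonneg _)] at h7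
      have h8 : (2 * (m : ℝ)) ^ t₀ ≤ 2 * m :=
        (Real.rpow_le_rpow_of_exponent_le hm' ht0').trans_eq (Real.rpow_one _)
      rw [div_mul_eq_mul_div, div_le_iff₀ (by linarith), mul_assoc, mul_comm _ (2 * (m : ℝ))]
      exact mul_le_mul_of_nonneg_left (h7.trans
        (mul_le_mul_of_nonneg_right h8 (Real.rpow_nonneg (Nat.cast_nonneg _) _))) ha.le
  choose U Fs P hUe hUc hFs hP hval using hsucc
  set UA := G.attach.biUnion fun S => U S.1 S.2 with hUA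
  set FA := G.attach.biUnion fun S => Fs S.1 S.2 with hFA
  have hdisj : Disjoint U₁ UA := Finset.disjoint_left.2 fun s hs hs' => by
    obtain ⟨S, -, hs'⟩ := mem_biUnion.1 hs'
    exact (mem_filter.1 hs).2 (hUc _ _ (mem_coe.2 hs'))
  have hedge : ↑(U₁ ∪ UA) ⊆ H.edgeSet := by
    intro s hs
    rcases mem_union.1 (mem_coe.1 hs) with hs | hs
    · exact hU₀ (mem_coe.2 (filter_subset _ _ hs))
    · obtain ⟨S, -, hs⟩ := mem_biUnion.1 hs
      exact hUe _ _ (mem_coe.2 hs)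
  set q := pr (pc H) U₁ (manyIn (Ac.outE D c) x {u | OfKind (Γ := Γ) τ u c} k₁) with hq
  have hq0 : 0 ≤ q := pr_nonneg hpc0.le hpc1.le _ _
  have hqsum : ∑ S ∈ G.attach, wt (pc H) U₁ S.1 = q := by
    rw [sum_attach G fun S => wt (pc H) U₁ S]
    rfl
  have hwnn : ∀ S ∈ G.attach, 0 ≤ wt (pc H) U₁ S.1 :=
    fun S _ => wt_nonneg hpc0.le hpc1.le _ _
  have hv : ∀ v, ∑ S ∈ G.attach, wt (pc H) U₁ S.1 *
      pr p (U S.1 S.2) (Ac.hitFrom D (P S.1 S.2) v) ^ t₁ ≤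
      q ^ (1 - t₁) * pr (pc H) (U₁ ∪ UA) (connTo Set.univ x (Ac.entry D v)) ^ t₁ := by
    intro v
    refine (sum_mul_rpow_le _ _ _ hwnn (fun S _ => pr_nonneg hp0.le hp1 _ _) ht1 ht1').trans ?_
    rw [hqsum]
    refine mul_le_mul_of_nonneg_left (Real.rpow_le_rpow (sum_nonneg fun S hS =>
      mul_nonneg (hwnn S hS) (pr_nonneg hp0.le hp1 _ _)) ?_ ht1.le) (Real.rpow_nonneg hq0 _)
    refine le_trans ?_ (sum_wt_mul_le_pr hpc0.le hpc1.le hdisj
      (connTo Set.univ x (Ac.entry D v)) G fun S hS => mem_powerset.1 (mem_filter.1 hS).1)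
    rw [← sum_attach G fun S => wt (pc H) U₁ S *
      pr (pc H) UA fun b => connTo Set.univ x (Ac.entry D v) (S ∪ b)]
    refine sum_le_sum fun S _ => mul_le_mul_of_nonneg_left ?_ (hwnn S (mem_attach _ S))
    refine ((pr_monotoneOn _ (Ac.incr_hitFrom D _ v) ⟨hp0.le, hp1⟩ ⟨hpc0.le, hpc1.le⟩
      hpp.le).trans (pr_mono_set hpc0.le hpc1.le (subset_biUnion_of_mem
        (fun S : {S // S ∈ G} => U S.1 S.2) (mem_attach G S)) (Ac.incr_hitFrom D _ v))).trans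
      (pr_mono hpc0.le hpc1.le fun b _ ⟨z, hz, hzc⟩ => ⟨z, hz, ?_⟩)
    rw [show inPart Set.univ (S.1 ∪ b) = S.1 ∪ b by ext e; simp only [mem_inPart, Set.mem_univ, and_true]]
    exact cl_trans (fun u hu => cl_mono subset_rfl subset_union_left
      (hP S.1 S.2 u (mem_coe.1 hu))) subset_union_right hzc
  have hmain : q * (a / (2 * m) * (K : ℝ) ^ t₀) ≤
      q ^ (1 - t₁) * ∑ v ∈ FA, pr (pc H) (U₁ ∪ UA) (connTo Set.univ x (Ac.entry D v)) ^ t₁ := by
    calc q * (a / (2 * m) * (K : ℝ) ^ t₀)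
        ≤ ∑ S ∈ G.attach, wt (pc H) U₁ S.1 *
            ∑ v ∈ FA, pr p (U S.1 S.2) (Ac.hitFrom D (P S.1 S.2) v) ^ t₁ := by
          rw [← hqsum, sum_mul]
          exact sum_le_sum fun S hS => mul_le_mul_of_nonneg_left ((hval S.1 S.2).trans
            (sum_le_sum_of_subset_of_nonneg (subset_biUnion_of_mem
              (fun S : {S // S ∈ G} => Fs S.1 S.2) hS)
              fun v _ _ => Real.rpow_nonneg (pr_nonneg hp0.le hp1 _ _) _)) (hwnn S hS)
      _ ≤ _ := by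
          simp only [mul_sum]
          rw [sum_comm]
          exact sum_le_sum fun v _ => hv v
  have hqt : q ^ t₁ ≤ 2 * m / a * (K : ℝ) ^ (-t₀) *
      ∑ v ∈ FA, pr (pc H) (U₁ ∪ UA) (connTo Set.univ x (Ac.entry D v)) ^ t₁ := by
    have hKpos : (0 : ℝ) < (K : ℝ) ^ t₀ := Real.rpow_pos_of_pos (by exact_mod_cast hK) _
    have hmpos : (0 : ℝ) < m := by exact_mod_cast hm1
    have hsum0 : 0 ≤ ∑ v ∈ FA, pr (pc H) (U₁ ∪ UA) (connTo Set.univ x (Ac.entry D v)) ^ t₁ :=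
      sum_nonneg fun v _ => Real.rpow_nonneg (pr_nonneg hpc0.le hpc1.le _ _) _
    rcases eq_or_lt_of_le hq0 with h9 | h9
    · rw [← h9, Real.zero_rpow ht1.ne']
      exact mul_nonneg (mul_nonneg (by positivity) (Real.rpow_nonneg (Nat.cast_nonneg _) _)) hsum0
    have hsp : q = q ^ (1 - t₁) * q ^ t₁ := by
      rw [← Real.rpow_add h9, sub_add_cancel, Real.rpow_one]
    have h10 : q ^ t₁ * (a / (2 * m) * (K : ℝ) ^ t₀) ≤
        ∑ v ∈ FA, pr (pc H) (U₁ ∪ UA) (connTo Set.univ x (Ac.entry D v)) ^ t₁ :=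
      le_of_mul_le_mul_left (by rw [← mul_assoc, ← hsp]; exact hmain)
        (Real.rpow_pos_of_pos h9 _)
    rw [Real.rpow_neg (Nat.cast_nonneg K)]
    calc q ^ t₁ = q ^ t₁ * (a / (2 * m) * (K : ℝ) ^ t₀) * (2 * m / a * ((K : ℝ) ^ t₀)⁻¹) := by
          field_simp
      _ ≤ _ := by
          rw [mul_comm (2 * (m : ℝ) / a * ((K : ℝ) ^ t₀)⁻¹)
            (∑ v ∈ FA, pr (pc H) (U₁ ∪ UA) (connTo Set.univ x (Ac.entry D v)) ^ t₁)]
          exact mul_le_mul_of_nonneg_right h10 (mul_nonneg (div_nonneg (mul_nonneg zero_le_two (Nat.cast_nonneg m)) ha.le)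
            (inv_nonneg.2 (Real.rpow_nonneg (Nat.cast_nonneg K) _)))
  have hdesc : ∀ v ∈ FA, v ∈ desc (T := T) N₀ (N₀ * (Nat.log 2 K + 1)) w c := fun v hv => by
    obtain ⟨S, -, hv⟩ := mem_biUnion.1 hv
    exact hFs _ _ v hv
  have hfin : ENNReal.ofReal q ^ t₁ ≤ (ENNReal.ofReal (2 * m / a) * (K : ℝ≥0∞) ^ (-t₀) *
    ∑' v : desc (T := T) N₀ (N₀ * (Nat.log 2 K + 1)) w c,
      prob H (pc H) (connTo Set.univ x (Ac.entry D v)) ^ t₁) := by
    rw [ENNReal.ofReal_rpow_of_nonneg hq0 ht1.le]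
    refine (ENNReal.ofReal_le_ofReal hqt).trans ?_
    rw [ENNReal.ofReal_mul (mul_nonneg (by positivity) (Real.rpow_nonneg (Nat.cast_nonneg _) _)),
      ENNReal.ofReal_mul (by positivity),
      ← ENNReal.ofReal_rpow_of_pos (show (0 : ℝ) < K by exact_mod_cast hK),
      ENNReal.ofReal_natCast,
      ENNReal.ofReal_sum_of_nonneg fun v _ => Real.rpow_nonneg (pr_nonneg hpc0.le hpc1.le _ _) _]
    refine mul_le_mul_right ?_ _
    refine le_trans ?_ (ENNReal.sum_le_tsum (FA.attach.map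
      ⟨fun v => (⟨v.1, hdesc v.1 v.2⟩ : desc (T := T) N₀ (N₀ * (Nat.log 2 K + 1)) w c),
        fun u v h => Subtype.ext (congrArg (fun z => z.1) h)⟩))
    rw [sum_map, ← sum_attach FA]
    refine sum_le_sum fun v _ => ?_
    rw [← ENNReal.ofReal_rpow_of_nonneg (pr_nonneg hpc0.le hpc1.le _ _) ht1.le]
    exact ENNReal.rpow_le_rpow (le_iSup₂_of_le (U₁ ∪ UA) hedge le_rfl) ht1.le
  calc ENNReal.ofReal q = (ENNReal.ofReal q ^ t₁) ^ (1 / t₁) := by
        rw [← ENNReal.rpow_mul, mul_one_div_cancel ht1.ne', ENNReal.rpow_one]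
    _ ≤ _ := ENNReal.rpow_le_rpow hfin (by positivity)

variable [H.LocallyFinite]

/-- Blocks of every weight give the tail bound with every exponent below one. -/
theorem exists_tail_bound (hH : H.Connected) {D : ℕ} {types : Finset (W × (V × V))}
    (hty : Ac.IsTypes D types)
    (hhops : ∀ t₀, 0 < t₀ → t₀ ≤ 1 → Ac.Good (pc H) t₀ → ∀ S : ℝ,
      ∃ p, 0 < p ∧ p < pc H ∧ ∀ σ ∈ types, ∃ h h' : Ac.Hop D p σ types,
        Disjoint (cone T h.sub) (cone T h'.sub) ∧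
        S ≤ ∑ e ∈ h.A, h.g e ^ t₀ ∧ S ≤ ∑ e ∈ h'.A, h'.g e ^ t₀)
    {θ : ℝ} (hθ : 0 < θ) (hθ1 : θ < 1) :
    ∃ C : ℝ≥0∞, C ≠ ⊤ ∧ Ac.TailBound D (pc H) θ C := by
  classical
  obtain ⟨hpc0, hpc1⟩ := Ac.pc_pos_lt_one hH
  obtain ⟨t₀, t₁, ht0, ht01, ht1', hgood, hbad, hratio⟩ :=
    exists_exponents (G := Ac.Good (pc H))
      (fun t u hu hut _ hG => Ac.good_mono hpc0.le hpc1.le hu hut hG)
      (Ac.not_good_one hH) (Ac.exists_good hH) (θ := θ / 2) (by linarith) (by linarith)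
  have ht1 : 0 < t₁ := ht0.trans_le ht01
  have ht0' : t₀ ≤ 1 := ht01.trans ht1'
  obtain ⟨p, hp0, hpp, hh⟩ := hhops t₀ ht0 ht0' hgood (4 * types.card)
  have hp1 : p ≤ 1 := hpp.le.trans hpc1.le
  choose hA hB hdis hSA hSB using hh
  set hop : ∀ σ ∈ types, Bool → Ac.Hop D p σ types :=
    fun σ hσ b => if b then hA σ hσ else hB σ hσ with hhop
  set HB := types.attach ×ˢ (univ : Finset Bool) with hHB
  set N₀ := HB.sup fun σb => (hop σb.1.1 σb.1.2 σb.2).N with hN₀def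
  have hN₀ : ∀ σ hσ b, (hop σ hσ b).N ≤ N₀ := fun σ hσ b =>
    le_sup (s := HB) (f := fun σb : {σ // σ ∈ types} × Bool => (hop σb.1.1 σb.1.2 σb.2).N)
      (show ((⟨σ, hσ⟩ : {σ // σ ∈ types}), b) ∈ HB from
        mem_product.2 ⟨mem_attach _ _, mem_univ b⟩)
  set Gs : Finset ℝ := insert 1 (HB.biUnion fun σb =>
    (hop σb.1.1 σb.1.2 σb.2).A.image (hop σb.1.1 σb.1.2 σb.2).g) with hGs
  set γ₀ := Gs.min' (insert_nonempty _ _) with hγ₀def
  have hγ₀ : 0 < γ₀ := by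
    refine (lt_min'_iff _ _).2 fun z hz => ?_
    rcases mem_insert.1 hz with rfl | hz
    · exact one_pos
    · obtain ⟨σb, -, hz⟩ := mem_biUnion.1 hz
      obtain ⟨e, he, rfl⟩ := mem_image.1 hz
      exact (hop _ _ _).g_pos e he
  have hγ : ∀ σ hσ b, ∀ e ∈ (hop σ hσ b).A, γ₀ ≤ (hop σ hσ b).g e := fun σ hσ b e he =>
    min'_le _ _ (mem_insert_of_mem (mem_biUnion.2 ⟨(⟨σ, hσ⟩, b),
      mem_product.2 ⟨mem_attach _ _, mem_univ b⟩, mem_image_of_mem _ he⟩))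
  have hS : ∀ σ hσ b, 4 * (types.card : ℝ) ≤
      ∑ e ∈ (hop σ hσ b).A, (hop σ hσ b).g e ^ t₀ := by
    intro σ hσ b
    cases b
    · simpa [hhop] using hSB σ hσ
    · simpa [hhop] using hSA σ hσ
  obtain ⟨a, ha, hreach⟩ :=
    Ac.exists_reach hp0.le hp1 hty hop ht0 ht0' ht1 ht1' hN₀ hγ₀ hγ hS
  obtain ⟨B, hBtop, hBd⟩ := Ac.exists_entry_bound hH D ht1 ht1' hbad
  obtain ⟨M, hM0, hM⟩ := exists_log_bound N₀ (N₀ + 1) (δ := θ * t₁ / 2) (by positivity)
  set m := types.card with hm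
  set R : V → W → V × V → ℕ → ℝ≥0∞ := fun w x c K =>
    Ac.descBound D (pc H) N₀ a t₀ t₁ m w x c K with hR
  have key : ∀ (w : V) (x : W) (c : V × V) (K : ℕ), T.Adj c.1 c.2 → 0 < K →
      Ac.halfTail D (pc H) x c K ≤ (m : ℝ≥0∞) * R w x c K ^ (1 / t₁) := fun w x c K =>
    Ac.halfTail_le_desc hty hpc0 hpc1 hp0 hp1 hpp hop
      (fun σ hσ => by simpa [hhop] using hdis σ hσ) ht0 ht0' ht1 ht1' hN₀ ha hreach w x c K
  -- summation
  set C : ℝ≥0∞ := (m : ℝ≥0∞) *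
    (ENNReal.ofReal (2 * m / a) * (ENNReal.ofReal M * B)) ^ (1 / t₁) with hC
  have hCtop : C ≠ ⊤ :=
    ENNReal.mul_ne_top (ENNReal.natCast_ne_top _) (ENNReal.rpow_ne_top_of_nonneg (by positivity)
      (ENNReal.mul_ne_top ENNReal.ofReal_ne_top (ENNReal.mul_ne_top ENNReal.ofReal_ne_top hBtop)))
  have total : ∀ (w : V) (x : W) (K : ℕ), 0 < K → ∀ F : Finset (V × V),
      (∀ c ∈ F, T.Adj c.1 c.2 ∧ Ac.proj x ∉ cone T c) →
      (∀ c ∈ F, ∀ c' ∈ F, c ≠ c' →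
        T.dist (Ac.proj x) c.1 % (N₀ + 1) = T.dist (Ac.proj x) c'.1 % (N₀ + 1) →
        ∀ v ∈ desc (T := T) N₀ (N₀ * (Nat.log 2 K + 1)) w c,
          ∀ v' ∈ desc (T := T) N₀ (N₀ * (Nat.log 2 K + 1)) w c',
            Disjoint (cone T v) (cone T v')) →
      ∑ c ∈ F, Ac.halfTail D (pc H) x c K ≤ C * (K : ℝ≥0∞) ^ (-(1 - θ)) := by
    intro w x K hK F hF hsep
    refine (sum_le_sum fun c hc => key w x c K (hF c hc).1 hK).trans ?_
    rw [← mul_sum, hC, mul_assoc]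
    refine mul_le_mul_right ?_ _
    refine (sum_le_rpow_sum F (fun c => R w x c K ^ (1 / t₁)) ht1 ht1').trans ?_
    have hback : ∀ c ∈ F, (R w x c K ^ (1 / t₁)) ^ t₁ = R w x c K := fun c _ => by
      rw [← ENNReal.rpow_mul, one_div_mul_cancel ht1.ne', ENNReal.rpow_one]
    rw [sum_congr rfl hback]
    simp only [hR, descBound]
    rw [← mul_sum]
    have hd := Ac.sum_desc_le (hBd x) F hF hsep
    have hMK : (((N₀ * (Nat.log 2 K + 1) + 1) * (N₀ + 1) : ℕ) : ℝ≥0∞) ≤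
        ENNReal.ofReal M * (K : ℝ≥0∞) ^ (θ * t₁ / 2) := by
      rw [← ENNReal.ofReal_natCast, ← ENNReal.ofReal_natCast K,
        ENNReal.ofReal_rpow_of_nonneg (Nat.cast_nonneg K) (by positivity),
        ← ENNReal.ofReal_mul hM0]
      exact ENNReal.ofReal_le_ofReal (hM K hK)
    refine (ENNReal.rpow_le_rpow (mul_le_mul_right (hd.trans (mul_le_mul_left hMK B)) _)
      (by positivity)).trans ?_
    have hK0 : (K : ℝ≥0∞) ≠ 0 := by exact_mod_cast hK.ne'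
    rw [show ENNReal.ofReal (2 * m / a) * (K : ℝ≥0∞) ^ (-t₀) *
        (ENNReal.ofReal M * (K : ℝ≥0∞) ^ (θ * t₁ / 2) * B) =
        ENNReal.ofReal (2 * m / a) * (ENNReal.ofReal M * B) *
          ((K : ℝ≥0∞) ^ (-t₀) * (K : ℝ≥0∞) ^ (θ * t₁ / 2)) by ring,
      ← ENNReal.rpow_add _ _ hK0 (ENNReal.natCast_ne_top K),
      ENNReal.mul_rpow_of_nonneg _ _ (by positivity), ← ENNReal.rpow_mul]
    refine mul_le_mul_right (ENNReal.rpow_le_rpow_of_exponent_le (by exact_mod_cast hK) ?_) _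
    rw [mul_one_div, div_le_iff₀ ht1]
    nlinarith
  refine ⟨C, hCtop, fun x n K hK => ?_, fun x w K hK => ?_⟩
  · rw [ENNReal.tsum_eq_iSup_sum]
    refine iSup_le fun F => ?_
    have h11 := total Ac.f₀.1 x K hK (F.map (Function.Embedding.subtype _))
      (fun c hc => by
        obtain ⟨e, -, rfl⟩ := mem_map.1 hc
        exact ⟨e.2.1, e.2.2.1⟩)
      (fun c hc c' hc' hne _ v hv v' hv' => by
        obtain ⟨e, -, rfl⟩ := mem_map.1 hc
        obtain ⟨e', -, rfl⟩ := mem_map.1 hc'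
        rcases eq_or_disjoint_of_dist Ac.isTree e.2.1 e'.2.1 e.2.2.1 e'.2.2.1
          (e.2.2.2.trans e'.2.2.2.symm) with h | h
        · exact absurd h hne
        · exact h.mono hv.2.1 hv'.2.1)
    rwa [sum_map] at h11
  · rw [ENNReal.tsum_eq_iSup_sum]
    refine iSup_le fun F => ?_
    have h11 := total w x K hK (F.map (Function.Embedding.subtype _))
      (fun c hc => by
        obtain ⟨e, -, rfl⟩ := mem_map.1 hc
        exact ⟨e.2.1, e.2.2.1⟩)
      (fun c hc c' hc' hne hmod v hv v' hv' => by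
        obtain ⟨e, -, rfl⟩ := mem_map.1 hc
        obtain ⟨e', -, rfl⟩ := mem_map.1 hc'
        exact path_sep Ac.isTree e.2 e'.2 hne hmod hv hv')
    rwa [sum_map] at h11

end Vale.Agent.P165.Tree.Act
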