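import Vale.Agent.P165.Tree.Defs

/-!
Half-trees of a tree: crossing, distances, nesting.
-/

namespace Vale.Agent.P165.Tree

variable {V : Type*} {T : SimpleGraph V}

lemma self_mem_cone {e : V × V} (he : T.Adj e.1 e.2) : e.2 ∈ cone T e := by
  show T.dist e.2 e.2 < T.dist e.2 e.1
  rw [SimpleGraph.dist_self, SimpleGraph.dist_eq_one_iff_adj.2 he.symm]
  exact one_pos

lemma tail_not_mem_cone (e : V × V) : e.1 ∉ cone T e := by
  show ¬ T.dist e.1 e.2 < T.dist e.1 e.1
  simp

lemma mem_cone_swap (hT : T.IsTree) {e : V × V} (he : T.Adj e.1 e.2) {v : V} :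
    v ∈ cone T (e.2, e.1) ↔ v ∉ cone T e := by
  have := hT.dist_ne_of_adj v he
  simp only [cone, Set.mem_ofPred_eq]
  omega

lemma dist_tail_of_mem (hT : T.IsTree) {e : V × V} (he : T.Adj e.1 e.2) {v : V}
    (hv : v ∈ cone T e) : T.dist v e.1 = T.dist v e.2 + 1 := by
  have := hT.dist_eq_dist_add_one_of_adj v he
  simp only [cone, Set.mem_ofPred_eq] at hv
  omega

lemma dist_head_of_not_mem (hT : T.IsTree) {e : V × V} (he : T.Adj e.1 e.2) {v : V}
    (hv : v ∉ cone T e) : T.dist v e.2 = T.dist v e.1 + 1 := by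
  have := hT.dist_eq_dist_add_one_of_adj v he
  simp only [cone, Set.mem_ofPred_eq] at hv
  omega

/-- Only one neighbour is nearer to a given vertex. -/
lemma eq_of_closer (hT : T.IsTree) {r x y z : V} (hxy : T.Adj x y) (hxz : T.Adj x z)
    (hy : T.dist r x = T.dist r y + 1) (hz : T.dist r x = T.dist r z + 1) : y = z := by
  obtain ⟨p, hp⟩ := hT.connected.exists_walk_length_eq_dist r y
  obtain ⟨q, hq⟩ := hT.connected.exists_walk_length_eq_dist r z
  have h1 : (p.concat hxy.symm).IsPath := SimpleGraph.Walk.isPath_of_length_eq_dist _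
    (by rw [SimpleGraph.Walk.length_concat, hp, hy])
  have h2 : (q.concat hxz.symm).IsPath := SimpleGraph.Walk.isPath_of_length_eq_dist _
    (by rw [SimpleGraph.Walk.length_concat, hq, hz])
  have h := congrArg (fun w : T.Path r x => (w : T.Walk r x).penultimate)
    ((hT.isAcyclic.subsingleton_path r x).elim ⟨_, h1⟩ ⟨_, h2⟩)
  simpa using h

lemma adj_cross (hT : T.IsTree) {e : V × V} (he : T.Adj e.1 e.2) {u v : V} (h : T.Adj u v)
    (hu : u ∈ cone T e) (hv : v ∉ cone T e) : u = e.2 ∧ v = e.1 := by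
  have hu' := dist_tail_of_mem hT he hu
  have hv' := dist_head_of_not_mem hT he hv
  have h1 := h.diff_dist_adj (u := e.1)
  have h2 := h.diff_dist_adj (u := e.2)
  rw [SimpleGraph.dist_comm (u := u) (v := e.1), SimpleGraph.dist_comm (u := u) (v := e.2)] at hu'
  rw [SimpleGraph.dist_comm (u := v) (v := e.1), SimpleGraph.dist_comm (u := v) (v := e.2)] at hv'
  have hau : T.dist e.1 u = T.dist e.1 v + 1 := by
    have := hT.dist_ne_of_adj e.1 h; omega
  have hbu : T.dist e.2 v = T.dist e.2 u + 1 := by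
    have := hT.dist_ne_of_adj e.2 h; omega
  by_cases hne : u = e.2
  · subst hne
    refine ⟨rfl, ?_⟩
    rw [SimpleGraph.dist_self] at hu'
    rcases (hT.connected.dist_eq_zero_iff (u := e.1) (v := v)).1 (by omega) with rfl
    rfl
  exfalso
  obtain ⟨p, hp⟩ := hT.connected.exists_walk_length_eq_dist u e.2
  have hpos : 0 < p.length := by
    rw [hp]
    exact hT.connected.pos_dist_of_ne hne
  have hadj : T.Adj u (p.getVert 1) := by simpa using p.adj_getVert_succ hpos
  have h3 := (SimpleGraph.dist_le (p.drop 1)).trans_eq (p.drop_length 1)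
  rw [hp, SimpleGraph.dist_comm (u := p.getVert 1) (v := e.2),
    SimpleGraph.dist_comm (u := u) (v := e.2)] at h3
  have h4 := hT.connected.dist_triangle (u := e.1) (v := e.2) (w := p.getVert 1)
  rw [SimpleGraph.dist_eq_one_iff_adj.2 he] at h4
  have h5 := hadj.diff_dist_adj (u := e.1)
  have h6 := hadj.diff_dist_adj (u := e.2)
  rw [SimpleGraph.dist_comm (u := u) (v := e.2)] at hp
  have hz : p.getVert 1 = v := eq_of_closer hT hadj h (r := e.1) (by omega) hau
  rw [hz] at h3 h4 h5 h6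
  omega

lemma dist_through (hT : T.IsTree) {e : V × V} (he : T.Adj e.1 e.2) {u v : V}
    (hu : u ∈ cone T e) (hv : v ∉ cone T e) :
    T.dist u v = T.dist u e.2 + 1 + T.dist e.1 v := by
  classical
  refine le_antisymm ?_ ?_
  · have h1 := hT.connected.dist_triangle (u := u) (v := e.2) (w := v)
    have h2 := hT.connected.dist_triangle (u := e.2) (v := e.1) (w := v)
    rw [SimpleGraph.dist_eq_one_iff_adj.2 he.symm] at h2
    omega
  obtain ⟨p, hp⟩ := hT.connected.exists_walk_length_eq_dist u v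
  obtain ⟨d, hd, hd1, hd2⟩ := p.exists_boundary_dart (cone T e) hu hv
  obtain ⟨hd1', hd2'⟩ := adj_cross hT he d.adj hd1 hd2
  have hm : e.2 ∈ p.support := hd1' ▸ p.dart_fst_mem_support_of_mem_darts hd
  have hm' : e.1 ∈ p.support := hd2' ▸ p.dart_snd_mem_support_of_mem_darts hd
  have h1 := congrArg SimpleGraph.Walk.length (p.take_spec hm)
  rw [SimpleGraph.Walk.length_append, hp] at h1
  have h2 := SimpleGraph.dist_le (p.takeUntil e.2 hm)
  have h3 := SimpleGraph.dist_le (p.dropUntil e.2 hm)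
  have h4 := dist_head_of_not_mem hT he hv
  rw [SimpleGraph.dist_comm (u := v) (v := e.1), SimpleGraph.dist_comm (u := v) (v := e.2)] at h4
  omega

lemma cone_subset_of_tail (hT : T.IsTree) {e c : V × V} (he : T.Adj e.1 e.2) (hc : T.Adj c.1 c.2)
    (h1 : e.1 ∈ cone T c) (h2 : c.1 ∉ cone T e) : cone T e ⊆ cone T c := by
  intro u hu
  by_contra huc
  have a1 := dist_through hT he hu (tail_not_mem_cone e)
  have a2 := dist_through hT he hu h2
  have a3 := dist_through hT hc h1 huc
  have a4 := dist_through hT hc h1 (tail_not_mem_cone c)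
  rw [SimpleGraph.dist_self, add_zero] at a1 a4
  rw [SimpleGraph.dist_comm (u := e.1) (v := u), SimpleGraph.dist_comm (u := c.1) (v := u)] at a3
  omega

lemma tail_mem_of_subset (hT : T.IsTree) {e c : V × V} (he : T.Adj e.1 e.2) (hc : T.Adj c.1 c.2)
    (h : cone T e ⊆ cone T c) (hne : e ≠ c) : e.1 ∈ cone T c ∧ c.2 ∉ cone T e := by
  refine ⟨?_, ?_⟩
  · by_contra h1
    obtain ⟨a, b⟩ := adj_cross hT hc he.symm (h (self_mem_cone he)) h1
    exact hne (Prod.ext b a)
  · intro h2
    obtain ⟨a, b⟩ := adj_cross hT he hc.symm h2 fun h1 => tail_not_mem_cone c (h h1)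
    exact hne (Prod.ext b.symm a.symm)

lemma depth_add (hT : T.IsTree) {e c f : V × V} (he : T.Adj e.1 e.2) (hc : T.Adj c.1 c.2)
    (hf : T.Adj f.1 f.2) (h1 : cone T e ⊆ cone T c) (h2 : cone T c ⊆ cone T f) :
    T.dist f.2 e.2 = T.dist f.2 c.2 + T.dist c.2 e.2 := by
  rcases eq_or_ne c f with rfl | hne
  · simp
  obtain ⟨-, h3⟩ := tail_mem_of_subset hT hc hf h2 hne
  have h4 := dist_through hT hc (h1 (self_mem_cone he)) h3
  have h5 := dist_head_of_not_mem hT hc h3
  rw [SimpleGraph.dist_comm (u := f.2) (v := e.2), h4, h5,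
    SimpleGraph.dist_comm (u := c.2) (v := e.2), SimpleGraph.dist_comm (u := c.1) (v := f.2)]
  omega

lemma eq_of_subset_of_dist (hT : T.IsTree) {e c : V × V} (he : T.Adj e.1 e.2) (hc : T.Adj c.1 c.2)
    (h : cone T e ⊆ cone T c) (hd : T.dist c.2 e.2 = 0) : e = c := by
  by_contra hne
  obtain ⟨-, h2⟩ := tail_mem_of_subset hT he hc h hne
  exact h2 ((hT.connected.dist_eq_zero_iff.1 hd) ▸ self_mem_cone he)

lemma nested_or_disjoint (hT : T.IsTree) {e c : V × V} (he : T.Adj e.1 e.2) (hc : T.Adj c.1 c.2)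
    {v : V} (hve : v ∉ cone T e) (hvc : v ∉ cone T c) :
    cone T e ⊆ cone T c ∨ cone T c ⊆ cone T e ∨ Disjoint (cone T e) (cone T c) := by
  by_cases h1 : e.1 ∈ cone T c <;> by_cases h2 : c.1 ∈ cone T e
  · exfalso
    have a1 := dist_through hT he h2 hve
    have a2 := dist_through hT hc h1 hvc
    have a3 := dist_through hT he h2 (tail_not_mem_cone e)
    have a4 := dist_through hT hc h1 (tail_not_mem_cone c)
    simp only [SimpleGraph.dist_self, add_zero] at a3 a4
    rw [SimpleGraph.dist_comm (u := c.1) (v := e.1)] at a3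
    omega
  · exact .inl (cone_subset_of_tail hT he hc h1 h2)
  · exact .inr (.inl (cone_subset_of_tail hT hc he h2 h1))
  · rcases eq_or_ne e c with rfl | hne
    · exact .inl subset_rfl
    refine .inr (.inr (Set.disjoint_left.2 fun u hue huc => ?_))
    have a1 := dist_through hT he hue h2
    have a2 := dist_through hT hc huc h1
    have a3 := dist_through hT he hue (tail_not_mem_cone e)
    have a4 := dist_through hT hc huc (tail_not_mem_cone c)
    simp only [SimpleGraph.dist_self, add_zero] at a3 a4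
    rw [SimpleGraph.dist_comm (u := c.1) (v := e.1)] at a2
    have h0 : e.1 = c.1 := hT.connected.dist_eq_zero_iff.1 (by omega)
    exact hne (Prod.ext h0 (eq_of_closer hT (r := u) he (h0 ▸ hc) a3 (h0 ▸ a4)))

lemma eq_or_disjoint_of_dist (hT : T.IsTree) {e c : V × V} (he : T.Adj e.1 e.2)
    (hc : T.Adj c.1 c.2) {v : V} (hve : v ∉ cone T e) (hvc : v ∉ cone T c)
    (hd : T.dist v e.1 = T.dist v c.1) : e = c ∨ Disjoint (cone T e) (cone T c) := by
  have key : ∀ {e c : V × V}, T.Adj e.1 e.2 → T.Adj c.1 c.2 → v ∉ cone T c →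
      cone T e ⊆ cone T c → T.dist v e.1 = T.dist v c.1 → e = c := by
    intro e c he hc hvc h hd
    by_contra hne
    obtain ⟨h1, -⟩ := tail_mem_of_subset hT he hc h hne
    have a1 := dist_through hT hc h1 hvc
    rw [SimpleGraph.dist_comm (u := e.1) (v := v), SimpleGraph.dist_comm (u := c.1) (v := v)] at a1
    omega
  rcases nested_or_disjoint hT he hc hve hvc with h | h | h
  · exact .inl (key he hc hvc h hd)
  · exact .inl (key hc he hve h hd.symm).symm
  · exact .inr h

lemma eq_or_disjoint_below (hT : T.IsTree) {e e' c : V × V} (he : T.Adj e.1 e.2)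
    (he' : T.Adj e'.1 e'.2) (hc : T.Adj c.1 c.2) (h1 : cone T e ⊆ cone T c)
    (h2 : cone T e' ⊆ cone T c) (hd : T.dist c.2 e.2 = T.dist c.2 e'.2) :
    e = e' ∨ Disjoint (cone T e) (cone T e') := by
  have key : ∀ f : V × V, T.Adj f.1 f.2 → cone T f ⊆ cone T c →
      c.1 ∉ cone T f ∧ T.dist c.1 f.1 = T.dist c.2 f.2 := by
    intro f hf h
    refine ⟨fun h' => tail_not_mem_cone c (h h'), ?_⟩
    have a1 := dist_tail_of_mem hT hc (h (self_mem_cone hf))
    have a2 := dist_head_of_not_mem hT hf (fun h' => tail_not_mem_cone c (h h'))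
    rw [SimpleGraph.dist_comm (u := f.2) (v := c.1), SimpleGraph.dist_comm (u := f.2) (v := c.2)]
      at a1
    omega
  obtain ⟨a1, a2⟩ := key e he h1
  obtain ⟨b1, b2⟩ := key e' he' h2
  exact eq_or_disjoint_of_dist hT he he' a1 b1 (a2.trans (hd.trans b2.symm))

lemma edge_between (hT : T.IsTree) {v w : V} {i : ℕ} (hi : i < T.dist v w) :
    ∃ e : V × V, T.Adj e.1 e.2 ∧ v ∉ cone T e ∧ w ∈ cone T e ∧ T.dist v e.1 = i ∧
      ∀ e' : V × V, T.Adj e'.1 e'.2 → v ∉ cone T e' → w ∈ cone T e' → T.dist v e'.1 = i →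
        e' = e := by
  obtain ⟨p, hp⟩ := hT.connected.exists_walk_length_eq_dist v w
  have hi' : i < p.length := hp ▸ hi
  let e : V × V := (p.getVert i, p.getVert (i + 1))
  have he : T.Adj e.1 e.2 := p.adj_getVert_succ hi'
  have a1 : T.dist v e.1 ≤ i :=
    (SimpleGraph.dist_le (p.take i)).trans_eq (by rw [p.take_length]; omega)
  have a2 : T.dist e.1 w ≤ p.length - i :=
    (SimpleGraph.dist_le (p.drop i)).trans_eq (p.drop_length i)
  have a3 := hT.connected.dist_triangle (u := v) (v := e.1) (w := w)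
  have b1 : T.dist v e.2 ≤ i + 1 :=
    (SimpleGraph.dist_le (p.take (i + 1))).trans_eq (by rw [p.take_length]; omega)
  have b2 : T.dist e.2 w ≤ p.length - (i + 1) :=
    (SimpleGraph.dist_le (p.drop (i + 1))).trans_eq (p.drop_length (i + 1))
  have b3 := hT.connected.dist_triangle (u := v) (v := e.2) (w := w)
  have hve : v ∉ cone T e := by
    simp only [cone, Set.mem_ofPred_eq]
    omega
  have hwe : w ∈ cone T e := by
    simp only [cone, Set.mem_ofPred_eq, SimpleGraph.dist_comm (u := w)]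
    omega
  refine ⟨e, he, hve, hwe, by omega, fun e' he' hv' hw' hd' => ?_⟩
  rcases eq_or_disjoint_of_dist hT he' he hv' hve (by omega) with h | h
  · exact h
  · exact absurd hwe (Set.disjoint_left.1 h hw')

lemma between_dist_lt (hT : T.IsTree) {v w : V} {e : V × V} (he : T.Adj e.1 e.2)
    (hv : v ∉ cone T e) (hw : w ∈ cone T e) : T.dist v e.1 < T.dist v w := by
  have := dist_through hT he hw hv
  rw [SimpleGraph.dist_comm (u := w) (v := v), SimpleGraph.dist_comm (u := e.1) (v := v)] at this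
  omega

lemma between_finite (hT : T.IsTree) (v w : V) :
    {e : V × V | T.Adj e.1 e.2 ∧ v ∉ cone T e ∧ w ∈ cone T e}.Finite := by
  refine Set.Finite.of_finite_image (f := fun e => T.dist v e.1)
    ((Set.finite_Iio (T.dist v w)).subset ?_) ?_
  · rintro _ ⟨e, ⟨he, hv, hw⟩, rfl⟩
    exact between_dist_lt hT he hv hw
  · rintro e ⟨he, hv, hw⟩ e' ⟨he', hv', hw'⟩ h
    rcases eq_or_disjoint_of_dist hT he he' hv hv' h with h | h
    · exact h
    · exact absurd hw' (Set.disjoint_left.1 h hw)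

lemma cone_subset_near (ρ : ℕ) (e : V × V) : cone T e ⊆ near T ρ e :=
  fun v hv => ⟨v, hv, by simp⟩

lemma near_mono (ρ : ℕ) {e c : V × V} (h : cone T e ⊆ cone T c) : near T ρ e ⊆ near T ρ c :=
  fun _ ⟨w, hw, hd⟩ => ⟨w, h hw, hd⟩

/-- The depth of a point below a nested pair of half-trees. -/
lemma dist_below (hT : T.IsTree) {e c : V × V} (he : T.Adj e.1 e.2) (hc : T.Adj c.1 c.2)
    (h : cone T e ⊆ cone T c) {v : V} (hv : v ∈ cone T e) :
    T.dist c.2 v = T.dist c.2 e.2 + T.dist e.2 v := by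
  rcases eq_or_ne e c with rfl | hne
  · simp
  obtain ⟨-, h2⟩ := tail_mem_of_subset hT he hc h hne
  have h4 := dist_through hT he hv h2
  have h5 := dist_head_of_not_mem hT he h2
  rw [SimpleGraph.dist_comm (u := c.2) (v := v), h4, h5, SimpleGraph.dist_comm (u := v),
    SimpleGraph.dist_comm (u := c.2) (v := e.1)]
  omega

lemma deep_mono (hT : T.IsTree) (ρ : ℕ) {e c : V × V} (he : T.Adj e.1 e.2) (hc : T.Adj c.1 c.2)
    (h : cone T e ⊆ cone T c) : deep T ρ e ⊆ deep T ρ c := by
  rintro v ⟨hv, hd⟩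
  refine ⟨h hv, ?_⟩
  rw [dist_below hT he hc h hv]
  omega

lemma near_subset_deep (hT : T.IsTree) (ρ : ℕ) {e c : V × V} (he : T.Adj e.1 e.2)
    (hc : T.Adj c.1 c.2) (h : cone T e ⊆ cone T c) (hd : 2 * ρ < T.dist c.2 e.2) :
    near T ρ e ⊆ deep T ρ c := by
  rintro v ⟨w, hw, hvw⟩
  have h1 := dist_below hT he hc h hw
  have hv : v ∈ cone T c := by
    by_contra hv
    have := dist_through hT hc (h hw) hv
    rw [SimpleGraph.dist_comm (u := w) (v := v), SimpleGraph.dist_comm (u := w) (v := c.2)] at this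
    omega
  refine ⟨hv, ?_⟩
  have := hT.connected.dist_triangle (u := c.2) (v := v) (w := w)
  omega

lemma dist_map (φ : T ≃g T) (u v : V) : T.dist (φ u) (φ v) = T.dist u v := by
  have key : ∀ (ψ : T ≃g T) (u v : V), T.Reachable u v → T.dist (ψ u) (ψ v) ≤ T.dist u v := by
    intro ψ u v h
    obtain ⟨q, hq⟩ := h.exists_walk_length_eq_dist
    exact (SimpleGraph.dist_le (q.map ψ.toHom)).trans_eq (by simpa using hq)
  by_cases h : T.Reachable u v
  · refine le_antisymm (key φ u v h) ?_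
    simpa using key φ.symm (φ u) (φ v) (h.map φ.toHom)
  · rw [SimpleGraph.dist_eq_zero_of_not_reachable h, SimpleGraph.dist_eq_zero_of_not_reachable]
    intro h'
    exact h (by simpa using h'.map φ.symm.toHom)

lemma cone_map (φ : T ≃g T) (e : V × V) : φ '' cone T e = cone T (φ e.1, φ e.2) := by
  ext v
  obtain ⟨u, rfl⟩ := φ.surjective v
  rw [φ.injective.mem_set_image]
  simp [cone, dist_map]

end Vale.Agent.P165.Tree
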