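import Vale.Agent.P165.Tree.Basic
import Vale.Agent.P165.Quot.Finite
import Vale.Agent.P165.Quot.Series

/-!
Polynomial decay of hitting probabilities from the tail bound, by exploring the clusters at the
middle edges of the geodesic towards a half-tree.
-/

open Finset
open scoped ENNReal

namespace Vale.Agent.P165.Tree.Act

open Vale.Agent.P165.Quot

variable {W V Γ : Type*} [Group Γ] [MulAction Γ W] [MulAction Γ V] {H : SimpleGraph W}
  [DecidableEq W] {T : SimpleGraph V} (Ac : Act (Γ := Γ) H T)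

lemma hitFar_antitone (p : ℝ) : Antitone (Ac.hitFar p) := fun _ _ hmn =>
  iSup_le fun x => iSup₂_le fun e he =>
    le_iSup_of_le x (le_iSup₂_of_le e ⟨he.1, he.2.1, hmn.trans he.2.2⟩ le_rfl)

lemma hitFar_le_one {p : ℝ} (h0 : 0 ≤ p) (h1 : p ≤ 1) (n : ℕ) : Ac.hitFar p n ≤ 1 :=
  iSup_le fun _ => iSup₂_le fun _ _ => prob_le_one h0 h1 _

omit [DecidableEq W] in
/-- A core point reached inside `outE` is an entry. -/
lemma entry_of_walk {D : ℕ} {c : V × V} {x y : W} (hx : Ac.proj x ∉ cone T c) (q : H.Walk x y)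
    (hq : ∀ s ∈ q.edges, s ∈ Ac.outE D c) (hy : y ∈ Ac.core D c) : y ∈ Ac.entry D c := by
  refine ⟨hy, ?_⟩
  cases hq' : q.reverse with
  | nil => exact absurd (Ac.core_subset hy) hx
  | @cons _ z _ h q'' =>
    refine ⟨z, h, fun hz => ?_⟩
    have hmem : s(y, z) ∈ q.edges := by
      rw [← List.mem_reverse, ← SimpleGraph.Walk.edges_reverse, hq']
      simp
    rcases Ac.mem_outE.1 (hq _ hmem) with h' | h'
    exacts [h' hy, h' hz]

/-- Exploration at one edge of the geodesic towards a half-tree. -/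
lemma hit_le_explore {D : ℕ} {p : ℝ} (h0 : 0 ≤ p) (h1 : p ≤ 1) (x : W) {e c : V × V}
    (he : T.Adj e.1 e.2) (hxe : Ac.proj x ∉ cone T e) (hc : T.Adj c.1 c.2)
    (hxc : Ac.proj x ∉ cone T c) (hec : e.1 ∈ cone T c) {i n : ℕ}
    (hi : T.dist (Ac.proj x) c.1 = i) (hn : T.dist (Ac.proj x) e.1 = n)
    (hiD : i + D + Ac.R < n) (K : ℕ) :
    prob H p (connTo Set.univ x (Ac.gate e)) ≤ Ac.halfTail D p x c (K + 1) +
      Ac.hitFar p (n - i - Ac.R) * ∑ j ∈ range K, Ac.halfTail D p x c (j + 1) := by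
  classical
  have hT := Ac.isTree
  have hconn := hT.connected
  have hsub : cone T e ⊆ cone T c := by
    refine cone_subset_of_tail hT he hc hec fun h1e => ?_
    have h3 := dist_through hT he h1e hxe
    rw [T.dist_comm (u := c.1) (v := Ac.proj x), T.dist_comm (u := e.1) (v := Ac.proj x)] at h3
    omega
  have hhead : T.dist (Ac.proj x) c.2 = i + 1 := by
    rw [dist_head_of_not_mem hT hc hxc, hi]
  refine prob_connTo_le_explore h0 h1 (Ac.outE D c) x (Ac.gate e) (Ac.entry D c)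
    (fun u v q hq huv hout => Ac.entry_of_exit hxc q hq huv hout)
    (fun y hy q hq => ?_) (fun u hu => ?_) K
  · have hye : Ac.proj y ∈ cone T e := hy.1
    have h3 := dist_through hT he hye hxe
    rw [T.dist_comm (u := e.1) (v := Ac.proj x), hn,
      T.dist_comm (u := Ac.proj y) (v := Ac.proj x)] at h3
    have htri := hconn.dist_triangle (u := Ac.proj x) (v := c.2) (w := Ac.proj y)
    have hcore : y ∈ Ac.core D c := Ac.mem_core_of_deep (hsub hye) (by omega)
    have hnear := Ac.gate_near hc (Ac.entry_subset_gate (Ac.entry_of_walk hxc q hq hcore))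
    rw [T.dist_comm (u := Ac.proj y) (v := c.2)] at hnear
    omega
  · have hun := Ac.gate_near hc (Ac.entry_subset_gate hu)
    rw [T.dist_comm (u := Ac.proj u) (v := c.2)] at hun
    have htri := hconn.dist_triangle (u := Ac.proj x) (v := c.2) (w := Ac.proj u)
    have hue : Ac.proj u ∉ cone T e := fun hu' => by
      have h3 := dist_through hT he hu' hxe
      rw [T.dist_comm (u := e.1) (v := Ac.proj x), hn,
        T.dist_comm (u := Ac.proj u) (v := Ac.proj x)] at h3
      omega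
    have htri2 := hconn.dist_triangle (u := Ac.proj x) (v := Ac.proj u) (w := e.1)
    exact le_iSup_of_le u (le_iSup₂_of_le e ⟨he, hue, by omega⟩ le_rfl)

/-- A tail bound with exponent `1 - θ` gives decay with exponent `1 / θ`. -/
theorem exists_decay (D : ℕ) {p θ : ℝ} (hp : 0 < p) (hp1 : p ≤ 1)
    (hθ : 0 < θ) (hθ1 : θ < 1) {C : ℝ≥0∞} (hC : C ≠ ⊤) (hT : Ac.TailBound D p θ C) :
    ∃ A : ℝ, ∀ n : ℕ, Ac.hitFar p n ≤ ENNReal.ofReal (A * ((n : ℝ) + 1) ^ (-(1 / θ))) := by
  classical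
  set a : ℕ → ℝ := fun n => (Ac.hitFar p n).toReal with ha
  have ha0 : ∀ n, 0 ≤ a n := fun n => ENNReal.toReal_nonneg
  have hfin : ∀ n, Ac.hitFar p n ≠ ⊤ := fun n =>
    ne_top_of_le_ne_top ENNReal.one_ne_top (Ac.hitFar_le_one hp.le hp1 n)
  have hanti : Antitone a := fun m n hmn =>
    ENNReal.toReal_mono (hfin m) (Ac.hitFar_antitone p hmn)
  set Cr := C.toReal
  set n₀ := 3 * (D + Ac.R) + 6 with hn₀
  set C' := 6 * (Cr + Cr / θ) with hC'
  have hCr : 0 ≤ Cr := ENNReal.toReal_nonneg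
  have main : ∀ (x : W) (e : V × V), T.Adj e.1 e.2 → Ac.proj x ∉ cone T e →
      n₀ ≤ T.dist (Ac.proj x) e.1 →
      (T.dist (Ac.proj x) e.1 : ℝ) * (prob H p (connTo Set.univ x (Ac.gate e))).toReal ≤
        C' * a (T.dist (Ac.proj x) e.1 / 3 - Ac.R) ^ (1 - θ) := by
    intro x e he hxe hw
    set n := T.dist (Ac.proj x) e.1 with hn
    set P := prob H p (connTo Set.univ x (Ac.gate e)) with hP
    have hPle : P ≤ Ac.hitFar p n := le_iSup_of_le x (le_iSup₂_of_le e ⟨he, hxe, le_rfl⟩ le_rfl)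
    set β := a (n / 3 - Ac.R) with hβ
    rcases (ha0 (n / 3 - Ac.R)).eq_or_lt with h | hβ0
    · have hz : P.toReal ≤ β :=
        (ENNReal.toReal_mono (hfin _) hPle).trans (hanti (by omega))
      rw [hβ, ← h] at hz
      rw [le_antisymm hz ENNReal.toReal_nonneg, mul_zero, hC']
      positivity
    set K := ⌊1 / β⌋₊
    set I := Icc (n / 3 + 1) (2 * n / 3) with hI
    have hlt : ∀ i ∈ I, i < n := fun i hi => by
      simp only [hI, mem_Icc] at hi
      omega
    have hce : ∀ i ∈ I, ∃ c : V × V, T.Adj c.1 c.2 ∧ Ac.proj x ∉ cone T c ∧ e.1 ∈ cone T c ∧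
        T.dist (Ac.proj x) c.1 = i := by
      intro i hi
      obtain ⟨c, h1, h2, h3, h4, -⟩ :=
        edge_between Ac.isTree (v := Ac.proj x) (w := e.1) (hlt i hi)
      exact ⟨c, h1, h2, h3, h4⟩
    choose c hc1 hc2 hc3 hc4 using hce
    have hT2 : ∀ j : ℕ, 0 < j → ∑ i ∈ I.attach, Ac.halfTail D p x (c i.1 i.2) j ≤
        ENNReal.ofReal (Cr * (j : ℝ) ^ (-(1 - θ))) := by
      intro j hj
      let S := {f : V × V | T.Adj f.1 f.2 ∧ Ac.proj x ∉ cone T f ∧ e.1 ∈ cone T f}
      let em : {i // i ∈ I} → S := fun i =>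
        ⟨c i.1 i.2, hc1 _ i.2, hc2 _ i.2, hc3 _ i.2⟩
      have hinj : Function.Injective em := fun i j h => by
        have hval : c i.1 i.2 = c j.1 j.2 := congrArg Subtype.val h
        have h4 := hc4 _ i.2
        rw [hval, hc4 _ j.2] at h4
        exact Subtype.ext h4.symm
      calc ∑ i ∈ I.attach, Ac.halfTail D p x (c i.1 i.2) j
          = ∑ f ∈ I.attach.image em, Ac.halfTail D p x (f : V × V) j := by
            rw [sum_image fun a _ b _ h => hinj h]
        _ ≤ ∑' f : S, Ac.halfTail D p x (f : V × V) j := ENNReal.sum_le_tsum _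
        _ ≤ C * (j : ℝ≥0∞) ^ (-(1 - θ)) := hT.2 x e.1 j hj
        _ = _ := by
          rw [ENNReal.ofReal_mul hCr, ENNReal.ofReal_toReal hC,
            ← ENNReal.ofReal_rpow_of_pos (by exact_mod_cast hj), ENNReal.ofReal_natCast]
    have hsum : (I.card : ℝ≥0∞) * P ≤
        ENNReal.ofReal (Cr * ((K + 1 : ℕ) : ℝ) ^ (-(1 - θ))) +
          ENNReal.ofReal β * ∑ j ∈ range K, ENNReal.ofReal (Cr * ((j + 1 : ℕ) : ℝ) ^ (-(1 - θ))) := by
      calc (I.card : ℝ≥0∞) * P = ∑ _i ∈ I.attach, P := by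
            rw [sum_const, card_attach, nsmul_eq_mul]
        _ ≤ ∑ i ∈ I.attach, (Ac.halfTail D p x (c i.1 i.2) (K + 1) +
            ENNReal.ofReal β * ∑ j ∈ range K, Ac.halfTail D p x (c i.1 i.2) (j + 1)) := by
          refine sum_le_sum fun i _ => ?_
          have hi := i.2
          simp only [hI, mem_Icc] at hi
          refine (Ac.hit_le_explore (D := D) hp.le hp1 x he hxe (hc1 _ i.2) (hc2 _ i.2) (hc3 _ i.2)
            (i := i.1) (n := n) (hc4 _ i.2) hn.symm (by omega) K).trans ?_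
          gcongr
          rw [hβ, ha, ENNReal.ofReal_toReal (hfin _)]
          exact Ac.hitFar_antitone p (by omega)
        _ ≤ _ := by
          rw [sum_add_distrib, ← mul_sum, sum_comm]
          gcongr with j hj
          · exact hT2 _ (Nat.succ_pos K)
          · exact hT2 _ (Nat.succ_pos j)
    have hreal : (I.card : ℝ) * P.toReal ≤ Cr * ((K + 1 : ℕ) : ℝ) ^ (-(1 - θ)) +
        β * ∑ j ∈ range K, Cr * ((j + 1 : ℕ) : ℝ) ^ (-(1 - θ)) := by
      rw [← ENNReal.toReal_natCast, ← ENNReal.toReal_mul]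
      refine ENNReal.toReal_le_of_le_ofReal (by positivity) (hsum.trans_eq ?_)
      rw [ENNReal.ofReal_add (by positivity) (by positivity), ENNReal.ofReal_mul hβ0.le,
        ENNReal.ofReal_sum_of_nonneg fun j _ => by positivity]
    have hK1 : ((K + 1 : ℕ) : ℝ) ^ (-(1 - θ)) ≤ β ^ (1 - θ) := by
      have h1 : 1 / β ≤ ((K + 1 : ℕ) : ℝ) := by
        push_cast
        exact (Nat.lt_floor_add_one _).le
      refine (Real.rpow_le_rpow_of_nonpos (by positivity) h1 (by linarith)).trans_eq ?_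
      rw [one_div, Real.inv_rpow hβ0.le, ← Real.rpow_neg hβ0.le, neg_neg]
    have hK2 : β * ∑ j ∈ range K, Cr * ((j + 1 : ℕ) : ℝ) ^ (-(1 - θ)) ≤
        Cr / θ * β ^ (1 - θ) := by
      have h1 := sum_range_rpow_le (a := 1 - θ) (by linarith) (by linarith) K
      rw [sub_sub_cancel] at h1
      have h2 : β * (K : ℝ) ^ θ ≤ β ^ (1 - θ) := by
        have h3 : (K : ℝ) ^ θ ≤ (1 / β) ^ θ :=
          Real.rpow_le_rpow (Nat.cast_nonneg _) (Nat.floor_le (by positivity)) hθ.le
        refine (mul_le_mul_of_nonneg_left h3 hβ0.le).trans_eq ?_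
        rw [one_div, Real.inv_rpow hβ0.le, Real.rpow_sub hβ0, Real.rpow_one, div_eq_mul_inv]
      push_cast
      rw [← mul_sum]
      calc β * (Cr * ∑ j ∈ range K, ((j : ℝ) + 1) ^ (-(1 - θ)))
          ≤ β * (Cr * ((K : ℝ) ^ θ / θ)) :=
            mul_le_mul_of_nonneg_left (mul_le_mul_of_nonneg_left h1 hCr) hβ0.le
        _ = Cr / θ * (β * (K : ℝ) ^ θ) := by ring
        _ ≤ _ := mul_le_mul_of_nonneg_left h2 (div_nonneg hCr hθ.le)
    have hcard : (n : ℝ) ≤ 6 * (I.card : ℝ) := by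
      have : n ≤ 6 * I.card := by
        rw [hI, Nat.card_Icc]
        omega
      exact_mod_cast this
    calc (n : ℝ) * P.toReal ≤ 6 * ((I.card : ℝ) * P.toReal) := by
          rw [← mul_assoc]
          exact mul_le_mul_of_nonneg_right hcard ENNReal.toReal_nonneg
      _ ≤ C' * β ^ (1 - θ) := by
          rw [hC']
          have := mul_le_mul_of_nonneg_left hK1 hCr
          linarith
  obtain ⟨A, hA⟩ := decay_induction hθ hθ1 ha0 hanti (n₀ := n₀) (R := Ac.R) (C := C')
    fun n hn => by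
      have hn0 : (0 : ℝ) < n := by exact_mod_cast (show 0 < n by omega)
      have hC'0 : 0 ≤ C' := by rw [hC']; positivity
      rw [mul_comm, ← le_div_iff₀ hn0]
      refine ENNReal.toReal_le_of_le_ofReal ?_ (iSup_le fun x => iSup₂_le fun e he => ?_)
      · exact div_nonneg (mul_nonneg hC'0 (Real.rpow_nonneg (ha0 _) _)) hn0.le
      obtain ⟨he1, he2, he3⟩ := he
      rw [← ENNReal.ofReal_toReal (ne_top_of_le_ne_top ENNReal.one_ne_top
        (prob_le_one hp.le hp1 (connTo Set.univ x (Ac.gate e))))]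
      refine ENNReal.ofReal_le_ofReal ?_
      rw [le_div_iff₀ hn0, mul_comm]
      refine (mul_le_mul_of_nonneg_right (Nat.cast_le.2 he3) ENNReal.toReal_nonneg).trans
        ((main x e he1 he2 (le_trans hn he3)).trans (mul_le_mul_of_nonneg_left ?_ hC'0))
      exact Real.rpow_le_rpow (ha0 _) (hanti (by omega)) (by linarith)
  refine ⟨A, fun n => ?_⟩
  rw [← ENNReal.ofReal_toReal (hfin n)]
  exact ENNReal.ofReal_le_ofReal (hA n)

end Vale.Agent.P165.Tree.Act
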