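import Vale.Agent.P165.Quot.Prob

/-!
Graphs with a free cofinite action of a group that also acts on a tree: half-trees, cores over
half-trees, the standard class, and the basic connection quantities.
-/

open scoped ENNReal

namespace Vale.Agent.P165.Tree

open Vale.Agent.P165.Quot

variable {W V Γ : Type*}

/-- The vertices nearer to the head of a directed edge than to its tail. -/
def cone (T : SimpleGraph V) (e : V × V) : Set V := {v | T.dist v e.2 < T.dist v e.1}

/-- The vertices within distance `ρ` of a half-tree. -/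
def near (T : SimpleGraph V) (ρ : ℕ) (e : V × V) : Set V :=
  {v | ∃ w ∈ cone T e, T.dist v w ≤ ρ}

/-- The vertices of a half-tree at depth more than `ρ`. -/
def deep (T : SimpleGraph V) (ρ : ℕ) (e : V × V) : Set V :=
  {v | v ∈ cone T e ∧ ρ < T.dist e.2 v}

/-- The pairs inside a set of vertices. -/
def inside (A : Set W) : Set (Sym2 W) := {s | ∀ x ∈ s, x ∈ A}

/-- A free cofinite action on `H` together with an action on a tree, a base half-tree and a
finite set of group elements through which half-trees are compared with the base one. -/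
structure Act [Group Γ] [MulAction Γ W] [MulAction Γ V] (H : SimpleGraph W) (T : SimpleGraph V)
    where
  isTree : T.IsTree
  tree_smul : ∀ (g : Γ) u v, T.Adj (g • u) (g • v) ↔ T.Adj u v
  adj_smul : ∀ (g : Γ) x y, H.Adj (g • x) (g • y) ↔ H.Adj x y
  free : ∀ (g : Γ) (x : W), g • x = x → g = 1
  /-- orbit representatives -/
  reps : Finset W
  cover : ∀ x, ∃ (g : Γ), ∃ r ∈ reps, g • r = x
  rep_inj : ∀ r ∈ reps, ∀ r' ∈ reps, ∀ g : Γ, g • r = r' → r = r'
  /-- the base vertex of the standard class -/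
  r₀ : W
  r₀_mem : r₀ ∈ reps
  /-- the base directed edge -/
  f₀ : V × V
  f₀_adj : T.Adj f₀.1 f₀.2
  /-- the projection to the tree -/
  proj : W → V
  proj_smul : ∀ (g : Γ) x, proj (g • x) = g • proj x
  proj_rep : ∀ r ∈ reps, proj r = f₀.2
  /-- the bound on the jump of an edge -/
  R : ℕ
  jump : ∀ x y, H.Adj x y → T.dist (proj x) (proj y) ≤ R
  /-- the finitely many elements used for comparisons -/
  moves : Finset Γ
  /-- a half-tree avoiding the base vertex lies in a standard one near the base -/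
  below : ∀ e : V × V, T.Adj e.1 e.2 → f₀.2 ∉ cone T e →
    ∃ g ∈ moves, cone T e ⊆ cone T (g • f₀)
  /-- a half-tree containing the base vertex contains two disjoint standard ones near the base -/
  above : ∀ e : V × V, T.Adj e.1 e.2 → f₀.2 ∈ cone T e →
    ∃ g ∈ moves, ∃ g' ∈ moves, cone T (g • f₀) ⊆ cone T e ∧ cone T (g' • f₀) ⊆ cone T e ∧
      Disjoint (cone T (g • f₀)) (cone T (g' • f₀))

namespace Act

variable [Group Γ] [MulAction Γ W] [MulAction Γ V] {H : SimpleGraph W} {T : SimpleGraph V}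
  (Ac : Act (Γ := Γ) H T)

/-- The vertices over a half-tree. -/
def coneW (e : V × V) : Set W := {x | Ac.proj x ∈ cone T e}

/-- The points over a half-tree with a neighbour outside it. -/
def gate (e : V × V) : Set W := {x | x ∈ Ac.coneW e ∧ ∃ y, H.Adj x y ∧ y ∉ Ac.coneW e}

/-- The standard class of a directed edge. -/
def cls (e : V × V) : Set W := {x | ∃ g : Γ, g • Ac.f₀ = e ∧ g • Ac.r₀ = x}

/-- The points over a half-tree joined inside it to depth `D`. -/
def core (D : ℕ) (e : V × V) : Set W :=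
  {x | x ∈ Ac.coneW e ∧ ∃ z, D ≤ T.dist e.2 (Ac.proj z) ∧
    (H ⊓ SimpleGraph.fromEdgeSet (inside (Ac.coneW e))).Reachable x z}

/-- The edges not inside the core. -/
def outE (D : ℕ) (e : V × V) : Set (Sym2 W) := (inside (Ac.core D e))ᶜ

/-- The points of the core with a neighbour outside it. -/
def entry (D : ℕ) (e : V × V) : Set W :=
  {x | x ∈ Ac.core D e ∧ ∃ y, H.Adj x y ∧ y ∉ Ac.core D e}

/-- The pairs within distance `ρ` of a half-tree. -/
def inN (ρ : ℕ) (e : V × V) : Set (Sym2 W) := inside (Ac.proj ⁻¹' near T ρ e)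

/-- The pairs allowed between the two half-trees of a nested pair. -/
def band (ρ : ℕ) (c e : V × V) : Set (Sym2 W) :=
  inside (Ac.proj ⁻¹' (near T ρ c \ deep T ρ e))

/-- A translate of a type. -/
def OfKind (τ : W × (V × V)) (x : W) (e : V × V) : Prop := ∃ g : Γ, g • τ.1 = x ∧ g • τ.2 = e

/-- The directed edges at distance `n` from a vertex pointing away from it. -/
def away (T : SimpleGraph V) (v : V) (n : ℕ) : Set (V × V) :=
  {e | T.Adj e.1 e.2 ∧ v ∉ cone T e ∧ T.dist v e.1 = n}

variable [DecidableEq W]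

/-- The probability that the base point meets the standard class of a directed edge. -/
noncomputable def Q (p : ℝ) (e : V × V) : ℝ≥0∞ :=
  prob H p (connTo Set.univ Ac.r₀ (Ac.cls e))

/-- Some finite family of disjoint half-trees below the base one has sum of `t`-th powers of
hitting probabilities above one. -/
def Good (p t : ℝ) : Prop :=
  ∃ A : Finset (V × V), (∀ e ∈ A, T.Adj e.1 e.2 ∧ cone T e ⊆ cone T Ac.f₀) ∧
    (∀ e ∈ A, ∀ e' ∈ A, e ≠ e' → Disjoint (cone T e) (cone T e')) ∧
    1 < ∑ e ∈ A, Ac.Q p e ^ t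

/-- The probability of at least `K` entry points of a core reached from outside. -/
noncomputable def halfTail (D : ℕ) (p : ℝ) (x : W) (e : V × V) (K : ℕ) : ℝ≥0∞ :=
  prob H p (manyIn (Ac.outE D e) x (Ac.entry D e) K)

/-- The expected number of entry points of a core reached from outside. -/
noncomputable def halfMean (D : ℕ) (p : ℝ) (x : W) (e : V × V) : ℝ≥0∞ :=
  mean H p (Ac.outE D e) x (Ac.entry D e)

/-- The largest probability of meeting a gate at distance at least `n`. -/
noncomputable def hitFar (p : ℝ) (n : ℕ) : ℝ≥0∞ :=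
  ⨆ (x : W) (e : V × V) (_ : T.Adj e.1 e.2 ∧ Ac.proj x ∉ cone T e ∧
    n ≤ T.dist (Ac.proj x) e.1), prob H p (connTo Set.univ x (Ac.gate e))

/-- The largest entry mean at distance at least `n`. -/
noncomputable def meanFar (D : ℕ) (p : ℝ) (n : ℕ) : ℝ≥0∞ :=
  ⨆ (x : W) (e : V × V) (_ : T.Adj e.1 e.2 ∧ Ac.proj x ∉ cone T e ∧
    n ≤ T.dist (Ac.proj x) e.1), Ac.halfMean D p x e

/-- The largest sphere sum of entry means. -/
noncomputable def meanSphere (D : ℕ) (p : ℝ) (n : ℕ) : ℝ≥0∞ :=
  ⨆ x : W, ∑' e : away T (Ac.proj x) n, Ac.halfMean D p x e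

/-- The largest expected number of connected points at one tree distance. -/
noncomputable def level (p : ℝ) (k : ℕ) : ℝ≥0∞ :=
  ⨆ x : W, mean H p Set.univ x {z | T.dist (Ac.proj x) (Ac.proj z) = k}

/-- The largest expected number of connected points over one nearby vertex. -/
noncomputable def fib (p : ℝ) (B : ℕ) : ℝ≥0∞ :=
  ⨆ (x : W) (q : V) (_ : T.dist (Ac.proj x) q ≤ B), mean H p Set.univ x {z | Ac.proj z = q}

/-- A finite set of types through which every entry of every core is seen. -/
def IsTypes (D : ℕ) (types : Finset (W × (V × V))) : Prop :=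
  (∀ τ ∈ types, τ.1 ∈ Ac.reps ∧ T.Adj τ.2.1 τ.2.2 ∧ τ.1 ∈ Ac.entry D τ.2) ∧
    ∀ e : V × V, T.Adj e.1 e.2 → ∀ x ∈ Ac.entry D e, ∃ τ ∈ types, OfKind (Γ := Γ) τ x e

/-- One block: from a point of a fixed type over a half-tree, finite connections inside its core to
entries of a family of cores at one depth below a chosen half-tree, with weights small enough to
absorb the tail of a cluster. -/
structure Hop (D : ℕ) (p : ℝ) (σ : W × (V × V)) (types : Finset (W × (V × V))) where
  /-- the half-tree containing all children -/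
  sub : V × V
  sub_adj : T.Adj sub.1 sub.2
  sub_le : cone T sub ⊆ cone T σ.2
  /-- the children -/
  A : Finset (V × V)
  /-- the type used at a child -/
  kind : V × V → W × (V × V)
  /-- the landings at a child -/
  Z : V × V → Finset Γ
  /-- the edges used -/
  U : Finset (Sym2 W)
  /-- the weights -/
  g : V × V → ℝ
  /-- the depth of the children -/
  N : ℕ
  /-- the cluster size allowed -/
  Lt : ℕ
  /-- the chance of a larger cluster -/
  tau : ℝ
  N_pos : 0 < N
  Lt_pos : 0 < Lt
  tau_nonneg : 0 ≤ tau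
  U_edges : ↑U ⊆ H.edgeSet
  U_core : ↑U ⊆ inside (Ac.core D σ.2)
  A_adj : ∀ e ∈ A, T.Adj e.1 e.2
  A_le : ∀ e ∈ A, cone T e ⊆ cone T sub
  A_depth : ∀ e ∈ A, T.dist σ.2.2 e.2 = N
  kind_mem : ∀ e ∈ A, kind e ∈ types
  Z_kind : ∀ e ∈ A, ∀ γ ∈ Z e, γ • (kind e).2 = e
  g_pos : ∀ e ∈ A, 0 < g e
  g_le : ∀ e ∈ A, g e ≤ 1 / 4
  g_hit : ∀ e ∈ A, g e * Lt + (Z e).card * tau ≤ pr p U
    (connTo (Ac.outE D e) σ.1 ((fun γ : Γ => γ • (kind e).1) '' ↑(Z e)))
  tail : ∀ x, prob H p (manyIn Set.univ x Set.univ (Lt + 1)) ≤ ENNReal.ofReal tau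

/-- Tail bounds with exponent `1 - θ` for the entries of cores, over spheres and along paths. -/
def TailBound (D : ℕ) (p θ : ℝ) (C : ℝ≥0∞) : Prop :=
  (∀ (x : W) (n K : ℕ), 0 < K →
    ∑' e : away T (Ac.proj x) n, Ac.halfTail D p x e K ≤ C * (K : ℝ≥0∞) ^ (-(1 - θ))) ∧
  ∀ (x : W) (w : V) (K : ℕ), 0 < K →
    ∑' e : {e : V × V | T.Adj e.1 e.2 ∧ Ac.proj x ∉ cone T e ∧ w ∈ cone T e},
      Ac.halfTail D p x e K ≤ C * (K : ℝ≥0∞) ^ (-(1 - θ))

end Act

end Vale.Agent.P165.Tree
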