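import Vale.Agent.P165.Tree.Build
import Vale.Agent.P165.Quot.Words

/-!
The Cayley tree of a free group of rank at least two has the half-tree required by the theorem.
-/

namespace Vale.Agent.P165.Tree

open Vale.Agent.P165.Quot

variable {k : ℕ} {u v w z : FreeGroup (Fin k)} {x y : Letter k}

/-- The Cayley tree of a free group. -/
def wordTree (k : ℕ) : SimpleGraph (FreeGroup (Fin k)) where
  Adj u v := wdist u v = 1
  symm := ⟨fun u v (h : wdist u v = 1) => wdist_comm.symm.trans h⟩
  loopless := ⟨fun u (h : wdist u u = 1) => by simp at h⟩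

lemma wlen_gen (x : Letter k) : wlen (gen x) = 1 := by
  simp [wlen, gen, toWord_mk_of_reduced FreeGroup.IsReduced.singleton]

lemma exists_letter (h : wlen u = 1) : ∃ x, u = gen x := by
  obtain ⟨x, hx⟩ := List.length_eq_one_iff.1 h
  exact ⟨x, by rw [gen, ← hx, FreeGroup.mk_toWord]⟩

lemma gen_mul_concat (h : headL z ≠ some (opp x)) : Concat (gen x) z := by
  rw [concat_iff]
  intro t ht
  rw [lastL_gen] at ht
  obtain rfl := Option.some.inj ht
  exact h

lemma head_gen_mul (h : headL z ≠ some (opp x)) : headL (gen x * z) = some x := by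
  refine (headL_concat (gen_mul_concat h) ?_).trans headL_gen
  intro h1
  simpa [h1] using wlen_gen x

lemma wlen_mul_gen : wlen (u * gen x) = wlen u + 1 ∨
    (lastL u = some (opp x) ∧ wlen (u * gen x) < wlen u) := by
  by_cases h : lastL u = some (opp x)
  · refine .inr ⟨h, ?_⟩
    obtain ⟨P, hP⟩ := List.getLast?_eq_some_iff.1 h
    obtain ⟨hu, h1, h2, hc⟩ := concat_of_split hP
    have hg : FreeGroup.mk [opp x] = gen (opp x) := rfl
    rw [hg] at hu h2 hc
    have hux : u * gen x = FreeGroup.mk P := by rw [hu, ← gen_inv, inv_mul_cancel_right]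
    have hl : wlen u = wlen (FreeGroup.mk P) + 1 := by
      rw [Concat] at hc; rw [hu, hc, wlen_gen]
    rw [hux]
    omega
  · refine .inl ?_
    have hc : Concat u (gen x) := by
      rw [concat_iff, headL_gen]
      intro t ht h'
      obtain rfl := Option.some.inj h'
      exact h (by rw [ht]; simp [opp])
    rw [Concat] at hc
    rw [hc, wlen_gen]

lemma exists_walk : ∀ (n : ℕ) (u v : FreeGroup (Fin k)), wdist u v = n →
    ∃ q : (wordTree k).Walk u v, q.length = n := by
  intro n
  induction n with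
  | zero =>
    intro u v h
    obtain rfl : u = v := inv_mul_eq_one.1 (wlen_eq_zero.1 h)
    exact ⟨.nil, rfl⟩
  | succ n ih =>
    intro u v h
    have hne : (u⁻¹ * v).toWord ≠ [] := by
      intro h0; rw [wdist, wlen, h0] at h; exact absurd h (by simp)
    obtain ⟨x, S, hS⟩ := List.exists_cons_of_ne_nil hne
    obtain ⟨he, -, -, hc⟩ := concat_of_split (P := [x]) (S := S) (by simpa using hS)
    have hg : FreeGroup.mk [x] = gen x := rfl
    rw [hg] at he hc
    have hn : wdist (u * gen x) v = n := by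
      rw [Concat, ← he, wlen_gen] at hc
      rw [wdist, mul_inv_rev, mul_assoc, he, inv_mul_cancel_left]
      rw [wdist] at h
      omega
    obtain ⟨q, hq⟩ := ih _ v hn
    have hadj : (wordTree k).Adj u (u * gen x) := by
      show wdist u (u * gen x) = 1
      rw [wdist, inv_mul_cancel_left, wlen_gen]
    exact ⟨.cons hadj q, by simp [hq]⟩

lemma le_length : ∀ {u v : FreeGroup (Fin k)} (q : (wordTree k).Walk u v), wdist u v ≤ q.length := by
  intro u v q
  induction q with
  | nil => simp
  | @cons a b c h q ih =>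
    have h' : wdist a b = 1 := h
    have := wdist_triangle (u := a) (v := b) (w := c)
    rw [SimpleGraph.Walk.length_cons]
    omega

lemma wordTree_dist : (wordTree k).dist u v = wdist u v := by
  obtain ⟨q, hq⟩ := exists_walk _ u v rfl
  refine le_antisymm (hq ▸ SimpleGraph.dist_le q) ?_
  obtain ⟨q', hq'⟩ := SimpleGraph.Reachable.exists_walk_length_eq_dist ⟨q⟩
  exact hq' ▸ le_length q'

lemma wordTree_isTree : (wordTree k).IsTree := by
  classical
  refine { connected := ⟨fun u v => ⟨(exists_walk _ u v rfl).choose⟩⟩, isAcyclic := ?_ }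
  intro r c hc
  obtain ⟨v, hv, hmax⟩ := c.support.toFinset.exists_max_image wlen ⟨r, by simp⟩
  rw [List.mem_toFinset] at hv
  have hc' := hc.rotate hv
  have hmax' : ∀ w ∈ (c.rotate v hv).support, wlen w ≤ wlen v := fun w hw =>
    hmax w (List.mem_toFinset.2 ((SimpleGraph.Walk.mem_support_rotate_iff c v hv).1 hw))
  have key : ∀ w, (wordTree k).Adj v w → w ∈ (c.rotate v hv).support →
      ∃ x, lastL v = some (opp x) ∧ w = v * gen x := by
    intro w hw hws
    obtain ⟨x, hx⟩ := exists_letter (show wlen (v⁻¹ * w) = 1 from hw)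
    have hwx : w = v * gen x := by rw [← hx, mul_inv_cancel_left]
    rcases wlen_mul_gen (u := v) (x := x) with h | h
    · exact absurd (hmax' w hws) (by rw [hwx]; omega)
    · exact ⟨x, h.1, hwx⟩
  obtain ⟨x, hx, h1⟩ := key _ ((c.rotate v hv).adj_snd hc'.not_nil)
    (SimpleGraph.Walk.getVert_mem_support _ _)
  obtain ⟨y, hy, h2⟩ := key _ ((c.rotate v hv).adj_penultimate hc'.not_nil).symm
    (SimpleGraph.Walk.getVert_mem_support _ _)
  refine hc'.snd_ne_penultimate ?_
  rw [hx] at hy
  have hxy := congrArg opp (Option.some.inj hy)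
  rw [opp_opp, opp_opp] at hxy
  rw [h1, h2, hxy]

lemma mem_cone_gen : w ∈ cone (wordTree k) (1, gen x) ↔ headL w = some x := by
  show (wordTree k).dist w (gen x) < (wordTree k).dist w 1 ↔ _
  rw [wordTree_dist, wordTree_dist, wdist_comm (u := w) (v := gen x), wdist_comm (u := w) (v := 1),
    wdist, wdist, gen_inv, inv_one, one_mul]
  constructor
  · intro h
    by_contra hne
    have hc := gen_mul_concat (x := opp x) (z := w) (by rwa [opp_opp])
    rw [Concat, wlen_gen] at hc
    omega
  · intro h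
    obtain ⟨S, hS⟩ := List.head?_eq_some_iff.1 h
    obtain ⟨he, -, -, hc⟩ := concat_of_split (P := [x]) (S := S) (by simpa using hS)
    have hg : FreeGroup.mk [x] = gen x := rfl
    rw [hg] at he hc
    rw [Concat, ← he, wlen_gen] at hc
    have h2 : gen (opp x) * w = FreeGroup.mk S := by rw [← gen_inv, he, inv_mul_cancel_left]
    rw [h2]
    omega

variable {Γ : Type*} [Group Γ]

/-- Through a surjection onto a free group, the Cayley tree has the required half-tree. -/
theorem exists_flip (hk : 2 ≤ k) (π : Γ →* FreeGroup (Fin k)) (hπ : Function.Surjective π) :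
    letI := MulAction.compHom (FreeGroup (Fin k)) π
    ∃ (f : FreeGroup (Fin k) × FreeGroup (Fin k)) (a b d : Γ), Flip (wordTree k) f a b d := by
  let _ := MulAction.compHom (FreeGroup (Fin k)) π
  have hsmul : ∀ (g : Γ) (w : FreeGroup (Fin k)), g • w = π g * w := fun _ _ => rfl
  have hinv : ∀ (g : Γ) u v, (wordTree k).Adj (g • u) (g • v) ↔ (wordTree k).Adj u v := by
    intro g u v
    show wdist _ _ = 1 ↔ wdist u v = 1
    rw [hsmul, hsmul, wdist, wdist, mul_inv_rev, mul_assoc, inv_mul_cancel_left]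
  let A : Letter k := (⟨0, by omega⟩, true)
  let B : Letter k := (⟨1, by omega⟩, true)
  have hAB : A ≠ B ∧ opp A ≠ B ∧ A ≠ opp B ∧ opp A ≠ A := by simp [A, B, opp, Fin.ext_iff]
  obtain ⟨a, ha⟩ := hπ (gen A)
  obtain ⟨b, hb⟩ := hπ (gen A * gen B)
  obtain ⟨d, hd⟩ := hπ (gen A * gen B * gen (opp A))
  have hmem : ∀ (g : Γ) w, w ∈ cone (wordTree k) (g • (1, gen A)) ↔
      headL ((π g)⁻¹ * w) = some A := by
    intro g w
    obtain ⟨u, rfl⟩ : ∃ u, g • u = w := ⟨g⁻¹ • w, smul_inv_smul g w⟩
    rw [smul_cone_iff hinv, mem_cone_gen, hsmul, inv_mul_cancel_left]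
  refine ⟨(1, gen A), a, b, d, ⟨?_, hinv, ?_, ?_, ?_, ?_⟩⟩
  · show wdist 1 (gen A) = 1
    rw [wdist, inv_one, one_mul, wlen_gen]
  · intro w hw
    rw [hmem, ha] at hw
    rw [mem_cone_gen]
    have := head_gen_mul (x := A) (z := (gen A)⁻¹ * w) (by rw [hw]; simpa using hAB.2.2.2.symm)
    rwa [mul_inv_cancel_left] at this
  · intro w hw
    rw [hmem, hb, mul_inv_rev, mul_assoc] at hw
    have h1 := head_gen_mul (x := B) (z := (gen B)⁻¹ * ((gen A)⁻¹ * w))
      (by rw [hw]; simpa using hAB.2.2.1)
    rw [mul_inv_cancel_left] at h1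
    have h2 := head_gen_mul (x := A) (z := (gen A)⁻¹ * w) (by rw [h1]; simpa using hAB.2.1.symm)
    rw [mul_inv_cancel_left] at h2
    rwa [mem_cone_gen]
  · rw [Set.disjoint_left]
    intro w hw hw'
    rw [hmem, ha] at hw
    rw [hmem, hb, mul_inv_rev, mul_assoc] at hw'
    have h1 := head_gen_mul (x := B) (z := (gen B)⁻¹ * ((gen A)⁻¹ * w))
      (by rw [hw']; simpa using hAB.2.2.1)
    rw [mul_inv_cancel_left, hw] at h1
    exact hAB.1 (Option.some.inj h1)
  · intro w hw
    rw [Set.mem_compl_iff, mem_cone_gen] at hw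
    rw [hmem, hd]
    have e : (gen A * gen B * gen (opp A))⁻¹ * w = gen A * (gen (opp B) * (gen (opp A) * w)) := by
      simp only [mul_inv_rev, gen_inv, opp_opp, mul_assoc]
    rw [e]
    have h1 : headL (gen (opp A) * w) = some (opp A) := head_gen_mul (by rwa [opp_opp])
    have h2 : headL (gen (opp B) * (gen (opp A) * w)) = some (opp B) :=
      head_gen_mul (by rw [h1, opp_opp]; simpa using hAB.2.1)
    exact head_gen_mul (by rw [h2]; simp [opp, A, B, Fin.ext_iff])

end Vale.Agent.P165.Tree
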