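import Vale.Agent.P165.Tree.Build

/-!
The Bass-Serre tree of an HNN extension whose two associated subgroups are proper has the half-tree
required by the theorem.
-/

namespace Vale.Agent.P165.Tree

open HNNExtension HNNExtension.NormalWord

variable {G : Type*} [Group G] {A B : Subgroup G} {φ : A ≃* B}

/-- The cosets of the base group. -/
abbrev HnnVert (φ : A ≃* B) :=
  HNNExtension G A B φ ⧸ (HNNExtension.of : G →* HNNExtension G A B φ).range

/-- The Bass-Serre tree: a coset is joined to its translates by the stable letter. -/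
def hnnTree (φ : A ≃* B) : SimpleGraph (HnnVert φ) :=
  SimpleGraph.fromRel fun v w => ∃ g : HNNExtension G A B φ,
    v = QuotientGroup.mk g ∧ w = QuotientGroup.mk (g * t)

lemma hnnTree_smul (x : HNNExtension G A B φ) (v w : HnnVert φ) :
    (hnnTree φ).Adj (x • v) (x • w) ↔ (hnnTree φ).Adj v w := by
  have key : ∀ (x : HNNExtension G A B φ) (v w : HnnVert φ),
      (hnnTree φ).Adj v w → (hnnTree φ).Adj (x • v) (x • w) := by
    rintro x v w ⟨hne, h⟩
    refine ⟨fun h' => hne (MulAction.injective x h'), ?_⟩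
    rcases h with ⟨g, rfl, rfl⟩ | ⟨g, rfl, rfl⟩
    exacts [.inl ⟨x * g, rfl, by rw [mul_assoc]; rfl⟩, .inr ⟨x * g, rfl, by rw [mul_assoc]; rfl⟩]
  refine ⟨fun h => ?_, key x v w⟩
  simpa using key x⁻¹ _ _ h

variable (d : TransversalPair G A B)

/-- The letters of the normal form of the inverse, which depend only on the coset. -/
noncomputable def tags : HnnVert φ → List (ℤˣ × G) :=
  Quotient.lift (fun x : HNNExtension G A B φ => (x⁻¹ • (NormalWord.empty : NormalWord d)).toList)
    fun x y h => by
      obtain ⟨g, hg⟩ := QuotientGroup.leftRel_apply.1 h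
      have hy : y⁻¹ = of g⁻¹ * x⁻¹ := by
        rw [map_inv, hg, mul_inv_rev, inv_inv, mul_assoc, mul_inv_cancel, mul_one]
      show _ = _
      rw [hy, mul_smul, of_smul_eq_smul, group_smul_toList]

lemma tags_injective : Function.Injective (tags (φ := φ) d) := by
  intro v w h
  induction v using QuotientGroup.induction_on with
  | H x =>
  induction w using QuotientGroup.induction_on with
  | H y =>
  set a := x⁻¹ • (NormalWord.empty : NormalWord d)
  set b := y⁻¹ • (NormalWord.empty : NormalWord d)
  have hab : (b.head * a.head⁻¹) • a = b := NormalWord.ext (by simp) (by simpa using (show a.toList = b.toList from h))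
  have hp : of (b.head * a.head⁻¹) * x⁻¹ = y⁻¹ := by
    have := congrArg (fun w : NormalWord d => w.prod φ) hab
    simpa [a, b] using this
  refine QuotientGroup.eq.2 ⟨(b.head * a.head⁻¹)⁻¹, ?_⟩
  rw [map_inv, ← mul_inv_eq_iff_eq_mul.2 hp.symm, mul_inv_rev, inv_inv]
  simp

/-- Of two neighbours one has one letter more, in front. -/
lemma tags_adj {v w : HnnVert φ} (h : (hnnTree φ).Adj v w) :
    (∃ l, tags d w = l :: tags d v) ∨ ∃ l, tags d v = l :: tags d w := by
  have key : ∀ g : HNNExtension G A B φ,
      (∃ l, tags d (QuotientGroup.mk (g * t)) = l :: tags d (QuotientGroup.mk g)) ∨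
        ∃ l, tags d (QuotientGroup.mk g) = l :: tags d (QuotientGroup.mk (g * t)) := by
    intro g
    have e : (g * t)⁻¹ • (NormalWord.empty : NormalWord d) =
        unitsSMul φ (-1) (g⁻¹ • NormalWord.empty) := by
      rw [mul_inv_rev, mul_smul, ← t_pow_smul_eq_unitsSMul]
      simp
    rw [show tags d (QuotientGroup.mk (g * t)) =
      (unitsSMul φ (-1) (g⁻¹ • (NormalWord.empty : NormalWord d))).toList from
        congrArg (fun w : NormalWord d => w.toList) e,
      show tags d (QuotientGroup.mk g : HnnVert φ) =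
        (g⁻¹ • (NormalWord.empty : NormalWord d)).toList from rfl]
    generalize g⁻¹ • (NormalWord.empty : NormalWord d) = a
    by_cases hc : Cancels (-1) a
    · refine .inr ?_
      cases a using consRecOn with
      | ofGroup => simp [Cancels] at hc
      | cons g' u a h1 h2 =>
        refine ⟨(u, a.head), ?_⟩
        rw [unitsSMul, dif_pos hc]
        simp [unitsSMulWithCancel]
    · refine .inl ⟨((-1 : ℤˣ), (unitsSMulGroup φ d (-1) a.head).2), ?_⟩
      rw [unitsSMul, dif_neg hc]
      simp
  obtain ⟨-, ⟨g, rfl, rfl⟩ | ⟨g, rfl, rfl⟩⟩ := h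
  exacts [key g, (key g).symm]

lemma hnnTree_isTree : (hnnTree φ).IsTree := by
  classical
  obtain ⟨d⟩ := TransversalPair.nonempty G A B
  refine { connected := ?_, isAcyclic := ?_ }
  · let o : HnnVert φ := QuotientGroup.mk 1
    let φ' : HNNExtension G A B φ → hnnTree φ →g hnnTree φ := fun x =>
      ⟨fun v => x • v, fun h => (hnnTree_smul x _ _).2 h⟩
    have key : ∀ x : HNNExtension G A B φ, (hnnTree φ).Reachable o (x • o) := by
      intro x
      induction x using HNNExtension.induction_on with
      | of g =>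
        have h : (of g : HNNExtension G A B φ) • o = o :=
          (QuotientGroup.eq (s := (HNNExtension.of : G →* HNNExtension G A B φ).range)
            (a := of g * 1) (b := 1)).2 ⟨g⁻¹, by simp⟩
        rw [h]
      | t =>
        by_cases h : o = (t : HNNExtension G A B φ) • o
        · rw [← h]
        · exact SimpleGraph.Adj.reachable ⟨h, .inl ⟨1, rfl, by simp [o]⟩⟩
      | mul x y hx hy =>
        rw [mul_smul]
        exact hx.trans (hy.map (φ' x))
      | inv x hx =>
        have := (hx.map (φ' x⁻¹)).symm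
        rwa [show φ' x⁻¹ (x • o) = o from inv_smul_smul x o] at this
    have hall : ∀ v, (hnnTree φ).Reachable o v := by
      intro v
      induction v using QuotientGroup.induction_on with
      | H x => simpa [o] using key x
    exact ⟨fun v w => (hall v).symm.trans (hall w)⟩
  intro r c hc
  obtain ⟨v, hv, hmax⟩ := c.support.toFinset.exists_max_image
    (fun v => (tags d v).length) ⟨r, by simp⟩
  rw [List.mem_toFinset] at hv
  have hc' := hc.rotate hv
  have key : ∀ w, (hnnTree φ).Adj v w → w ∈ (c.rotate v hv).support →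
      tags d w = (tags d v).tail := by
    intro w hw hws
    have hle := hmax w (List.mem_toFinset.2 ((SimpleGraph.Walk.mem_support_rotate_iff c v hv).1 hws))
    rcases tags_adj d hw with ⟨l, hl⟩ | ⟨l, hl⟩
    · rw [hl] at hle; simp at hle
    · rw [hl]; rfl
  refine hc'.snd_ne_penultimate (tags_injective d ?_)
  rw [key _ ((c.rotate v hv).adj_snd hc'.not_nil) (SimpleGraph.Walk.getVert_mem_support _ _),
    key _ ((c.rotate v hv).adj_penultimate hc'.not_nil).symm
      (SimpleGraph.Walk.getVert_mem_support _ _)]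

/-- A word with two letters and no cancellation is outside the base group. -/
lemma two_letters_not_mem (u v : ℤˣ) {g : G} (h : g ∈ toSubgroup A B u → u = v) :
    (t ^ (u : ℤ) * of g * t ^ (v : ℤ) : HNNExtension G A B φ) ∉
      (HNNExtension.of : G →* HNNExtension G A B φ).range := by
  intro hmem
  let w : ReducedWord G A B := ⟨1, [(u, g), (v, 1)], by simpa using h⟩
  have hp : w.prod φ = t ^ (u : ℤ) * of g * t ^ (v : ℤ) := by
    simp [w, ReducedWord.prod, mul_assoc]
  exact List.cons_ne_nil _ _
    (ReducedWord.toList_eq_nil_of_mem_of_range φ w (hp ▸ hmem))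

/-- One letter is outside the base group. -/
lemma one_letter_not_mem (u : ℤˣ) :
    (t ^ (u : ℤ) : HNNExtension G A B φ) ∉
      (HNNExtension.of : G →* HNNExtension G A B φ).range := by
  intro hmem
  let w : ReducedWord G A B := ⟨1, [(u, 1)], by simp⟩
  have hp : w.prod φ = t ^ (u : ℤ) := by simp [w, ReducedWord.prod]
  exact List.cons_ne_nil _ _
    (ReducedWord.toList_eq_nil_of_mem_of_range φ w (hp ▸ hmem))

variable {Γ : Type*} [Group Γ]

/-- Through a surjection onto an HNN extension with proper associated subgroups, its Bass-Serre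
tree has the required half-tree. -/
theorem exists_flip_hnn (hA : A ≠ ⊤) (hB : B ≠ ⊤) (π : Γ →* HNNExtension G A B φ)
    (hπ : Function.Surjective π) :
    letI := MulAction.compHom (HnnVert φ) π
    ∃ (f : HnnVert φ × HnnVert φ) (a b c : Γ), Flip (hnnTree φ) f a b c := by
  let _ := MulAction.compHom (HnnVert φ) π
  have hsmul : ∀ (g : Γ) (v : HnnVert φ), g • v = π g • v := fun _ _ => rfl
  have hinv : ∀ (g : Γ) v w, (hnnTree φ).Adj (g • v) (g • w) ↔ (hnnTree φ).Adj v w :=
    fun g v w => hnnTree_smul (π g) v w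
  obtain ⟨gA, hgA⟩ : ∃ g, g ∉ A := by
    by_contra h; push Not at h; exact hA (Subgroup.eq_top_iff' A |>.2 h)
  obtain ⟨gB, hgB⟩ : ∃ g, g ∉ B := by
    by_contra h; push Not at h; exact hB (Subgroup.eq_top_iff' B |>.2 h)
  let o : HnnVert φ := QuotientGroup.mk 1
  let o' : HnnVert φ := QuotientGroup.mk t
  let f := (o, o')
  obtain ⟨a, ha⟩ := hπ t
  obtain ⟨b, hb⟩ := hπ (t * of gB)
  obtain ⟨c, hc⟩ := hπ (t * of gA * t⁻¹)
  have hT := hnnTree_isTree (φ := φ)
  have hne : ∀ x : HNNExtension G A B φ,
      x ∉ (HNNExtension.of : G →* HNNExtension G A B φ).range →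
      (QuotientGroup.mk x : HnnVert φ) ≠ o := fun x hx h => hx (by
    simpa [o] using inv_mem (QuotientGroup.eq.1 h))
  have hoo : o' ≠ o := hne _ (by simpa using one_letter_not_mem (φ := φ) 1)
  have hf : (hnnTree φ).Adj f.1 f.2 := ⟨hoo.symm, .inl ⟨1, rfl, by simp [f, o']⟩⟩
  -- an edge from the head to a vertex other than the tail stays inside
  have sub : ∀ x, x ≠ o → (hnnTree φ).Adj o' x → cone (hnnTree φ) (o', x) ⊆ cone (hnnTree φ) f := by
    intro x hx hadj
    refine cone_subset_of_tail hT (e := (o', x)) hadj hf (self_mem_cone hf) ?_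
    show ¬ (hnnTree φ).dist o x < (hnnTree φ).dist o o'
    rw [SimpleGraph.dist_eq_one_iff_adj.2 hf, Nat.lt_one_iff]
    exact fun h => hx ((hT.connected.dist_eq_zero_iff).1 h).symm
  have pa : (a • f : HnnVert φ × HnnVert φ) = (o', QuotientGroup.mk (t * t)) := by
    simp [hsmul, ha, f, o, o']
  have pb : (b • f : HnnVert φ × HnnVert φ) = (o', QuotientGroup.mk (t * of gB * t)) := by
    refine Prod.ext ?_ ?_
    · show π b • o = o'
      rw [hb]
      exact (QuotientGroup.eq (a := t * of gB * 1) (b := t)).2 ⟨gB⁻¹, by simp⟩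
    · show π b • o' = _
      rw [hb]; rfl
  have pc : (c • f : HnnVert φ × HnnVert φ) = (QuotientGroup.mk (t * of gA * t⁻¹), o') := by
    refine Prod.ext ?_ ?_
    · show π c • o = _
      rw [hc]; simp [o]
    · show π c • o' = o'
      rw [hc]
      exact (QuotientGroup.eq (a := t * of gA * t⁻¹ * t) (b := t)).2 ⟨gA⁻¹, by simp [mul_assoc]⟩
  have na : (QuotientGroup.mk (t * t) : HnnVert φ) ≠ o := hne _ (by
    simpa using two_letters_not_mem (φ := φ) 1 1 (g := 1) (fun _ => rfl))
  have nb : (QuotientGroup.mk (t * of gB * t) : HnnVert φ) ≠ o := hne _ (by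
    simpa using two_letters_not_mem (φ := φ) 1 1 (g := gB) (fun _ => rfl))
  have nc : (QuotientGroup.mk (t * of gA * t⁻¹) : HnnVert φ) ≠ o := hne _ (by
    simpa using two_letters_not_mem (φ := φ) 1 (-1) (g := gA) (fun h => absurd h hgA))
  have aa : (hnnTree φ).Adj (a • f).1 (a • f).2 := (hinv a f.1 f.2).2 hf
  rw [pa] at aa
  have ab : (hnnTree φ).Adj (b • f).1 (b • f).2 := (hinv b f.1 f.2).2 hf
  rw [pb] at ab
  have ac : (hnnTree φ).Adj (c • f).1 (c • f).2 := (hinv c f.1 f.2).2 hf
  rw [pc] at ac
  refine ⟨f, a, b, c, ⟨hf, hinv, pa ▸ sub _ na aa, pb ▸ sub _ nb ab, ?_, ?_⟩⟩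
  · rw [pa, pb]
    refine (eq_or_disjoint_of_dist hT (e := (o', _)) (c := (o', _)) (v := o) aa ab ?_ ?_
      rfl).resolve_left fun h => ?_
    · exact fun h => tail_not_mem_cone f (sub _ na aa h)
    · exact fun h => tail_not_mem_cone f (sub _ nb ab h)
    · obtain ⟨g, hg⟩ := QuotientGroup.eq.1 (congrArg Prod.snd h)
      refine two_letters_not_mem (φ := φ) (-1) 1 (g := gB)
        (fun h => absurd h (by simpa using hgB)) ⟨g, ?_⟩
      rw [hg]; simp [mul_assoc]
  · intro v hv
    rw [pc]
    by_contra h
    exact hv (sub _ nc ac.symm ((mem_cone_swap hT (e := (_, o')) ac).2 h))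

end Vale.Agent.P165.Tree
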