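import Vale.Agent.P165.Tree.HopsTube
import Vale.Agent.P165.Sharp
import Vale.Agent.P165.Quot.Finite

/-!
A block: a fixed connection to a pushed copy of the base half-tree, the finite region along the
tree, and the first point of the core of each child.
-/

open Finset
open scoped ENNReal

namespace Vale.Agent.P165.Tree

open Vale.Agent.P165.Quot

/-- Being near a half-tree well inside another one. -/
lemma mem_cone_of_near {V : Type*} {T : SimpleGraph V} (hT : T.IsTree) {e c : V × V}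
    (he : T.Adj e.1 e.2) (hc : T.Adj c.1 c.2) (h : cone T e ⊆ cone T c) {ρ : ℕ}
    (hd : ρ ≤ T.dist c.2 e.2) {v : V} (hv : v ∈ near T ρ e) :
    v ∈ cone T c ∧ T.dist c.2 e.2 ≤ T.dist c.2 v + ρ := by
  obtain ⟨w, hw, hvw⟩ := hv
  have h1 := dist_below hT he hc h hw
  have h2 : T.dist c.2 w ≤ T.dist c.2 v + T.dist v w := hT.connected.dist_triangle
  refine ⟨?_, by omega⟩
  by_contra hvc
  have h3 := dist_through hT hc (h hw) hvc
  rw [SimpleGraph.dist_comm (u := w) (v := c.2), SimpleGraph.dist_comm (u := w) (v := v)] at h3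
  omega

/-- A finite edge set carries the same connections as the region it was cut from. -/
lemma prob_connTo_le_pr {W : Type*} [DecidableEq W] {H : SimpleGraph W} {p : ℝ} (h0 : 0 ≤ p)
    (h1 : p ≤ 1) {U : Finset (Sym2 W)} {E : Set (Sym2 W)}
    (hE : ∀ e ∈ E, e ∈ H.edgeSet → e ∈ U) (x : W) (T : Set W) :
    prob H p (connTo E x T) ≤ ENNReal.ofReal (pr p U (connTo Set.univ x T)) := by
  refine prob_le fun U' hU' => ENNReal.ofReal_le_ofReal ?_
  refine le_trans (pr_mono (R := fun S => connTo Set.univ x T (S ∩ U)) h0 h1 fun S hS hc => ?_)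
    (le_trans (pr_mono_set h0 h1 (U₁ := U') (U := U' ∪ U) subset_union_left
      (fun S S' hSS hc => incr_connTo _ x T _ _ (inter_subset_inter_right hSS) hc))
      (le_of_eq (pr_marginal p subset_union_right _)))
  obtain ⟨y, hy, hyc⟩ := hc
  refine ⟨y, hy, cl_mono subset_rfl (fun e he => ?_) hyc⟩
  obtain ⟨heS, heE⟩ := mem_inPart.1 he
  exact mem_inPart.2 ⟨mem_inter.2 ⟨heS, hE e heE (hU' (mem_coe.2 (hS heS)))⟩, trivial⟩

namespace Act

variable {W V Γ : Type*} [Group Γ] [MulAction Γ W] [MulAction Γ V] {H : SimpleGraph W}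
  [DecidableEq W] [H.LocallyFinite] {T : SimpleGraph V} (Ac : Act (Γ := Γ) H T) {D : ℕ}

omit [DecidableEq W] [H.LocallyFinite] in
/-- The first core point on a walk, reached by edges of the walk. -/
lemma exists_first_entry {v : V × V} {x y : W} (q : H.Walk x y) (hx : x ∉ Ac.core D v)
    (hy : y ∈ Ac.core D v) : ∃ a ∈ Ac.entry D v, ∃ q' : H.Walk x a,
      ∀ e ∈ q'.edges, e ∈ q.edges ∧ e ∈ Ac.outE D v := by
  induction q with
  | nil => exact absurd hy hx
  | @cons a b d h q ih =>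
    by_cases hb : b ∈ Ac.core D v
    · refine ⟨b, ⟨hb, a, h.symm, hx⟩, .cons h .nil, fun e he => ?_⟩
      simp only [SimpleGraph.Walk.edges_cons, SimpleGraph.Walk.edges_nil, List.mem_singleton] at he
      subst he
      exact ⟨by simp, Ac.mem_outE.2 (.inl hx)⟩
    · obtain ⟨e₀, he₀, q', hq'⟩ := ih hb hy
      refine ⟨e₀, he₀, .cons h q', fun e he => ?_⟩
      simp only [SimpleGraph.Walk.edges_cons, List.mem_cons] at he ⊢
      rcases he with rfl | he
      · exact ⟨.inl rfl, Ac.mem_outE.2 (.inl hx)⟩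
      · exact ⟨.inr (hq' e he).1, (hq' e he).2⟩

/-- The landing probability at a child: some type carries its share. -/
theorem exists_landing {p : ℝ} (h0 : 0 ≤ p) (h1 : p ≤ 1) {types : Finset (W × (V × V))}
    (hty : Ac.IsTypes D types) (hne : types.Nonempty) {x : W} {v : V × V} (hv : T.Adj v.1 v.2) (hx : x ∉ Ac.core D v)
    {U : Finset (Sym2 W)} (hU : ↑U ⊆ H.edgeSet) {Tz : Set W} (hz : Tz ⊆ Ac.core D v) :
    ∃ τ ∈ types, ∃ Z : Finset Γ, (∀ γ ∈ Z, γ • τ.2 = v) ∧ Z.card ≤ (reachable U x).card ∧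
      pr p U (connTo Set.univ x Tz) ≤
        (types.card : ℝ) * pr p U (connTo (Ac.outE D v) x ((fun γ : Γ => γ • τ.1) '' ↑Z)) := by
  classical
  have hfin : ∀ τ : W × (V × V),
      {γ : Γ | γ • τ.2 = v ∧ γ • τ.1 ∈ reachable U x}.Finite := fun τ => by
    refine Set.Finite.of_finite_image ((reachable U x).finite_toSet.subset ?_)
      (f := fun γ => γ • τ.1) fun γ _ γ' _ h => ?_
    · rintro _ ⟨γ, ⟨-, hγ⟩, rfl⟩; exact hγ
    · have := Ac.free (γ'⁻¹ * γ) τ.1 (by rw [mul_smul]; simp only at h; rw [h, inv_smul_smul])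
      exact (inv_mul_eq_one.1 this).symm
  let P : W × (V × V) → ℝ := fun τ =>
    pr p U (connTo (Ac.outE D v) x ((fun γ : Γ => γ • τ.1) '' ↑(hfin τ).toFinset))
  have hsum : pr p U (connTo Set.univ x Tz) ≤ ∑ τ ∈ types, P τ := by
    refine pr_le_sum h0 h1 types _ fun S hS hc => ?_
    obtain ⟨y, hy, hyc⟩ := hc
    obtain ⟨q, hq⟩ := exists_walk_inPart (H := H) (E := (↑S : Set (Sym2 W)))
      (S := S) ((Finset.coe_subset.2 hS).trans hU) (x := x) (y := y) (by
        refine cl_mono subset_rfl (fun e he => ?_) hyc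
        exact mem_inPart.2 ⟨inPart_subset _ _ he, inPart_subset _ _ he⟩)
    obtain ⟨a, ha, q', hq'⟩ := Ac.exists_first_entry q hx (hz hy)
    obtain ⟨τ, hτ, γ, hγ1, hγ2⟩ := hty.2 v hv a ha
    have hq'S : ∀ e ∈ q'.edges, e ∈ inPart (Ac.outE D v) S := fun e he =>
      mem_inPart.2 ⟨mem_coe.1 (hq e (hq' e he).1), (hq' e he).2⟩
    refine ⟨τ, hτ, γ • τ.1, ⟨γ, (hfin τ).mem_toFinset.2 ⟨hγ2, ?_⟩, rfl⟩, ?_⟩
    · rw [hγ1]
      exact mem_reachable hS (mem_cl_of_hwalk q' fun e he => (mem_inPart.1 (hq'S e he)).1)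
    · rw [hγ1]
      exact mem_cl_of_hwalk q' hq'S
  obtain ⟨τ, hτ, hmax⟩ := exists_max_image types P hne
  refine ⟨τ, hτ, (hfin τ).toFinset, fun γ hγ => ((hfin τ).mem_toFinset.1 hγ).1,
    card_le_card_of_injOn (fun γ => γ • τ.1) (fun γ hγ => ((hfin τ).mem_toFinset.1 hγ).2)
      fun γ _ γ' _ h => ?_, ?_⟩
  · have := Ac.free (γ'⁻¹ * γ) τ.1 (by rw [mul_smul]; simp only at h; rw [h, inv_smul_smul])
    exact (inv_mul_eq_one.1 this).symm
  · exact hsum.trans ((sum_le_card_nsmul _ _ _ hmax).trans_eq (nsmul_eq_mul _ _))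

lemma proj_walk_smul (g : Γ) {e : V × V} {ρ : ℕ} {x : W} (h : Ac.proj x ∈ near T ρ e) :
    Ac.proj (g • x) ∈ near T ρ (g • e) := by
  obtain ⟨w, hw, hd⟩ := h
  refine ⟨g • w, (Ac.mem_cone_smul g e w).2 hw, ?_⟩
  rw [Ac.proj_smul, Ac.dist_smul]
  exact hd

/-- One block from a point of a type through a pushed copy of the base half-tree. -/
theorem exists_block {p : ℝ} (h0 : 0 < p) (h1 : p ≤ 1) {types : Finset (W × (V × V))}
    (hty : Ac.IsTypes D types) {σ : W × (V × V)} (hσ : σ ∈ types) {sub : V × V}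
    (hsub : T.Adj sub.1 sub.2) (hsub' : cone T sub ⊆ cone T σ.2) (γ : Γ)
    (hγ : cone T (γ • Ac.f₀) ⊆ cone T sub) {π ρ L : ℕ} (P : H.Walk σ.1 (γ • Ac.r₀))
    (hP : ∀ w ∈ P.support, w ∈ Ac.core D σ.2)
    (hdeep : D + ρ + π + Ac.R < T.dist σ.2.2 (γ • Ac.f₀).2) {zf : W} (W₀ : H.Walk Ac.r₀ zf)
    (hW : ∀ w ∈ W₀.support, Ac.proj w ∈ near T π Ac.f₀) (hzf : Ac.proj zf ∈ cone T Ac.f₀)
    (hzf' : D ≤ T.dist Ac.f₀.2 (Ac.proj zf)) {d : ℕ} (hd : ∀ x, (H.neighborFinset x).card ≤ d)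
    {n : ℕ} {F : Finset (V × V)} (hF : ↑F ⊆ Ac.tubeSet L n) {Lt : ℕ} (hLt : 2 ≤ Lt) {tau : ℝ}
    (htau : 0 ≤ tau)
    (htail : ∀ x, prob H p (manyIn Set.univ x Set.univ (Lt + 1)) ≤ ENNReal.ofReal tau)
    (κ : V × V → ℝ) (hκ0 : ∀ e ∈ F, 0 < κ e)
    (hκ : ∀ e ∈ F, κ e * types.card ≤ p ^ (P.length + W₀.length) * (Ac.tubeQ p ρ L n e).toReal)
    (hκt : ∀ e ∈ F, 2 * ((d : ℝ) + 1) ^ ((P.length + W₀.length + L) * (n + 1)) * tau ≤ κ e) :
    ∃ h : Ac.Hop D p σ types, h.sub = sub ∧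
      ∀ t : ℝ, ∑ e ∈ F, (κ e / (2 * Lt)) ^ t = ∑ e ∈ h.A, h.g e ^ t := by
  classical
  have hT := Ac.isTree
  obtain ⟨-, hσadj, hσent⟩ := hty.1 σ hσ
  have hne : types.Nonempty := ⟨σ, hσ⟩
  set c := σ.2 with hc
  have hf : T.Adj (γ • Ac.f₀).1 (γ • Ac.f₀).2 := (Ac.tree_smul γ _ _).2 Ac.f₀_adj
  set C := (P.length + W₀.length + L) * (n + 1) with hC
  set B := ball H σ.1 C with hB
  set U := (inEdges H B).filter fun e => e ∈ inside (Ac.core D c) with hU
  set E : Set (Sym2 W) := inside (Ac.core D c ∩ ↑B) with hE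
  have hEU : ∀ e ∈ E, e ∈ H.edgeSet → e ∈ U := by
    intro e he heH
    refine mem_filter.2 ⟨?_, fun x hx => (he x hx).1⟩
    induction e with
    | h a b => exact mem_inEdges.2 ⟨heH, (he a (Sym2.mem_mk_left a b)).2, (he b (Sym2.mem_mk_right a b)).2⟩
  have hUH : ↑U ⊆ H.edgeSet := fun e he =>
    inEdges_edge B (mem_coe.2 (mem_filter.1 (mem_coe.1 he)).1)
  have hreach : (reachable U σ.1).card ≤ (d + 1) ^ C := by
    refine le_trans (card_le_card fun x hx => ?_) (card_ball_le hd σ.1 C)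
    rcases mem_insert.1 hx with rfl | hx
    · exact mem_ball_of_walk .nil (Nat.zero_le _)
    obtain ⟨e, he, hxe⟩ := mem_biUnion.1 hx
    induction e with
    | h a b =>
      obtain ⟨-, ha, hb⟩ := mem_inEdges.1 (mem_filter.1 he).1
      rcases Sym2.mem_iff.1 (Sym2.mem_toFinset.1 hxe) with rfl | rfl
      exacts [ha, hb]
  -- points within reach of the pushed base point
  have hball : ∀ x, x ∈ ball H Ac.r₀ (L * n) → ∀ y (q : H.Walk y (γ • x)),
      q.length ≤ W₀.length → y ∈ B := by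
    intro x hx y q hq
    obtain ⟨q₁, hq₁⟩ := exists_of_ball hx
    let q₂ : H.Walk (γ • x) (γ • Ac.r₀) := q₁.map (Ac.actW γ).toHom
    have hq₂ : q₂.length ≤ L * n := (SimpleGraph.Walk.length_map _ _).trans_le hq₁
    refine mem_ball_of_walk ((q.append q₂).append P.reverse) ?_
    rw [SimpleGraph.Walk.length_append, SimpleGraph.Walk.length_append,
      SimpleGraph.Walk.length_reverse, hC]
    nlinarith
  have hcone : ∀ e ∈ F, T.Adj (γ • e).1 (γ • e).2 ∧ cone T (γ • e) ⊆ cone T (γ • Ac.f₀) ∧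
      cone T (γ • e) ⊆ cone T c ∧ T.dist c.2 (γ • e).2 = T.dist c.2 (γ • Ac.f₀).2 + n := by
    intro e he
    obtain ⟨e1, e2, e3, -⟩ := hF he
    have a1 : T.Adj (γ • e).1 (γ • e).2 := (Ac.tree_smul γ _ _).2 e1
    have a2 := (Ac.cone_smul_subset γ e Ac.f₀).2 e2
    refine ⟨a1, a2, a2.trans (hγ.trans hsub'), ?_⟩
    rw [depth_add hT a1 hf hσadj a2 (hγ.trans hsub'),
      show T.dist (γ • Ac.f₀).2 (γ • e).2 = T.dist (γ • Ac.f₀.2) (γ • e.2) from rfl,
      Ac.dist_smul, e3]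
  have hout : ∀ e ∈ F, σ.1 ∉ Ac.core D (γ • e) := fun e he h => by
    obtain ⟨a1, -, a3, a4⟩ := hcone e he
    have := dist_below hT a1 hσadj a3 (Ac.core_subset h)
    have := Ac.gate_near hσadj (Ac.entry_subset_gate hσent)
    rw [SimpleGraph.dist_comm] at this
    omega
  have hprob : ∀ e ∈ F, p ^ (P.length + W₀.length) * (Ac.tubeQ p ρ L n e).toReal ≤
      pr p U (connTo Set.univ σ.1 (Ac.core D (γ • e))) := by
    intro e he
    obtain ⟨a1, a2, a3, a4⟩ := hcone e he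
    obtain ⟨e1, e2, e3, -⟩ := hF he
    have htube : Ac.tubeQ p ρ L n e ≤
        prob H p (connTo E (γ • Ac.r₀) (Ac.actW γ '' Ac.tubeT L n e)) := by
      refine le_trans (le_of_eq (prob_connTo_iso (Ac.actW γ) _ _ _).symm)
        (prob_connTo_mono h0.le h1 ?_ subset_rfl _)
      rintro _ ⟨s, hs, rfl⟩ x hx
      obtain ⟨y, hy, rfl⟩ := Sym2.mem_map.1 hx
      obtain ⟨⟨hy1, hy2⟩, hy3⟩ := hs y hy
      obtain ⟨b1, b2⟩ := mem_cone_of_near hT hf hσadj (hγ.trans hsub') (by omega)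
        (Ac.proj_walk_smul γ hy1)
      exact ⟨Ac.mem_core_of_deep b1 (by simp only [Ac.actW_apply] at *; omega),
        hball y hy3 _ .nil (Nat.zero_le _)⟩
    have hforward : ∀ u ∈ Ac.actW γ '' Ac.tubeT L n e,
        ENNReal.ofReal p ^ W₀.length ≤ prob H p (connTo E u (Ac.core D (γ • e))) := by
      rintro _ ⟨x, ⟨⟨g, hg, rfl⟩, hxb⟩, rfl⟩
      have hkf : (γ * g) • Ac.f₀ = γ • e := by rw [mul_smul, hg]
      let q : H.Walk ((γ * g) • Ac.r₀) ((γ * g) • zf) := W₀.map (Ac.actW (γ * g)).toHom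
      have hq : q.length = W₀.length := SimpleGraph.Walk.length_map _ _
      have hend : (γ * g) • zf ∈ Ac.core D (γ • e) := by
        refine Ac.mem_core_of_deep (hkf ▸ ?_) ?_
        · show Ac.proj ((γ * g) • zf) ∈ cone T ((γ * g) • Ac.f₀)
          rw [Ac.proj_smul]
          exact (Ac.mem_cone_smul _ _ _).2 hzf
        · rw [← hkf, show ((γ * g) • Ac.f₀).2 = (γ * g) • Ac.f₀.2 from rfl, Ac.proj_smul,
            Ac.dist_smul]
          exact hzf'
      rw [show (Ac.actW γ) (g • Ac.r₀) = (γ * g) • Ac.r₀ from (mul_smul _ _ _).symm]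
      refine le_trans ?_ (walk_mul_le (H := H) h0.le h1 (E := E) q (fun s hs => show s ∈ E from fun w hw => ?_) (Ac.core D (γ • e)))
      · rw [prob_connTo_self h0.le h1 E hend, mul_one, hq]
      have hwq : w ∈ q.support := by
        induction s with
        | h a b =>
          rcases Sym2.mem_iff.1 hw with rfl | rfl
          exacts [q.fst_mem_support_of_mem_edges hs, q.snd_mem_support_of_mem_edges hs]
      have hwB : w ∈ B := by
        refine hball (g • Ac.r₀) hxb w (((q.takeUntil w hwq).reverse).copy rfl (mul_smul _ _ _)) ?_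
        rw [SimpleGraph.Walk.length_copy, SimpleGraph.Walk.length_reverse]
        exact le_trans (q.length_takeUntil_le hwq) hq.le
      have hwq : w ∈ W₀.support.map (fun z => (γ * g) • z) :=
        ((SimpleGraph.Walk.support_map (Ac.actW (γ * g)).toHom W₀).symm ▸ hwq :)
      rw [List.mem_map] at hwq
      obtain ⟨w₀, hw₀, rfl⟩ := hwq
      obtain ⟨b1, b2⟩ := mem_cone_of_near hT (hkf ▸ a1) hσadj (hkf ▸ a3) (ρ := π)
        (by rw [hkf]; omega) (Ac.proj_walk_smul (γ * g) (hW w₀ hw₀))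
      rw [hkf] at b2
      exact ⟨Ac.mem_core_of_deep b1 (by change D ≤ T.dist c.2 (Ac.proj ((γ * g) • w₀)); omega), hwB⟩
    have hPE : ∀ s ∈ P.edges, s ∈ E := fun s hs w hw => by
      have hwP : w ∈ P.support := by
        induction s with
        | h a b =>
          rcases Sym2.mem_iff.1 hw with rfl | rfl
          exacts [P.fst_mem_support_of_mem_edges hs, P.snd_mem_support_of_mem_edges hs]
      refine ⟨hP w hwP, mem_ball_of_walk (P.takeUntil w hwP).reverse ?_⟩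
      rw [SimpleGraph.Walk.length_reverse, hC]
      have := P.length_takeUntil_le hwP
      nlinarith
    have hall : ENNReal.ofReal p ^ P.length *
        (Ac.tubeQ p ρ L n e * ENNReal.ofReal p ^ W₀.length) ≤
          ENNReal.ofReal (pr p U (connTo Set.univ σ.1 (Ac.core D (γ • e)))) :=
      le_trans (mul_le_mul_right (le_trans (mul_le_mul_left htube _)
        (connTo_trans h0.le h1 E _ _ _ hforward)) _)
        ((walk_mul_le h0.le h1 P hPE _).trans (prob_connTo_le_pr h0.le h1 hEU _ _))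
    have := ENNReal.toReal_mono ENNReal.ofReal_ne_top hall
    rw [ENNReal.toReal_mul, ENNReal.toReal_mul, ENNReal.toReal_pow, ENNReal.toReal_pow,
      ENNReal.toReal_ofReal h0.le, ENNReal.toReal_ofReal (pr_nonneg h0.le h1 _ _)] at this
    rw [pow_add]
    linarith
  have hinv : ∀ v ∈ F.image (fun e => γ • e), γ⁻¹ • v ∈ F ∧ γ • γ⁻¹ • v = v := fun v hv => by
    obtain ⟨e, he, rfl⟩ := mem_image.1 hv
    simp [he]
  have hland : ∀ v : V × V, ∃ (τ : W × (V × V)) (Z : Finset Γ), v ∈ F.image (fun e => γ • e) →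
      τ ∈ types ∧ (∀ δ ∈ Z, δ • τ.2 = v) ∧ Z.card ≤ (reachable U σ.1).card ∧
      pr p U (connTo Set.univ σ.1 (Ac.core D v)) ≤
        (types.card : ℝ) * pr p U (connTo (Ac.outE D v) σ.1 ((fun δ : Γ => δ • τ.1) '' ↑Z)) := by
    intro v
    by_cases hv : v ∈ F.image (fun e => γ • e)
    · obtain ⟨e, he, rfl⟩ := mem_image.1 hv
      obtain ⟨τ, hτ, Z, h⟩ := Ac.exists_landing h0.le h1 hty hne (hcone e he).1 (hout e he) hUH
        (subset_refl (Ac.core D (γ • e)))
      exact ⟨τ, Z, fun _ => ⟨hτ, h⟩⟩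
    · exact ⟨σ, ∅, fun h => absurd h hv⟩
  choose kind Z hland using hland
  refine ⟨{
    sub := sub, sub_adj := hsub, sub_le := hsub'
    A := F.image fun e => γ • e
    kind := kind, Z := Z, U := U
    g := fun v => κ (γ⁻¹ • v) / (2 * Lt)
    N := T.dist c.2 (γ • Ac.f₀).2 + n, Lt := Lt, tau := tau
    N_pos := by omega
    Lt_pos := by omega
    tau_nonneg := htau
    U_edges := hUH
    U_core := fun e he => (mem_filter.1 (mem_coe.1 he)).2
    A_adj := ?_, A_le := ?_, A_depth := ?_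
    kind_mem := fun v hv => (hland v hv).1
    Z_kind := fun v hv => (hland v hv).2.1
    g_pos := ?_, g_le := ?_, g_hit := ?_
    tail := htail }, rfl, fun t => ?_⟩
  · intro v hv
    obtain ⟨e, he, rfl⟩ := mem_image.1 hv
    exact (hcone e he).1
  · intro v hv
    obtain ⟨e, he, rfl⟩ := mem_image.1 hv
    exact (hcone e he).2.1.trans hγ
  · intro v hv
    obtain ⟨e, he, rfl⟩ := mem_image.1 hv
    exact (hcone e he).2.2.2
  · intro v hv
    exact div_pos (hκ0 _ (hinv v hv).1) (by positivity)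
  · intro v hv
    have he := (hinv v hv).1
    have h2 : (2 : ℝ) ≤ Lt := by exact_mod_cast hLt
    have hQ : (Ac.tubeQ p ρ L n (γ⁻¹ • v)).toReal ≤ 1 := by
      simpa using ENNReal.toReal_mono ENNReal.one_ne_top (Ac.tubeQ_le_one h0.le h1 ρ L n _)
    have hty1 : (1 : ℝ) ≤ types.card := by exact_mod_cast card_pos.2 hne
    have hp : p ^ (P.length + W₀.length) ≤ 1 := pow_le_one₀ h0.le h1
    have hp0 : 0 ≤ p ^ (P.length + W₀.length) := by positivity
    have := hκ _ he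
    have := hκ0 _ he
    have hq0 : 0 ≤ (Ac.tubeQ p ρ L n (γ⁻¹ • v)).toReal := ENNReal.toReal_nonneg
    rw [div_le_iff₀ (by positivity)]
    nlinarith
  · intro v hv
    obtain ⟨he, hev⟩ := hinv v hv
    obtain ⟨hτ, -, hZ, hpr⟩ := hland v hv
    set e := γ⁻¹ • v with hedef
    have hb := hprob e he
    rw [hev] at hb
    have h1' := (hκ e he).trans (hb.trans hpr)
    have hty1 : (0 : ℝ) < types.card := by exact_mod_cast card_pos.2 hne
    have h3 : κ e ≤ pr p U (connTo (Ac.outE D v) σ.1 ((fun δ : Γ => δ • (kind v).1) '' ↑(Z v))) :=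
      le_of_mul_le_mul_left (by linarith) hty1
    have h4 : ((Z v).card : ℝ) ≤ ((d : ℝ) + 1) ^ C := by exact_mod_cast hZ.trans hreach
    have h5 := hκt e he
    have h6 : (Lt : ℝ) ≠ 0 := by positivity
    rw [show κ e / (2 * Lt) * Lt = κ e / 2 by field_simp]
    nlinarith
  · rw [sum_image fun a _ a' _ h => smul_left_cancel γ h]
    simp

end Act

end Vale.Agent.P165.Tree
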