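import Vale.Agent.P165.Tree.Pressure
import Vale.Agent.P165.Tree.ClusterTail
import Vale.Agent.P165.Tree.HopsBlock

/-!
Blocks of arbitrarily large weight just below the threshold.
-/

open Finset Filter
open scoped ENNReal Topology

namespace Vale.Agent.P165.Tree.Act

open Vale.Agent.P165.Quot

variable {W V Γ : Type*} [Group Γ] [MulAction Γ W] [MulAction Γ V] {H : SimpleGraph W}
  [DecidableEq W] [H.LocallyFinite] {T : SimpleGraph V} (Ac : Act (Γ := Γ) H T)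

/-- Goodness at the threshold gives a finite code above one strictly below it, realised in the
regions used at every depth. -/
theorem exists_code_below (hH : H.Connected) (hpc : 0 < pc H) (hpc1 : pc H ≤ 1) {t : ℝ}
    (ht0 : 0 < t) (hG : Ac.Good (pc H) t) :
    ∃ (p : ℝ) (A : Finset (V × V)), 0 < p ∧ p < pc H ∧
      (∀ b ∈ A, T.Adj b.1 b.2 ∧ cone T b ⊆ cone T Ac.f₀ ∧ 0 < T.dist Ac.f₀.2 b.2) ∧
      (∀ b ∈ A, ∀ b' ∈ A, b ≠ b' → Disjoint (cone T b) (cone T b')) ∧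
      ∀ ρ₁ L₁ : ℕ, ∃ ρ L : ℕ, ρ₁ ≤ ρ ∧ L₁ ≤ L ∧
        1 < ∑ b ∈ A, (Ac.tubeQ p ρ L (T.dist Ac.f₀.2 b.2) b).toReal ^ t := by
  classical
  obtain ⟨A, hA, hdisj, hsum⟩ := hG
  have hQ1 : ∀ b, Ac.Q (pc H) b ≤ 1 := fun b => prob_le_one hpc.le hpc1 _
  have hdep : ∀ b ∈ A, 0 < T.dist Ac.f₀.2 b.2 := by
    intro b hb
    by_contra h0
    obtain rfl := eq_of_subset_of_dist Ac.isTree (hA b hb).1 Ac.f₀_adj (hA b hb).2 (by omega)
    have hA1 : A = {Ac.f₀} := eq_singleton_iff_unique_mem.2 ⟨hb, fun e he => by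
      by_contra hne
      exact Set.disjoint_left.1 (hdisj e he Ac.f₀ hb hne) (self_mem_cone (hA e he).1)
        ((hA e he).2 (self_mem_cone (hA e he).1))⟩
    rw [hA1, sum_singleton] at hsum
    exact absurd hsum (not_lt.2 (ENNReal.rpow_le_one (hQ1 _) ht0.le))
  set P : V × V → ℝ := fun b => (Ac.Q (pc H) b).toReal with hP
  have hne : ∀ b, Ac.Q (pc H) b ≠ ⊤ := fun b => ne_top_of_le_ne_top ENNReal.one_ne_top (hQ1 b)
  have hsum' : 1 < ∑ b ∈ A, P b ^ t := by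
    have h2 : ∑ b ∈ A, Ac.Q (pc H) b ^ t ≠ ⊤ :=
      ENNReal.sum_ne_top.2 fun b _ => ENNReal.rpow_ne_top_of_nonneg ht0.le (hne b)
    have h3 := (ENNReal.toReal_lt_toReal ENNReal.one_ne_top h2).2 hsum
    rw [ENNReal.toReal_sum fun b _ => ENNReal.rpow_ne_top_of_nonneg ht0.le (hne b)] at h3
    simpa [← ENNReal.toReal_rpow] using h3
  -- finite edge sets which are nearly as good
  obtain ⟨ε, hε, hεs⟩ : ∃ ε : ℝ, 0 < ε ∧ 1 < ∑ b ∈ A, max 0 (P b - ε) ^ t := by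
    have hc : Continuous fun ε : ℝ => ∑ b ∈ A, max 0 (P b - ε) ^ t :=
      continuous_finsetSum _ fun b _ =>
        (continuous_const.max (continuous_const.sub continuous_id)).rpow_const fun _ => .inr ht0.le
    have h0 : 1 < ∑ b ∈ A, max 0 (P b - 0) ^ t := by
      simpa [hP, ENNReal.toReal_nonneg] using hsum'
    have hev := ((hc.continuousAt.eventually (lt_mem_nhds h0)).filter_mono
      (nhdsWithin_le_nhds (s := Set.Ioi 0))).and self_mem_nhdsWithin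
    obtain ⟨ε, h1, h2⟩ := hev.exists
    exact ⟨ε, h2, h1⟩
  have hU : ∀ b, ∃ U : Finset (Sym2 W), ↑U ⊆ H.edgeSet ∧
      max 0 (P b - ε) ≤ pr (pc H) U (connTo Set.univ Ac.r₀ (Ac.cls b)) := by
    intro b
    rcases le_or_gt (P b - ε) 0 with h | h
    · exact ⟨∅, by simp, by rw [max_eq_left h]; exact pr_nonneg hpc.le hpc1 _ _⟩
    · obtain ⟨U, hU, hlt⟩ := exists_lt_pr (p := pc H) (H := H)
        (A := connTo Set.univ Ac.r₀ (Ac.cls b)) (c := ENNReal.ofReal (P b - ε)) (by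
          change ENNReal.ofReal (P b - ε) < Ac.Q (pc H) b
          exact (ENNReal.ofReal_lt_iff_lt_toReal h.le (hne b)).2 (by simp only [hP]; linarith))
      exact ⟨U, hU, by
        rw [max_eq_right h.le]
        exact ((ENNReal.ofReal_le_ofReal_iff (pr_nonneg hpc.le hpc1 _ _)).1 hlt.le)⟩
  choose U hU hUpr using hU
  -- move below the threshold
  obtain ⟨p, ⟨hp1, hp0⟩, hp⟩ : ∃ p : ℝ, (1 < ∑ b ∈ A,
      (max 0 (pr p (U b) (connTo Set.univ Ac.r₀ (Ac.cls b)))) ^ t ∧ 0 < p) ∧ p < pc H := by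
    have hc : ContinuousAt (fun q : ℝ => ∑ b ∈ A,
        (max 0 (pr q (U b) (connTo Set.univ Ac.r₀ (Ac.cls b)))) ^ t) (pc H) :=
      tendsto_finsetSum _ fun b _ =>
        ((continuousAt_const.max (hasDerivAt_pr (pc H) (U b) _).continuousAt).rpow_const
          (.inr ht0.le))
    have hbig : 1 < ∑ b ∈ A, (max 0 (pr (pc H) (U b) (connTo Set.univ Ac.r₀ (Ac.cls b)))) ^ t :=
      hεs.trans_le (sum_le_sum fun b _ => Real.rpow_le_rpow (le_max_left _ _)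
        ((hUpr b).trans (le_max_right _ _)) ht0.le)
    exact (((hc.eventually (lt_mem_nhds hbig)).and (lt_mem_nhds hpc)).filter_mono
      (nhdsWithin_le_nhds (s := Set.Iio (pc H))) |>.and self_mem_nhdsWithin).exists
  refine ⟨p, A, hp0, hp, fun b hb => ⟨(hA b hb).1, (hA b hb).2, hdep b hb⟩, hdisj,
    fun ρ₁ L₁ => ?_⟩
  let X : Finset W := A.biUnion fun b => reachable (U b) Ac.r₀
  have hw : ∀ x : W, Nonempty (H.Walk x Ac.r₀) := fun x => hH.preconnected _ _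
  let wk := fun x => (hw x).some
  set ρ := max ρ₁ (X.sup fun x => T.dist Ac.f₀.2 (Ac.proj x)) with hρ
  set L := max L₁ (X.sup fun x => (wk x).length) with hL
  refine ⟨ρ, L, le_max_left _ _, le_max_left _ _, hp1.trans_le (sum_le_sum fun b hb => ?_)⟩
  have hp01 : p ≤ 1 := hp.le.trans hpc1
  refine Real.rpow_le_rpow (le_max_left _ _) ?_ ht0.le
  rw [max_eq_right (pr_nonneg hp0.le hp01 _ _)]
  have hmem : ∀ x ∈ reachable (U b) Ac.r₀, T.dist Ac.f₀.2 (Ac.proj x) ≤ ρ ∧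
      x ∈ ball H Ac.r₀ (L * T.dist Ac.f₀.2 b.2) := by
    intro x hx
    have hxX : x ∈ X := mem_biUnion.2 ⟨b, hb, hx⟩
    refine ⟨(le_sup (f := fun x => T.dist Ac.f₀.2 (Ac.proj x)) hxX).trans (le_max_right _ _),
      mem_ball_of_walk (wk x) ?_⟩
    exact ((le_sup (f := fun x => (wk x).length) hxX).trans (le_max_right _ _)).trans
      (Nat.le_mul_of_pos_right _ (hdep b hb))
  have hle : ENNReal.ofReal (pr p (U b) (connTo Set.univ Ac.r₀ (Ac.cls b))) ≤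
      Ac.tubeQ p ρ L (T.dist Ac.f₀.2 b.2) b := by
    refine le_trans (ENNReal.ofReal_le_ofReal (pr_mono hp0.le hp01 fun S hS hc => ?_))
      (ofReal_pr_le_prob (hU b) _)
    obtain ⟨y, hy, hyc⟩ := hc
    refine ⟨y, ⟨hy, (hmem y (mem_reachable ((inPart_subset _ _).trans hS) hyc)).2⟩, ?_⟩
    refine cl_mono subset_rfl (fun e he => ?_) hyc
    have heS := (mem_inPart.1 he).1
    refine mem_inPart.2 ⟨heS, fun x hx => ?_⟩
    have hxr : x ∈ reachable (U b) Ac.r₀ :=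
      mem_insert_of_mem (mem_biUnion.2 ⟨e, hS heS, Sym2.mem_toFinset.2 hx⟩)
    obtain ⟨h1, h2⟩ := hmem x hxr
    refine ⟨⟨⟨Ac.f₀.2, self_mem_cone Ac.f₀_adj, ?_⟩, ?_⟩, h2⟩
    · rw [SimpleGraph.dist_comm]; exact h1
    · exact h1.trans (Nat.le_add_left _ _)
  exact (ENNReal.ofReal_le_iff_le_toReal
    (ne_top_of_le_ne_top ENNReal.one_ne_top (Ac.tubeQ_le_one hp0.le hp01 _ _ _ _))).1 hle

/-- A code above one gives exponentially growing sums of powers at infinitely many depths. -/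
theorem exists_growth {p t : ℝ} (hp : 0 ≤ p) (hp1 : p ≤ 1) (ht0 : 0 < t) (ht1 : t ≤ 1) {ρ L : ℕ}
    (A : Finset (V × V))
    (hA : ∀ b ∈ A, T.Adj b.1 b.2 ∧ cone T b ⊆ cone T Ac.f₀ ∧ 0 < T.dist Ac.f₀.2 b.2)
    (hdisj : ∀ b ∈ A, ∀ b' ∈ A, b ≠ b' → Disjoint (cone T b) (cone T b'))
    (hsum : 1 < ∑ b ∈ A, (Ac.tubeQ p ρ L (T.dist Ac.f₀.2 b.2) b).toReal ^ t) :
    ∃ c w : ℝ, 0 < c ∧ 1 < w ∧ ∀ M : ℕ, ∃ n, M ≤ n ∧
      c * w ^ n ≤ ∑ e ∈ (Ac.tubeSet_finite L n).toFinset, (Ac.tubeQ p ρ L n e).toReal ^ t := by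
  classical
  set d : V × V → ℕ := fun b => T.dist Ac.f₀.2 b.2 with hd
  set Z : ℕ → ℝ := fun n =>
    ∑ e ∈ (Ac.tubeSet_finite L n).toFinset, (Ac.tubeQ p ρ L n e).toReal ^ t with hZ
  have hfin : ∀ n e, Ac.tubeQ p ρ L n e ^ t ≠ ⊤ := fun n e => ENNReal.rpow_ne_top_of_nonneg ht0.le
    (ne_top_of_le_ne_top ENNReal.one_ne_top (Ac.tubeQ_le_one hp hp1 ρ L n e))
  have hZE : ∀ n, ENNReal.ofReal (Z n) =
      ∑ e ∈ (Ac.tubeSet_finite L n).toFinset, Ac.tubeQ p ρ L n e ^ t := fun n => by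
    rw [hZ, ENNReal.ofReal_sum_of_nonneg fun e _ => Real.rpow_nonneg ENNReal.toReal_nonneg t]
    exact sum_congr rfl fun e _ => by rw [ENNReal.toReal_rpow, ENNReal.ofReal_toReal (hfin n e)]
  have hZ0 : ∀ n, 0 ≤ Z n := fun n => sum_nonneg fun e _ => Real.rpow_nonneg ENNReal.toReal_nonneg t
  set a : V × V → ℝ := fun b => (Ac.tubeQ p ρ L (d b) b).toReal ^ t with ha
  have ha0 : ∀ b, 0 ≤ a b := fun b => Real.rpow_nonneg ENNReal.toReal_nonneg t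
  have hrec : ∀ n, ∑ b ∈ A, (if d b ≤ n then a b * Z (n - d b) else 0) ≤ Z n := by
    intro n
    have h := Ac.tube_rec (ρ := ρ) (L := L) (n := n) hp hp1 ht0 ht1 A
      (fun b hb => ⟨(hA b hb).1, (hA b hb).2.1⟩) hdisj
    rw [← hZE] at h
    refine (ENNReal.ofReal_le_ofReal_iff (hZ0 n)).1 (le_of_eq_of_le ?_ h)
    rw [ENNReal.ofReal_sum_of_nonneg fun b _ => by split_ifs; exacts [mul_nonneg (ha0 b) (hZ0 _), le_rfl]]
    refine sum_congr rfl fun b _ => ?_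
    split_ifs
    · rw [ENNReal.ofReal_mul (ha0 b), hZE]
      simp only [ha]
      rw [ENNReal.toReal_rpow, ENNReal.ofReal_toReal (hfin _ _)]
    · simp
  obtain ⟨z, ⟨hz, hz0⟩, hz1⟩ : ∃ z : ℝ, (1 < ∑ b ∈ A, a b * z ^ d b ∧ 0 < z) ∧ z < 1 := by
    have hc : Continuous fun z : ℝ => ∑ b ∈ A, a b * z ^ d b := by fun_prop
    have h1 : 1 < ∑ b ∈ A, a b * (1 : ℝ) ^ d b := by simpa [ha] using hsum
    exact (((hc.continuousAt.eventually (lt_mem_nhds h1)).and (lt_mem_nhds one_pos)).filter_mono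
      (nhdsWithin_le_nhds (s := Set.Iio 1)) |>.and self_mem_nhdsWithin).exists
  set Dm := A.sup d + 1 with hDm
  refine ⟨1 / (4 * (Dm : ℝ)), 1 / z, by positivity, (one_lt_div hz0).2 hz1, fun M => ?_⟩
  obtain ⟨n, hn, hy⟩ := exists_large_term A (fun b => a b * z ^ d b) d (D := Dm) (Nat.succ_pos _)
    (fun b _ => mul_nonneg (ha0 b) (pow_nonneg hz0.le _)) hz.le
    (fun b hb => ⟨(hA b hb).2.2, (le_sup (f := d) hb).trans (Nat.le_succ _)⟩)
    (fun n => Z n * z ^ n) (fun n => mul_nonneg (hZ0 n) (pow_nonneg hz0.le n))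
    (by
      have h := Ac.one_le_tube_zero (t := t) hp hp1 ρ L
      rw [← hZE, ENNReal.one_le_ofReal] at h
      simpa using h)
    (fun n _ => by
      refine le_trans (le_of_eq ?_) (mul_le_mul_of_nonneg_right (hrec n) (pow_nonneg hz0.le n))
      rw [sum_mul]
      refine sum_congr rfl fun b _ => ?_
      split_ifs with h
      · rw [show z ^ n = z ^ d b * z ^ (n - d b) by rw [← pow_add, Nat.add_sub_cancel' h]]
        ring
      · simp) M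
  refine ⟨n, hn, ?_⟩
  rw [one_div_pow, ← div_eq_mul_one_div, div_le_iff₀ (pow_pos hz0 n)]
  exact hy

/-- The constants of a block: how small a summand may be, how many layers, which depths. -/
theorem exists_scale (d C L : ℕ) {c₀ M r c w t₀ : ℝ} (hc₀0 : 0 < c₀) (hc₀1 : c₀ ≤ 1) (hM : 0 ≤ M)
    (hr0 : 0 ≤ r) (hr1 : r < 1) (hc : 0 < c) (hw : 1 < w) (ht0 : 0 < t₀) (S : ℝ) :
    ∃ η : ℝ, ∃ Λ' n₀ : ℕ, 0 < η ∧ η ^ t₀ = 1 / (2 * ((d : ℝ) + 1) ^ L) ∧ 2 ≤ Λ' ∧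
      (∀ n, n₀ ≤ n → (1 / 2 : ℝ) ^ n ≤ c / 2 ∧
        max S 0 + 1 ≤ (c₀ / (2 * Λ')) ^ t₀ * (c / 2) * (w ^ n / ((n : ℝ) + 1))) ∧
      ∀ n : ℕ, ∀ C' ≤ C, ∀ q : ℝ, η ^ n ≤ q →
        2 * ((d : ℝ) + 1) ^ (C' * (n + 1)) * (M * r ^ (Λ' * (n + 1) + 1)) ≤ c₀ * q := by
  set K : ℝ := ((d : ℝ) + 1) ^ C with hK
  set η : ℝ := (1 / (2 * ((d : ℝ) + 1) ^ L)) ^ (1 / t₀) with hη
  have hη0 : 0 < η := Real.rpow_pos_of_pos (by positivity) _
  have hdL : (1 : ℝ) ≤ ((d : ℝ) + 1) ^ L := one_le_pow₀ (by simp)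
  have hη1 : η ≤ 1 := Real.rpow_le_one (by positivity)
    ((div_le_one (by positivity)).2 (by linarith)) (by positivity)
  have hηt : η ^ t₀ = 1 / (2 * ((d : ℝ) + 1) ^ L) := by
    rw [hη, ← Real.rpow_mul (by positivity), one_div_mul_cancel ht0.ne', Real.rpow_one]
  set ε : ℝ := c₀ / (2 * M + 1) with hε
  have hε0 : 0 < ε := by positivity
  have hε1 : ε ≤ 1 := (div_le_one (by positivity)).2 (hc₀1.trans (by linarith))
  obtain ⟨Λ, hΛ⟩ := exists_pow_lt_of_lt_one (show 0 < η * ε / K by positivity) hr1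
  obtain ⟨Λ', hΛ', hΛ2⟩ : ∃ Λ', Λ ≤ Λ' ∧ 2 ≤ Λ' := ⟨Λ + 2, by omega, by omega⟩
  have hrK : r ^ Λ' * K ≤ η * ε := by
    have h1 : r ^ Λ' ≤ r ^ Λ := pow_le_pow_of_le_one hr0 hr1.le hΛ'
    rw [← le_div_iff₀ (by positivity)]
    exact h1.trans hΛ.le
  -- choose the depth
  obtain ⟨n₀, hn₀⟩ : ∃ n₀ : ℕ, ∀ n, n₀ ≤ n → (1 / 2 : ℝ) ^ n ≤ c / 2 ∧
      max S 0 + 1 ≤ (c₀ / (2 * Λ')) ^ t₀ * (c / 2) * (w ^ n / ((n : ℝ) + 1)) := by
    have h1 : ∀ᶠ n : ℕ in atTop, (1 / 2 : ℝ) ^ n ≤ c / 2 :=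
      (tendsto_pow_atTop_nhds_zero_of_lt_one (by norm_num) (by norm_num)).eventually
        (ge_mem_nhds (by positivity))
    set B : ℝ := (c₀ / (2 * Λ')) ^ t₀ * (c / 2) with hB
    have hB0 : 0 < B := by positivity
    have hlin := tendsto_pow_const_div_const_pow_of_one_lt 1 hw
    have hθ : (0 : ℝ) < B / (2 * (max S 0 + 1)) := by positivity
    have h2 : ∀ᶠ n : ℕ in atTop, max S 0 + 1 ≤ B * (w ^ n / ((n : ℝ) + 1)) := by
      filter_upwards [hlin.eventually (gt_mem_nhds hθ), eventually_ge_atTop 1] with n hn hn1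
      have hn1' : (1 : ℝ) ≤ n := by exact_mod_cast hn1
      rw [pow_one, div_lt_iff₀ (by positivity)] at hn
      rw [← mul_div_assoc, le_div_iff₀ (by positivity)]
      rw [div_mul_eq_mul_div, lt_div_iff₀ (by positivity)] at hn
      have h0 : 0 ≤ max S 0 := le_max_right _ _
      nlinarith
    exact eventually_atTop.1 (h1.and h2)
  refine ⟨η, Λ', n₀, hη0, hηt, hΛ2, hn₀, fun n C' hC' q hq => ?_⟩
  set Lt := Λ' * (n + 1) with hLt
  set tau : ℝ := M * r ^ (Lt + 1) with htau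
  have h0 : ((d : ℝ) + 1) ^ (C' * (n + 1)) ≤ K ^ (n + 1) := by
    rw [hK, ← pow_mul]
    exact pow_le_pow_right₀ (by simp) (Nat.mul_le_mul_right _ hC')
  have h1 : tau ≤ M * (r ^ Λ') ^ (n + 1) := by
    rw [htau, hLt, ← pow_mul]
    exact mul_le_mul_of_nonneg_left (pow_le_pow_of_le_one hr0 hr1.le (Nat.le_succ _)) hM
  have h2 : (r ^ Λ' * K) ^ (n + 1) ≤ η ^ n * ε := by
    refine (pow_le_pow_left₀ (by positivity) hrK _).trans ?_
    rw [mul_pow]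
    exact mul_le_mul (pow_le_pow_of_le_one hη0.le hη1 (Nat.le_succ n))
      (pow_le_of_le_one hε0.le hε1 (Nat.succ_ne_zero n)) (by positivity) (by positivity)
  have htau0 : 0 ≤ tau := by positivity
  have h3 : ((d : ℝ) + 1) ^ (C' * (n + 1)) * tau ≤ M * (η ^ n * ε) := by
    refine (mul_le_mul h0 h1 htau0 (by positivity)).trans ?_
    rw [mul_left_comm, ← mul_pow, mul_comm K]
    exact mul_le_mul_of_nonneg_left h2 hM
  have h4 : ε * (2 * M + 1) = c₀ := div_mul_cancel₀ _ (by positivity)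
  have h6 : 0 ≤ η ^ n * ε := by positivity
  nlinarith [mul_le_mul_of_nonneg_left hq hc₀0.le]

/-- A pushed copy of the root half-tree under two disjoint connected copies, for every type. -/
theorem exists_pushed {push : Γ} {π δ J D ρ Dc ℓc : ℕ} (hδ : 0 < δ)
    (hcone_pow : ∀ j : ℕ, cone T (push ^ j • Ac.f₀) ⊆ cone T Ac.f₀)
    (hpow : ∀ j : ℕ, T.dist Ac.f₀.2 (push ^ j • Ac.f₀).2 = j * δ) (hD : Dc ≤ D)
    (hconn : ∀ c : V × V, T.Adj c.1 c.2 → ∀ z ∈ Ac.coneW c, Dc ≤ T.dist c.2 (Ac.proj z) →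
      ∃ g g' : Γ, cone T (g • Ac.f₀) ⊆ cone T c ∧ cone T (g' • Ac.f₀) ⊆ cone T c ∧
        Disjoint (cone T (g • Ac.f₀)) (cone T (g' • Ac.f₀)) ∧
        ∀ h ∈ ({g, g'} : Set Γ), π < T.dist c.2 (h • Ac.f₀).2 ∧
          ∃ q : H.Walk z (h • Ac.r₀), q.length ≤ ℓc ∧ ∀ w ∈ q.support, w ∈ Ac.coneW c)
    (Wj : H.Walk Ac.r₀ (push ^ J • Ac.r₀)) (hWj : ∀ w ∈ Wj.support, Ac.proj w ∈ near T π Ac.f₀)
    (hJ : J = D + ρ + π + Ac.R + 1) {types : Finset (W × (V × V))} (hty : Ac.IsTypes D types) :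
    ∀ σ ∈ types, ∃ g g' : Γ,
      Disjoint (cone T (g • Ac.f₀)) (cone T (g' • Ac.f₀)) ∧
      ∀ h ∈ ({g, g'} : Set Γ), cone T (h • Ac.f₀) ⊆ cone T σ.2 ∧
        D + ρ + π + Ac.R < T.dist σ.2.2 ((h * push ^ J) • Ac.f₀).2 ∧
        ∃ P : H.Walk σ.1 ((h * push ^ J) • Ac.r₀), ∀ x ∈ P.support, x ∈ Ac.core D σ.2 := by
  have hT := Ac.isTree
  intro σ hσ
  obtain ⟨-, hσadj, hσent⟩ := hty.1 σ hσ
  obtain ⟨hσc, z, hz, hzr⟩ := hσent.1
  obtain ⟨q₁⟩ := hzr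
  have hq₁ : ∀ x ∈ (q₁.mapLe inf_le_left).support, x ∈ Ac.coneW σ.2 := by
    intro x hx
    rw [SimpleGraph.Walk.support_mapLe_eq_support] at hx
    rcases SimpleGraph.Walk.mem_support_iff_exists_mem_edges.1 hx with rfl | ⟨e, he, hxe⟩
    · by_cases hn : q₁.Nil
      · obtain rfl := hn.eq; exact hσc
      · have := q₁.edges_subset_edgeSet (q₁.mk_penultimate_end_mem_edges hn)
        rw [SimpleGraph.edgeSet_inf, SimpleGraph.edgeSet_fromEdgeSet] at this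
        exact this.2.1 x (Sym2.mem_mk_right _ _)
    · have := q₁.edges_subset_edgeSet he
      rw [SimpleGraph.edgeSet_inf, SimpleGraph.edgeSet_fromEdgeSet] at this
      exact this.2.1 x hxe
  have hzc : z ∈ Ac.coneW σ.2 := hq₁ z (q₁.mapLe inf_le_left).end_mem_support
  obtain ⟨g, g', hg, hg', hgg', hboth⟩ := hconn σ.2 hσadj z hzc (hD.trans hz)
  refine ⟨g, g', hgg', fun h hh => ?_⟩
  have hhc : cone T (h • Ac.f₀) ⊆ cone T σ.2 := by
    rcases hh with rfl | rfl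
    exacts [hg, hg']
  obtain ⟨hdist, q₂, -, hq₂⟩ := hboth h hh
  have hadj : ∀ x : Γ, T.Adj (x • Ac.f₀).1 (x • Ac.f₀).2 := fun x =>
    (Ac.tree_smul x _ _).2 Ac.f₀_adj
  have hJd : D + ρ + π + Ac.R < T.dist σ.2.2 ((h * push ^ J) • Ac.f₀).2 := by
    have hsub : cone T ((h * push ^ J) • Ac.f₀) ⊆ cone T (h • Ac.f₀) := by
      rw [mul_smul]; exact (Ac.cone_smul_subset h _ Ac.f₀).2 (hcone_pow J)
    rw [depth_add hT (hadj _) (hadj h) hσadj hsub hhc]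
    have : T.dist (h • Ac.f₀).2 ((h * push ^ J) • Ac.f₀).2 = J * δ := by
      rw [show ((h * push ^ J) • Ac.f₀).2 = h • (push ^ J • Ac.f₀).2 by rw [mul_smul]; rfl,
        show (h • Ac.f₀).2 = h • Ac.f₀.2 from rfl, Ac.dist_smul, hpow J]
    rw [this]
    have := Nat.le_mul_of_pos_right J hδ
    omega
  let q₃ : H.Walk (h • Ac.r₀) ((h * push ^ J) • Ac.r₀) :=
    (Wj.map (Ac.actW h).toHom).copy rfl (mul_smul _ _ _).symm
  refine ⟨hhc, hJd, ((q₁.mapLe inf_le_left).append q₂).append q₃, Ac.core_of_walk _ ?_ ?_⟩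
  · intro x hx
    rcases (SimpleGraph.Walk.mem_support_append_iff _ _).1 hx with hx | hx
    · rcases (SimpleGraph.Walk.mem_support_append_iff _ _).1 hx with hx | hx
      exacts [hq₁ x hx, hq₂ x hx]
    · have hx' : x ∈ Wj.support.map (fun u => h • u) := by
        simp only [q₃] at hx
        erw [SimpleGraph.Walk.support_copy, SimpleGraph.Walk.support_map] at hx
        exact hx
      obtain ⟨u, hu, rfl⟩ := List.mem_map.1 hx'
      exact (mem_cone_of_near hT (hadj h) hσadj hhc hdist.le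
        (Ac.proj_walk_smul h (hWj u hu))).1
  · have e : Ac.proj ((h * push ^ J) • Ac.r₀) = ((h * push ^ J) • Ac.f₀).2 := by
      rw [Ac.proj_smul, Ac.proj_rep _ Ac.r₀_mem]; rfl
    refine Ac.mem_core_of_deep ?_ (by rw [e]; omega)
    show Ac.proj ((h * push ^ J) • Ac.r₀) ∈ cone T σ.2
    rw [e]
    refine hhc ?_
    rw [mul_smul]
    exact (Ac.cone_smul_subset h _ Ac.f₀).2 (hcone_pow J)
      (self_mem_cone ((Ac.tree_smul h _ _).2 ((Ac.tree_smul _ _ _).2 Ac.f₀_adj)))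

/-- For every target there is a parameter below the threshold with two blocks from every type,
under disjoint half-trees. -/
theorem exists_hops (hH : H.Connected) : ∃ D₀ : ℕ, ∀ D, D₀ ≤ D → ∀ types, Ac.IsTypes D types →
    ∀ t₀, 0 < t₀ → t₀ ≤ 1 → Ac.Good (pc H) t₀ → ∀ S : ℝ,
      ∃ p, 0 < p ∧ p < pc H ∧ ∀ σ ∈ types, ∃ h h' : Ac.Hop D p σ types,
        Disjoint (cone T h.sub) (cone T h'.sub) ∧
        S ≤ ∑ e ∈ h.A, h.g e ^ t₀ ∧ S ≤ ∑ e ∈ h'.A, h'.g e ^ t₀ := by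
  classical
  obtain ⟨hpc, hpc1⟩ := Ac.pc_pos_lt_one hH
  obtain ⟨push, π, hpush, hδ, hpow, hwalk⟩ := Ac.exists_push hH
  obtain ⟨Dc, ℓc, hDπ, hDR, hconn⟩ := Ac.exists_connect hH π
  refine ⟨Dc, fun D hD types hty t₀ ht0 ht1 hG S => ?_⟩
  have hT := Ac.isTree
  obtain ⟨p, A, hp0, hpc', hA, hdisj, hcode⟩ := Ac.exists_code_below hH hpc hpc1.le ht0 hG
  obtain ⟨ρ, L, -, -, hbig⟩ := hcode 0 0
  have hp1 : p ≤ 1 := hpc'.le.trans hpc1.le
  obtain ⟨c, w, hc, hw, hgrow⟩ := Ac.exists_growth hp0.le hp1 ht0 ht1 A hA hdisj hbig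
  obtain ⟨d, hd⟩ := Ac.degree_bound
  obtain ⟨M, r, hM, hr0, hr1, htail⟩ :=
    exists_cluster_tail hH Ac.quasiTransitive hp0.le hpc'
  -- the fixed parts
  set δ := T.dist Ac.f₀.2 (push • Ac.f₀).2 with hδdef
  obtain ⟨W₀, hW₀len, hW₀⟩ := hwalk D
  have hcone_pow : ∀ j : ℕ, cone T (push ^ j • Ac.f₀) ⊆ cone T Ac.f₀ := by
    intro j
    induction j with
    | zero => simp
    | succ j ih =>
      rw [pow_succ, mul_smul]
      exact ((Ac.cone_smul_subset (push ^ j) _ Ac.f₀).2 hpush).trans ih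
  have hzf : Ac.proj (push ^ D • Ac.r₀) ∈ cone T Ac.f₀ ∧
      D ≤ T.dist Ac.f₀.2 (Ac.proj (push ^ D • Ac.r₀)) := by
    have e : Ac.proj (push ^ D • Ac.r₀) = (push ^ D • Ac.f₀).2 := by
      rw [Ac.proj_smul, Ac.proj_rep _ Ac.r₀_mem]; rfl
    rw [e, hpow D]
    exact ⟨hcone_pow D (self_mem_cone ((Ac.tree_smul _ _ _).2 Ac.f₀_adj)),
      Nat.le_mul_of_pos_right D hδ⟩
  set J := D + ρ + π + Ac.R + 1 with hJ
  obtain ⟨Wj, hWjlen, hWj⟩ := hwalk J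
  -- the pushed copies for every type
  choose g g' hgg' hpush' using Ac.exists_pushed (ρ := ρ) hδ hcone_pow hpow hD hconn Wj hWj hJ hty
  choose hhc hdeep Pw hPw using hpush'
  -- one bound on the lengths
  obtain ⟨ℓ, hℓ⟩ : ∃ ℓ : ℕ, ∀ σ (hσ : σ ∈ types) h (hh : h ∈ ({g σ hσ, g' σ hσ} : Set Γ)),
      (Pw σ hσ h hh).length ≤ ℓ := by
    refine ⟨types.attach.sup fun σ => (Pw σ.1 σ.2 (g σ.1 σ.2) (.inl rfl)).length +
      (Pw σ.1 σ.2 (g' σ.1 σ.2) (.inr rfl)).length, fun σ hσ h hh => ?_⟩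
    refine le_trans ?_ (le_sup (f := fun σ : {x // x ∈ types} =>
      (Pw σ.1 σ.2 (g σ.1 σ.2) (.inl rfl)).length + (Pw σ.1 σ.2 (g' σ.1 σ.2) (.inr rfl)).length)
      (mem_attach _ ⟨σ, hσ⟩))
    rcases hh with hh' | hh' <;> subst hh'
    exacts [Nat.le_add_right _ _, Nat.le_add_left _ _]
  rcases types.eq_empty_or_nonempty with rfl | htne
  · exact ⟨p, hp0, hpc', fun σ hσ => absurd hσ (notMem_empty σ)⟩
  set E := ℓ + W₀.length with hE
  set C := E + L with hC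
  set c₀ : ℝ := p ^ E / types.card with hc₀
  have htc : (1 : ℝ) ≤ types.card := by exact_mod_cast card_pos.2 htne
  have hc₀0 : 0 < c₀ := by positivity
  have hc₀1 : c₀ ≤ 1 := (div_le_one (by positivity)).2 ((pow_le_one₀ hp0.le hp1).trans htc)
  obtain ⟨η, Λ', n₀, hη0, hηt, hΛ2, hn₀, hscale⟩ :=
    exists_scale d C L hc₀0 hc₀1 hM hr0 hr1 hc hw ht0 S
  obtain ⟨n, hn, hgn⟩ := hgrow n₀
  obtain ⟨hhalf, hS⟩ := hn₀ n hn
  set F := (Ac.tubeSet_finite L n).toFinset.filter fun e =>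
    η ^ n ≤ (Ac.tubeQ p ρ L n e).toReal with hF
  have hFsum : c / 2 * w ^ n ≤ ∑ e ∈ F, (Ac.tubeQ p ρ L n e).toReal ^ t₀ := by
    have hsplit := sum_filter_add_sum_filter_not (Ac.tubeSet_finite L n).toFinset
      (fun e => η ^ n ≤ (Ac.tubeQ p ρ L n e).toReal) (fun e => (Ac.tubeQ p ρ L n e).toReal ^ t₀)
    have hsmall : ∑ e ∈ (Ac.tubeSet_finite L n).toFinset.filter
        (fun e => ¬ η ^ n ≤ (Ac.tubeQ p ρ L n e).toReal), (Ac.tubeQ p ρ L n e).toReal ^ t₀ ≤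
          c / 2 := by
      refine (sum_le_card_nsmul _ _ ((η ^ n) ^ t₀) fun e he => Real.rpow_le_rpow
        ENNReal.toReal_nonneg (le_of_not_ge (mem_filter.1 he).2) ht0.le).trans ?_
      rw [nsmul_eq_mul, ← Real.rpow_natCast η n, ← Real.rpow_mul hη0.le, mul_comm (n : ℝ),
        Real.rpow_mul hη0.le, hηt, Real.rpow_natCast]
      refine le_trans (mul_le_mul_of_nonneg_right (Nat.cast_le.2 ((card_filter_le _ _).trans
        (Ac.tubeSet_card hd L n))) (by positivity)) ?_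
      push_cast
      refine le_trans (le_of_eq ?_) hhalf
      rw [pow_mul, Real.rpow_natCast, ← mul_pow]
      congr 1
      field_simp
    have hwn : (1 : ℝ) ≤ w ^ n := one_le_pow₀ hw.le
    rw [hF]
    nlinarith
  set Lt := Λ' * (n + 1) with hLt
  set tau : ℝ := M * r ^ (Lt + 1) with htau
  set κ : V × V → ℝ := fun e => c₀ * (Ac.tubeQ p ρ L n e).toReal with hκ
  have hκ0 : ∀ e ∈ F, 0 < κ e := fun e he =>
    mul_pos hc₀0 (lt_of_lt_of_le (pow_pos hη0 n) (mem_filter.1 he).2)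
  have hκt : ∀ C' ≤ C, ∀ e ∈ F, 2 * ((d : ℝ) + 1) ^ (C' * (n + 1)) * tau ≤ κ e :=
    fun C' hC' e he => hscale n C' hC' _ (mem_filter.1 he).2
  have htail' : ∀ x, prob H p (manyIn Set.univ x Set.univ (Lt + 1)) ≤ ENNReal.ofReal tau :=
    fun x => htail x (Lt + 1)
  refine ⟨p, hp0, hpc', fun σ hσ => ?_⟩
  have hone : ∀ h (hh : h ∈ ({g σ hσ, g' σ hσ} : Set Γ)), ∃ hop : Ac.Hop D p σ types,
      hop.sub = h • Ac.f₀ ∧ S ≤ ∑ e ∈ hop.A, hop.g e ^ t₀ := by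
    intro h hh
    have hadj : T.Adj (h • Ac.f₀).1 (h • Ac.f₀).2 := (Ac.tree_smul h _ _).2 Ac.f₀_adj
    have hγ : cone T ((h * push ^ J) • Ac.f₀) ⊆ cone T (h • Ac.f₀) := by
      rw [mul_smul]; exact (Ac.cone_smul_subset h _ Ac.f₀).2 (hcone_pow J)
    have hlen : (Pw σ hσ h hh).length + W₀.length ≤ E := Nat.add_le_add_right (hℓ σ hσ h hh) _
    have hκq : ∀ e ∈ F, κ e * types.card ≤
        p ^ ((Pw σ hσ h hh).length + W₀.length) * (Ac.tubeQ p ρ L n e).toReal := fun e _ => by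
      simp only [hκ, hc₀]
      rw [div_mul_eq_mul_div, div_mul_cancel₀ _ (by positivity)]
      exact mul_le_mul_of_nonneg_right (pow_le_pow_of_le_one hp0.le hp1 hlen) ENNReal.toReal_nonneg
    obtain ⟨hop, hsub, hsum⟩ := Ac.exists_block hp0 hp1 hty hσ hadj (hhc σ hσ h hh) _ hγ
      (Pw σ hσ h hh) (hPw σ hσ h hh) (hdeep σ hσ h hh) W₀ hW₀ hzf.1 hzf.2 hd (L := L) (n := n)
      (F := F) (fun e he => (Ac.tubeSet_finite L n).mem_toFinset.1 (mem_filter.1 he).1)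
      (Lt := Lt) (by rw [hLt]; nlinarith) (tau := tau) (by positivity) htail' κ hκ0
      hκq (hκt _ (by rw [hC]; omega))
    refine ⟨hop, hsub, ?_⟩
    rw [← hsum t₀]
    have heq : ∀ e ∈ F, (κ e / (2 * Lt)) ^ t₀ =
        (c₀ / (2 * Lt)) ^ t₀ * (Ac.tubeQ p ρ L n e).toReal ^ t₀ := fun e _ => by
      rw [← Real.mul_rpow (by positivity) ENNReal.toReal_nonneg]
      simp only [hκ]
      ring_nf
    rw [sum_congr rfl heq, ← mul_sum]
    refine le_trans ?_ (mul_le_mul_of_nonneg_left hFsum (by positivity))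
    refine le_trans ((le_max_left S 0).trans (le_add_of_nonneg_right zero_le_one)) (hS.trans ?_)
    have h1 : (c₀ / (2 * Λ')) ^ t₀ * (1 / ((n : ℝ) + 1)) ≤ (c₀ / (2 * Lt)) ^ t₀ := by
      rw [show c₀ / (2 * (Lt : ℝ)) = c₀ / (2 * Λ') * (1 / ((n : ℝ) + 1)) by
        rw [hLt]; push_cast; field_simp, Real.mul_rpow (by positivity) (by positivity)]
      refine mul_le_mul_of_nonneg_left ?_ (by positivity)
      exact Real.self_le_rpow_of_le_one (by positivity)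
        ((div_le_one (by positivity)).2 (by simp)) ht1
    calc (c₀ / (2 * Λ')) ^ t₀ * (c / 2) * (w ^ n / ((n : ℝ) + 1))
        = (c₀ / (2 * Λ')) ^ t₀ * (1 / ((n : ℝ) + 1)) * (c / 2 * w ^ n) := by ring
      _ ≤ _ := mul_le_mul_of_nonneg_right h1 (by positivity)
  obtain ⟨hop, hsub, hS1⟩ := hone _ (.inl rfl)
  obtain ⟨hop', hsub', hS2⟩ := hone _ (.inr rfl)
  exact ⟨hop, hop', by rw [hsub, hsub']; exact hgg' σ hσ, hS1, hS2⟩

end Vale.Agent.P165.Tree.Act
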