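import Vale.Agent.P165.Tree.Basic
import Vale.Agent.P165.Tree.Wkn
import Vale.Agent.P165.Quot.Continue

/-!
Finite regions along the tree below the base half-tree in which a code above one keeps
exponentially growing sums of powers.
-/

open Finset
open scoped ENNReal

namespace Vale.Agent.P165.Tree

open Vale.Agent.P165.Quot

lemma exists_of_ball {W : Type*} [DecidableEq W] {H : SimpleGraph W} [H.LocallyFinite] {v x : W}
    {n : ℕ} (h : x ∈ ball H v n) : ∃ q : H.Walk x v, q.length ≤ n := by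
  induction n generalizing x with
  | zero =>
    obtain rfl : x = v := by simpa [ball] using h
    exact ⟨.nil, le_rfl⟩
  | succ n ih =>
    rcases mem_union.1 h with h | h
    · obtain ⟨q, hq⟩ := ih h
      exact ⟨q, hq.trans (Nat.le_succ n)⟩
    · obtain ⟨a, ha, hxa⟩ := mem_biUnion.1 h
      obtain ⟨q, hq⟩ := ih ha
      exact ⟨.cons (by simpa using hxa : H.Adj a x).symm q, by simpa using hq⟩

/-- A sequence beating a convex combination of its earlier terms is not small along the way. -/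
lemma exists_large_term {ι : Type*} (s : Finset ι) (a : ι → ℝ) (d : ι → ℕ) {D : ℕ} (hD : 0 < D)
    (ha : ∀ i ∈ s, 0 ≤ a i) (hsum : 1 ≤ ∑ i ∈ s, a i) (hd : ∀ i ∈ s, 0 < d i ∧ d i ≤ D)
    (y : ℕ → ℝ) (hy : ∀ n, 0 ≤ y n) (h0 : 1 ≤ y 0)
    (hrec : ∀ n, 0 < n → ∑ i ∈ s, (if d i ≤ n then a i * y (n - d i) else 0) ≤ y n) (M : ℕ) :
    ∃ n, M ≤ n ∧ 1 / (4 * (D : ℝ)) ≤ y n := by
  set S : ℕ → ℝ := fun N => ∑ n ∈ range N, y n with hS
  have hmono : Monotone S := fun a b hab =>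
    sum_le_sum_of_subset_of_nonneg (range_subset_range.2 hab) fun n _ _ => hy n
  have hSnn : ∀ N, 0 ≤ S N := fun N => sum_nonneg fun n _ => hy n
  have hstep : ∀ N, 1 + S N ≤ S (N + D) := by
    intro N
    have h1 : ∑ n ∈ range (N + D), (if n = 0 then 1 else
        ∑ i ∈ s, (if d i ≤ n then a i * y (n - d i) else 0)) ≤ S (N + D) :=
      sum_le_sum fun n _ => by
        split_ifs with h
        · subst h; exact h0
        · exact hrec n (Nat.pos_of_ne_zero h)
    refine le_trans ?_ h1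
    obtain ⟨m, hm⟩ : ∃ m, N + D = m + 1 := ⟨N + D - 1, by omega⟩
    rw [hm, sum_range_succ']
    simp only [Nat.succ_ne_zero, if_false, if_true]
    rw [add_comm (1 : ℝ), sum_comm]
    gcongr
    calc S N ≤ ∑ i ∈ s, a i * S N := by rw [← sum_mul]; exact le_mul_of_one_le_left (hSnn N) hsum
      _ ≤ ∑ i ∈ s, ∑ n ∈ range m, (if d i ≤ n + 1 then a i * y (n + 1 - d i) else 0) := by
        refine sum_le_sum fun i hi => ?_
        obtain ⟨hd1, hd2⟩ := hd i hi
        rw [hS, mul_sum]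
        refine le_trans (le_of_eq ?_) (sum_le_sum_of_subset_of_nonneg
          (s := (range N).map ⟨fun j => j + (d i - 1), fun a b h => by simpa using h⟩)
          (fun n hn => ?_) fun n _ _ => ?_)
        · rw [sum_map]
          refine sum_congr rfl fun j _ => ?_
          change _ = if d i ≤ j + (d i - 1) + 1 then a i * y (j + (d i - 1) + 1 - d i) else 0
          rw [if_pos (by omega), show j + (d i - 1) + 1 - d i = j by omega]
        · obtain ⟨j, hj, rfl⟩ := mem_map.1 hn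
          have := mem_range.1 hj
          refine mem_range.2 ?_
          change j + (d i - 1) < m
          omega
        · split_ifs
          exacts [mul_nonneg (ha i hi) (hy _), le_rfl]
  have hlin : ∀ j : ℕ, (j : ℝ) ≤ S (j * D) := by
    intro j
    induction j with
    | zero => simpa using hSnn 0
    | succ j ih => rw [Nat.succ_mul, Nat.cast_succ]; linarith [hstep (j * D)]
  by_contra hno
  push Not at hno
  obtain ⟨j, hj⟩ := exists_nat_gt (2 * S M)
  have hc : (0 : ℝ) < 1 / (4 * (D : ℝ)) := by positivity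
  have hsplit : S (j * D) ≤ S M + (j * D : ℕ) * (1 / (4 * (D : ℝ))) := by
    have h := sum_filter_add_sum_filter_not (range (j * D)) (fun n => n < M) y
    rw [hS]
    simp only
    rw [← h]
    refine add_le_add (sum_le_sum_of_subset_of_nonneg (fun n hn => ?_) fun n _ _ => hy n)
      ((sum_le_card_nsmul _ _ _ fun n hn => (hno n (not_lt.1 (mem_filter.1 hn).2)).le).trans ?_)
    · simp only [mem_filter, mem_range] at hn ⊢
      exact hn.2
    · rw [nsmul_eq_mul]
      refine mul_le_mul_of_nonneg_right ?_ hc.le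
      exact_mod_cast (card_filter_le _ _).trans (card_range _).le
  have he : ((j * D : ℕ) : ℝ) * (1 / (4 * (D : ℝ))) = j / 4 := by
    have : (D : ℝ) ≠ 0 := by positivity
    push_cast
    field_simp
  rw [he] at hsplit
  linarith [hlin j, hSnn M]

namespace Act

variable {W V Γ : Type*} [Group Γ] [MulAction Γ W] [MulAction Γ V] {H : SimpleGraph W}
  [DecidableEq W] [H.LocallyFinite] {T : SimpleGraph V} (Ac : Act (Γ := Γ) H T)

/-- Translated balls compose. -/
lemma smul_mem_ball {g : Γ} {x : W} {a b : ℕ} (hx : x ∈ ball H Ac.r₀ a)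
    (hg : g • Ac.r₀ ∈ ball H Ac.r₀ b) : g • x ∈ ball H Ac.r₀ (a + b) := by
  obtain ⟨q₁, hq₁⟩ := exists_of_ball hx
  obtain ⟨q₂, hq₂⟩ := exists_of_ball hg
  let q : H.Walk (g • x) (g • Ac.r₀) := q₁.map (Ac.actW g).toHom
  refine mem_ball_of_walk (q.append q₂) ?_
  rw [SimpleGraph.Walk.length_append]
  exact add_le_add ((SimpleGraph.Walk.length_map _ _).trans_le hq₁) hq₂

/-- The region used at depth `n`. -/
def tubeE (ρ L n : ℕ) : Set (Sym2 W) :=
  inside (Ac.proj ⁻¹' {v | v ∈ near T ρ Ac.f₀ ∧ T.dist Ac.f₀.2 v ≤ n + ρ} ∩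
    ↑(ball H Ac.r₀ (L * n)))

/-- The points of the standard class of `e` which are near enough. -/
def tubeT (L n : ℕ) (e : V × V) : Set W := Ac.cls e ∩ ↑(ball H Ac.r₀ (L * n))

/-- The probability of meeting the standard class of `e` inside the region at depth `n`. -/
noncomputable def tubeQ (p : ℝ) (ρ L n : ℕ) (e : V × V) : ℝ≥0∞ :=
  prob H p (connTo (Ac.tubeE ρ L n) Ac.r₀ (Ac.tubeT L n e))

/-- The half-trees at depth `n` below the base one with near enough points in their class. -/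
def tubeSet (L n : ℕ) : Set (V × V) :=
  {e | T.Adj e.1 e.2 ∧ cone T e ⊆ cone T Ac.f₀ ∧ T.dist Ac.f₀.2 e.2 = n ∧
    (Ac.tubeT L n e).Nonempty}

lemma tubeSet_finite (L n : ℕ) : (Ac.tubeSet L n).Finite := by
  refine ((ball H Ac.r₀ (L * n)).finite_toSet.biUnion (t := fun x => {e | x ∈ Ac.cls e})
    fun x _ => ?_).subset fun e he => ?_
  · exact Set.Subsingleton.finite fun e he e' he' => Ac.cls_unique he he'
  · obtain ⟨x, hx, hxb⟩ := he.2.2.2
    exact Set.mem_biUnion hxb hx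

lemma tubeSet_card {d : ℕ} (hd : ∀ x, (H.neighborFinset x).card ≤ d) (L n : ℕ) :
    (Ac.tubeSet_finite L n).toFinset.card ≤ (d + 1) ^ (L * n) := by
  classical
  let f : V × V → W := fun e => if h : (Ac.tubeT L n e).Nonempty then h.choose else Ac.r₀
  have hf : ∀ e ∈ (Ac.tubeSet_finite L n).toFinset, f e ∈ Ac.tubeT L n e := fun e he => by
    have h := ((Ac.tubeSet_finite L n).mem_toFinset.1 he).2.2.2
    simp only [f, dif_pos h]
    exact h.choose_spec
  refine le_trans (card_le_card_of_injOn f (fun e he => (hf e he).2) fun e he e' he' h => ?_)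
    (card_ball_le hd _ _)
  exact Ac.cls_unique (hf e he).1 (h ▸ (hf e' he').1)

lemma tubeQ_le_one {p : ℝ} (h0 : 0 ≤ p) (h1 : p ≤ 1) (ρ L n : ℕ) (e : V × V) :
    Ac.tubeQ p ρ L n e ≤ 1 := prob_le_one h0 h1 _

/-- Translating a region at depth `m` by a point of a class at depth `d`. -/
lemma translate_tubeQ_le {p : ℝ} (h0 : 0 ≤ p) (h1 : p ≤ 1) {ρ L d m : ℕ} {g : Γ} {b e : V × V}
    (hb : T.Adj b.1 b.2) (hbf : cone T b ⊆ cone T Ac.f₀) (hbd : T.dist Ac.f₀.2 b.2 = d)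
    (hg : g • Ac.f₀ = b) (hball : g • Ac.r₀ ∈ ball H Ac.r₀ (L * d)) :
    Ac.tubeQ p ρ L m e ≤
      prob H p (connTo (Ac.tubeE ρ L (d + m)) (g • Ac.r₀) (Ac.tubeT L (d + m) (g • e))) := by
  have hf := Ac.f₀_adj
  have hbg : g • Ac.f₀.2 = b.2 := by rw [← hg]; rfl
  have hB : ∀ x : W, x ∈ ball H Ac.r₀ (L * m) → g • x ∈ ball H Ac.r₀ (L * (d + m)) := fun x hx => by
    have := Ac.smul_mem_ball hx hball
    rwa [← Nat.mul_add, Nat.add_comm] at this
  refine le_trans (le_of_eq ?_) (prob_connTo_mono h0 h1 (E := Sym2.map (Ac.actW g) '' Ac.tubeE ρ L m)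
    (T := Ac.actW g '' Ac.tubeT L m e) ?_ ?_ _)
  · exact (prob_connTo_iso (Ac.actW g) _ _ _).symm
  · rintro _ ⟨s, hs, rfl⟩ x hx
    obtain ⟨y, hy, rfl⟩ := Sym2.mem_map.1 hx
    obtain ⟨⟨hy1, hy2⟩, hy3⟩ := hs y hy
    refine ⟨⟨?_, ?_⟩, hB y hy3⟩
    · obtain ⟨w, hw, hwd⟩ := hy1
      refine ⟨g • w, hbf (hg ▸ (Ac.mem_cone_smul g _ _).2 hw), ?_⟩
      rw [show Ac.proj (Ac.actW g y) = g • Ac.proj y from Ac.proj_smul g y, Ac.dist_smul]
      exact hwd
    · rw [show Ac.proj (Ac.actW g y) = g • Ac.proj y from Ac.proj_smul g y]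
      refine le_trans (Ac.isTree.connected.dist_triangle (v := b.2)) ?_
      rw [hbd, ← hbg, Ac.dist_smul]
      omega
  · rintro _ ⟨x, ⟨hx1, hx2⟩, rfl⟩
    refine ⟨?_, hB x hx2⟩
    rw [← Ac.smul_cls]
    exact ⟨x, hx1, rfl⟩

/-- The sums of powers at every depth beat the code convolution. -/
lemma tube_rec {p : ℝ} (h0 : 0 ≤ p) (h1 : p ≤ 1) {t : ℝ} (ht0 : 0 < t) (ht1 : t ≤ 1) {ρ L n : ℕ}
    (A : Finset (V × V)) (hA : ∀ b ∈ A, T.Adj b.1 b.2 ∧ cone T b ⊆ cone T Ac.f₀)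
    (hdisj : ∀ b ∈ A, ∀ b' ∈ A, b ≠ b' → Disjoint (cone T b) (cone T b')) :
    ∑ b ∈ A, (if T.dist Ac.f₀.2 b.2 ≤ n then Ac.tubeQ p ρ L (T.dist Ac.f₀.2 b.2) b ^ t *
        ∑ e ∈ (Ac.tubeSet_finite L (n - T.dist Ac.f₀.2 b.2)).toFinset,
          Ac.tubeQ p ρ L (n - T.dist Ac.f₀.2 b.2) e ^ t else 0) ≤
      ∑ e ∈ (Ac.tubeSet_finite L n).toFinset, Ac.tubeQ p ρ L n e ^ t := by
  classical
  have hT := Ac.isTree
  have hf := Ac.f₀_adj
  have hne : ∀ {e : V × V}, T.Adj e.1 e.2 → (cone T e).Nonempty := fun he => ⟨_, self_mem_cone he⟩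
  let S : V × V → Finset (V × V) := fun b =>
    (Ac.tubeSet_finite L n).toFinset.filter fun e => cone T e ⊆ cone T b
  calc ∑ b ∈ A, _ ≤ ∑ b ∈ A, ∑ e ∈ S b, Ac.tubeQ p ρ L n e ^ t := sum_le_sum fun b hb => ?_
    _ = ∑ e ∈ A.biUnion S, Ac.tubeQ p ρ L n e ^ t := by
        refine (sum_biUnion fun b hb b' hb' hbb => disjoint_left.2 fun e he he' => ?_).symm
        obtain ⟨v, hv⟩ := hne ((Ac.tubeSet_finite L n).mem_toFinset.1 (mem_filter.1 he).1).1
        exact Set.disjoint_left.1 (hdisj b hb b' hb' hbb) ((mem_filter.1 he).2 hv)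
          ((mem_filter.1 he').2 hv)
    _ ≤ _ := sum_le_sum_of_subset_of_nonneg
        (biUnion_subset.2 fun b _ => filter_subset _ _) fun _ _ _ => zero_le
  split_ifs with hdn
  swap
  · exact zero_le
  obtain ⟨hb1, hb2⟩ := hA b hb
  set d := T.dist Ac.f₀.2 b.2 with hd
  set m := n - d with hm
  have hnm : d + m = n := by omega
  -- the region at depth `d` sits inside the one at depth `n`
  have hsub : Ac.tubeE ρ L d ⊆ Ac.tubeE ρ L n := fun s hs x hx => by
    obtain ⟨⟨h1, h2⟩, h3⟩ := hs x hx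
    refine ⟨⟨h1, le_trans h2 (by omega)⟩, ?_⟩
    obtain ⟨q, hq⟩ := exists_of_ball h3
    exact mem_ball_of_walk q (hq.trans (Nat.mul_le_mul_left _ (by omega)))
  refine le_trans ?_ ((prob_rpow_mul_le_tsum (H := H) h0 h1 ht0 ht1 (Ac.tubeE ρ L n) Ac.r₀ (Ac.tubeT L d b)
    (fun e : {e // e ∈ S b} => Ac.tubeT L n e) (c := ∑ e ∈ (Ac.tubeSet_finite L m).toFinset,
      Ac.tubeQ p ρ L m e ^ t) ?_).trans (le_of_eq ?_))
  · exact mul_le_mul_left (ENNReal.rpow_le_rpow (prob_connTo_mono h0 h1 hsub subset_rfl _) ht0.le) _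
  · intro u hu
    obtain ⟨⟨g, hg, rfl⟩, hball⟩ := hu
    let φ : V × V → V × V := fun e => g • e
    have hφ : ∀ e ∈ (Ac.tubeSet_finite L m).toFinset, φ e ∈ S b := fun e he => by
      obtain ⟨e1, e2, e3, x, hx1, hx2⟩ := (Ac.tubeSet_finite L m).mem_toFinset.1 he
      have hadj : T.Adj (φ e).1 (φ e).2 := (Ac.tree_smul g _ _).2 e1
      have hle : cone T (φ e) ⊆ cone T b := hg ▸ (Ac.cone_smul_subset g e Ac.f₀).2 e2
      refine mem_filter.2 ⟨(Ac.tubeSet_finite L n).mem_toFinset.2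
        ⟨hadj, hle.trans hb2, ?_, g • x, ?_, ?_⟩, hle⟩
      · rw [depth_add hT hadj hb1 hf hle hb2, ← hd,
          show T.dist b.2 (φ e).2 = T.dist (g • Ac.f₀.2) (g • e.2) by rw [← hg]; rfl,
          Ac.dist_smul, e3, hnm]
      · rw [← Ac.smul_cls]; exact ⟨x, hx1, rfl⟩
      · have := Ac.smul_mem_ball hx2 hball
        rwa [← Nat.mul_add, Nat.add_comm, hnm] at this
    have hinj : Set.InjOn φ ↑(Ac.tubeSet_finite L m).toFinset := fun a _ a' _ h => smul_left_cancel g h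
    calc ∑ e ∈ (Ac.tubeSet_finite L m).toFinset, Ac.tubeQ p ρ L m e ^ t
        ≤ ∑ e ∈ (Ac.tubeSet_finite L m).toFinset,
            prob H p (connTo (Ac.tubeE ρ L n) (g • Ac.r₀) (Ac.tubeT L n (φ e))) ^ t :=
          sum_le_sum fun e _ => ENNReal.rpow_le_rpow (by
            rw [← hnm]
            exact Ac.translate_tubeQ_le h0 h1 hb1 hb2 hd.symm hg hball) ht0.le
      _ = ∑ e ∈ (Ac.tubeSet_finite L m).toFinset.image φ,
            prob H p (connTo (Ac.tubeE ρ L n) (g • Ac.r₀) (Ac.tubeT L n e)) ^ t :=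
          (sum_image (f := fun e => prob H p
            (connTo (Ac.tubeE ρ L n) (g • Ac.r₀) (Ac.tubeT L n e)) ^ t) hinj).symm
      _ ≤ ∑ e ∈ S b, prob H p (connTo (Ac.tubeE ρ L n) (g • Ac.r₀) (Ac.tubeT L n e)) ^ t :=
          sum_le_sum_of_subset (image_subset_iff.2 hφ)
      _ = ∑' e : {e // e ∈ S b},
            prob H p (connTo (Ac.tubeE ρ L n) (g • Ac.r₀) (Ac.tubeT L n e)) ^ t := by
          rw [tsum_fintype]
          exact (sum_coe_sort (S b) (fun e => prob H p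
            (connTo (Ac.tubeE ρ L n) (g • Ac.r₀) (Ac.tubeT L n e)) ^ t)).symm
  · rw [tsum_fintype]
    exact sum_coe_sort (S b) (fun e => Ac.tubeQ p ρ L n e ^ t)

/-- At depth zero there is the base class. -/
lemma one_le_tube_zero {p : ℝ} (h0 : 0 ≤ p) (h1 : p ≤ 1) {t : ℝ} (ρ L : ℕ) :
    1 ≤ ∑ e ∈ (Ac.tubeSet_finite L 0).toFinset, Ac.tubeQ p ρ L 0 e ^ t := by
  have hr : Ac.r₀ ∈ Ac.tubeT L 0 Ac.f₀ :=
    ⟨⟨1, one_smul _ _, one_smul _ _⟩, by simp [ball]⟩
  have hmem : Ac.f₀ ∈ (Ac.tubeSet_finite L 0).toFinset :=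
    (Ac.tubeSet_finite L 0).mem_toFinset.2 ⟨Ac.f₀_adj, subset_rfl, by simp, _, hr⟩
  refine le_trans (le_of_eq ?_) (single_le_sum (fun _ _ => zero_le) hmem)
  rw [tubeQ, prob_connTo_self h0 h1 _ hr, ENNReal.one_rpow]

end Act

end Vale.Agent.P165.Tree
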