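import Vale.Agent.P165.Tree.Basic

/-!
Levels of the tree seen by a cluster, controlled by entry means; finiteness below the threshold.
-/

open Finset
open scoped ENNReal unitInterval

namespace Vale.Agent.P165.Tree.Act

open Vale.Agent.P165.Quot

variable {W V Γ : Type*} [Group Γ] [MulAction Γ W] [MulAction Γ V] {H : SimpleGraph W}
  [DecidableEq W] {T : SimpleGraph V} (Ac : Act (Γ := Γ) H T)

section General

/-- A connection cut at the vertex `m i` costs its two pieces, which use their own edge sets. -/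
theorem prob_conn_le_cut {ι : Type*} {p : ℝ} (h0 : 0 ≤ p) (h1 : p ≤ 1) (E : Set (Sym2 W))
    (x y : W) (E₁ E₂ : ι → Set (Sym2 W)) (m : ι → W)
    (hcut : ∀ q : H.Walk x y, q.IsPath → (∀ s ∈ q.edges, s ∈ E) →
      ∃ i, ∃ (q₁ : H.Walk x (m i)) (q₂ : H.Walk (m i) y), q.edges = q₁.edges ++ q₂.edges ∧
        (∀ s ∈ q₁.edges, s ∈ E₁ i) ∧ ∀ s ∈ q₂.edges, s ∈ E₂ i) :
    prob H p (connTo E x {y}) ≤
      ∑' i, prob H p (connTo (E₁ i) x {m i}) * prob H p (connTo (E₂ i) (m i) {y}) := by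
  refine le_trans ?_ (ENNReal.tsum_le_tsum fun i =>
    prob_box_le h0 h1 (incr_connTo (E₁ i) x {m i}) (incr_connTo (E₂ i) (m i) {y}))
  refine le_trans (prob_mono h0 h1 ?_) (prob_exists_le h0 h1)
  rintro S hS ⟨w, rfl, hw⟩
  obtain ⟨r₀⟩ := mem_cl_single.1 hw
  have hr : ∀ s ∈ r₀.bypass.edges, s ∈ inPart E S := fun s hs => by
    have := r₀.bypass.edges_subset_edgeSet hs
    rw [SimpleGraph.edgeSet_fromEdgeSet] at this
    exact this.1
  let q : H.Walk x w := r₀.bypass.transfer H fun s hs => hS (mem_inPart.1 (hr s hs)).1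
  have hqe : q.edges = r₀.bypass.edges := SimpleGraph.Walk.edges_transfer _ _
  have hqp : q.IsPath := r₀.bypass_isPath.transfer _
  obtain ⟨i, q₁, q₂, hspec, h₁, h₂⟩ := hcut q hqp fun s hs =>
    (mem_inPart.1 (hr s (hqe ▸ hs))).2
  have hnd := hqp.isTrail.edges_nodup
  rw [hspec] at hnd
  have hd := (List.nodup_append.1 hnd).2.2
  have hmem : ∀ s ∈ q.edges, s ∈ S := fun s hs => (mem_inPart.1 (hr s (hqe ▸ hs))).1
  refine ⟨i, q₁.edges.toFinset, q₂.edges.toFinset,
    fun s hs => hmem s (hspec ▸ List.mem_append_left _ (List.mem_toFinset.1 hs)),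
    fun s hs => hmem s (hspec ▸ List.mem_append_right _ (List.mem_toFinset.1 hs)), ?_,
    ⟨m i, rfl, mem_cl_of_hwalk q₁ fun s hs =>
      mem_inPart.2 ⟨List.mem_toFinset.2 hs, h₁ s hs⟩⟩,
    ⟨w, rfl, mem_cl_of_hwalk q₂ fun s hs =>
      mem_inPart.2 ⟨List.mem_toFinset.2 hs, h₂ s hs⟩⟩⟩
  rw [Finset.disjoint_left]
  exact fun s hs hs' => hd s (List.mem_toFinset.1 hs) s (List.mem_toFinset.1 hs') rfl

/-- A map with boundedly many preimages multiplies a sum by at most that bound. -/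
lemma tsum_comp_le_card {α β : Type*} (u : α → β) (g : β → ℝ≥0∞) {N : ℕ}
    (hu : ∀ b, ∃ s : Finset α, s.card ≤ N ∧ ∀ a, u a = b → a ∈ s) :
    ∑' a, g (u a) ≤ N * ∑' b, g b := by
  choose s hs hmem using hu
  calc ∑' a, g (u a) ≤ ∑' x : Σ b, s b, g x.1 :=
        ENNReal.tsum_comp_le_tsum_of_injective (f := fun a => (⟨u a, a, hmem _ a rfl⟩ : Σ b, s b))
          (fun a a' h => congrArg (fun x : Σ b, s b => (x.2 : α)) h) fun x => g x.1
    _ = ∑' b, (s b).card * g b := by
        rw [ENNReal.tsum_sigma']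
        refine tsum_congr fun b => ?_
        simp [tsum_fintype]
    _ ≤ N * ∑' b, g b := by
        rw [← ENNReal.tsum_mul_left]
        exact ENNReal.tsum_le_tsum fun b => mul_le_mul_left (Nat.cast_le.2 (hs b)) _

lemma card_ball_le [H.LocallyFinite] {d : ℕ} (hd : ∀ x, (H.neighborFinset x).card ≤ d) (x : W) :
    ∀ n, (ball H x n).card ≤ (d + 1) ^ n
  | 0 => by simp [ball]
  | n + 1 => by
    calc (ball H x (n + 1)).card
        ≤ (ball H x n).card + ((ball H x n).biUnion fun z => H.neighborFinset z).card :=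
          card_union_le _ _
      _ ≤ (ball H x n).card + (ball H x n).card * d :=
          Nat.add_le_add_left (card_biUnion_le_card_mul _ _ _ fun z _ => hd z) _
      _ = (ball H x n).card * (d + 1) := by ring
      _ ≤ (d + 1) ^ (n + 1) := by
          rw [pow_succ]; exact Nat.mul_le_mul_right _ (card_ball_le hd x n)

/-- A bound valid on every finite edge set bounds a mean. -/
lemma mean_le_ofReal {p : ℝ} (h0 : 0 ≤ p) (h1 : p ≤ 1) {v : W} {A : Set W} {B : ℝ}
    (h : ∀ (U : Finset (Sym2 W)) (F : Finset W), ↑U ⊆ H.edgeSet → ↑F ⊆ A →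
      ∑ z ∈ F, pr p U (conn v z) ≤ B) :
    mean H p Set.univ v A ≤ ENNReal.ofReal B := by
  classical
  rw [mean, ENNReal.tsum_eq_iSup_sum]
  refine iSup_le fun F => ?_
  simp only [prob, iSup_subtype']
  refine sum_iSup_le F _ fun f => ?_
  let U : Finset (Sym2 W) := F.biUnion fun y => (f y).1
  have hU : ↑U ⊆ H.edgeSet := by
    intro e he
    obtain ⟨y, -, hy⟩ := mem_biUnion.1 (Finset.mem_coe.1 he)
    exact (f y).2 hy
  rw [← ENNReal.ofReal_sum_of_nonneg fun y _ => pr_nonneg h0 h1 _ _]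
  refine ENNReal.ofReal_le_ofReal (le_trans (sum_le_sum fun y hy => ?_)
    ((Finset.sum_map F (Function.Embedding.subtype _) fun z => pr p U (conn v z)).symm.le.trans
      (h U (F.map (Function.Embedding.subtype _)) hU ?_)))
  · refine le_trans (pr_mono_set h0 h1 (subset_biUnion_of_mem (fun y => (f y).1) hy)
      (incr_connTo _ _ _)) (pr_mono h0 h1 ?_)
    rintro S _ ⟨z, hz, hzc⟩
    obtain rfl : z = y := hz
    exact cl_mono subset_rfl (inPart_subset _ _) hzc
  · intro z hz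
    obtain ⟨y, -, rfl⟩ := Finset.mem_map.1 (Finset.mem_coe.1 hz)
    exact y.2

/-- Below the threshold the parameter is at most one. -/
lemma le_one_of_lt_pc {p : ℝ} (h0 : 0 ≤ p) (hp : p < pc H) : p ≤ 1 := by
  set X := {t : ℝ | ∃ q : I, (q : ℝ) = t ∧
    0 < bondMeasure H q {ω | ∃ C : (openGraph H ω).ConnectedComponent, C.supp.Infinite}}
  have hpc : pc H = sInf X := rfl
  rcases X.eq_empty_or_nonempty with h | ⟨t, ht⟩
  · rw [hpc, h, Real.sInf_empty] at hp
    linarith
  · have hb : BddBelow X := ⟨0, by rintro _ ⟨q, rfl, -⟩; exact q.2.1⟩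
    have ht1 : t ≤ 1 := by
      obtain ⟨q, rfl, -⟩ := ht
      exact q.2.2
    exact (hp.le.trans (hpc ▸ csInf_le hb ht)).trans ht1

lemma pow_pow_le {p₀ p : ℝ} (h : p₀ ≤ p) {n N : ℕ} (h1 : p ≤ 1) (hn : n ≤ N) :
    ENNReal.ofReal p₀ ^ N ≤ ENNReal.ofReal p ^ n :=
  (pow_le_pow_left₀ zero_le (ENNReal.ofReal_le_ofReal h) N).trans
    (pow_le_pow_of_le_one zero_le (ENNReal.ofReal_le_one.2 h1) hn)

end General

omit [DecidableEq W] in
lemma outE_of_not_cone {D : ℕ} {e : V × V} {a b : W} (ha : a ∉ Ac.coneW e) :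
    s(a, b) ∈ Ac.outE D e :=
  Ac.mem_outE.2 (Or.inl fun h => ha (Ac.core_subset h))

omit [DecidableEq W] in
/-- A walk reaching a core splits at its first core point. -/
lemma split_first {D : ℕ} {e : V × V} {x y : W} (q : H.Walk x y) (hx : x ∉ Ac.core D e)
    (h : ∃ w ∈ q.support, w ∈ Ac.core D e) :
    ∃ a ∈ Ac.entry D e, ∃ (q₁ : H.Walk x a) (q₂ : H.Walk a y),
      q.edges = q₁.edges ++ q₂.edges ∧ ∀ s ∈ q₁.edges, s ∈ Ac.outE D e := by
  induction q with
  | nil =>
    obtain ⟨w, hw, hwc⟩ := h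
    simp only [SimpleGraph.Walk.support_nil, List.mem_singleton] at hw
    exact absurd (hw ▸ hwc) hx
  | @cons x v y hxv q ih =>
    by_cases hv : v ∈ Ac.core D e
    · refine ⟨v, ⟨hv, x, hxv.symm, hx⟩, SimpleGraph.Walk.cons hxv SimpleGraph.Walk.nil, q,
        by simp, fun s hs => ?_⟩
      simp only [SimpleGraph.Walk.edges_cons, SimpleGraph.Walk.edges_nil, List.mem_singleton] at hs
      exact hs ▸ Ac.mem_outE.2 (Or.inl hx)
    · obtain ⟨w, hw, hwc⟩ := h
      rw [SimpleGraph.Walk.support_cons, List.mem_cons] at hw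
      obtain ⟨a, ha, q₁, q₂, he, h₁⟩ :=
        ih hv ⟨w, hw.resolve_left fun h => hx (h ▸ hwc), hwc⟩
      refine ⟨a, ha, SimpleGraph.Walk.cons hxv q₁, q₂, by simp [he], fun s hs => ?_⟩
      rcases List.mem_cons.1 (by simpa using hs : s ∈ s(x, v) :: q₁.edges) with rfl | hs
      · exact Ac.mem_outE.2 (Or.inl hx)
      · exact h₁ s hs

omit [DecidableEq W] in
/-- Near every point over a vertex, and beyond it seen from another vertex, a standard core. -/
theorem exists_beyond (hH : H.Connected) (D : ℕ) : ∃ ℓ K : ℕ,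
    (∀ e : V × V, T.Adj e.1 e.2 → ∀ z, Ac.proj z = e.2 →
      ∃ w ∈ Ac.core D e, ∃ q : H.Walk z w, q.length ≤ ℓ) ∧
    ∀ (o : V) (w : W), ∃ c : V × V, T.Adj c.1 c.2 ∧ T.dist o c.1 ≤ T.dist o (Ac.proj w) + K ∧
      (∀ u ∈ cone T c, T.dist o (Ac.proj w) < T.dist o u) ∧
      ∃ w' ∈ Ac.core D c, ∃ q : H.Walk w w', q.length ≤ ℓ := by
  classical
  obtain ⟨a, π, ha, hδ, hpow, -⟩ := Ac.exists_push hH
  set δ := T.dist Ac.f₀.2 (a • Ac.f₀).2
  have key : ∀ (h g : Γ) (i j : ℕ),
      Ac.proj (h • g • a ^ (i + j) • Ac.r₀) = (h • g • a ^ (i + j) • Ac.f₀).2 ∧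
      cone T (h • g • a ^ (i + j) • Ac.f₀) ⊆ cone T (h • g • a ^ i • Ac.f₀) ∧
      T.dist (h • g • a ^ i • Ac.f₀).2 (h • g • a ^ (i + j) • Ac.f₀).2 = j * δ := by
    intro h g i j
    refine ⟨?_, ?_, ?_⟩
    · rw [Ac.proj_smul, Ac.proj_smul, Ac.proj_smul, Ac.proj_rep _ Ac.r₀_mem]; rfl
    · rw [pow_add, mul_smul, Ac.cone_smul_subset, Ac.cone_smul_subset, Ac.cone_smul_subset]
      exact Ac.push_le ha j
    · rw [pow_add, mul_smul]
      simp only [Prod.smul_snd, Ac.dist_smul]
      exact hpow j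
  have hadj : ∀ g : Γ, T.Adj (g • Ac.f₀).1 (g • Ac.f₀).2 := fun g =>
    (Ac.tree_smul g _ _).2 Ac.f₀_adj
  have hW : ∀ x y : W, ∃ n, ∃ q : H.Walk x y, q.length ≤ n := fun x y => by
    obtain ⟨q⟩ := hH.preconnected x y
    exact ⟨q.length, q, le_rfl⟩
  choose n hn using hW
  set P : Finset (W × Γ) := Ac.reps ×ˢ Ac.moves
  set ℓ₁ := P.sup fun x => n x.1 (x.2 • a ^ (0 + D) • Ac.r₀)
  set ℓ₂ := P.sup fun x => n x.1 (x.2 • a ^ ((D + 1) + D) • Ac.r₀)
  set K := Ac.moves.sup fun g => T.dist Ac.f₀.2 (g • a ^ (D + 1) • Ac.f₀).2 + 1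
  have hmove : ∀ (z : W) (e : V × V), T.Adj e.1 e.2 → Ac.proj z = e.2 →
      ∃ h : Γ, ∃ r ∈ Ac.reps, ∃ g ∈ Ac.moves, h • r = z ∧ h • Ac.f₀.2 = e.2 ∧
        cone T (h • g • Ac.f₀) ⊆ cone T e := by
    intro z e he hz
    obtain ⟨h, r, hr, hrz⟩ := Ac.cover z
    have hq : h • Ac.f₀.2 = e.2 := by
      rw [← hz, ← hrz, Ac.proj_smul, Ac.proj_rep r hr]
    have he' : T.Adj (h⁻¹ • e).1 (h⁻¹ • e).2 := (Ac.tree_smul h⁻¹ _ _).2 he
    have hmem : Ac.f₀.2 ∈ cone T (h⁻¹ • e) := by
      have : (h⁻¹ • e).2 = Ac.f₀.2 := by rw [Prod.smul_snd, ← hq, inv_smul_smul]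
      exact this ▸ self_mem_cone he'
    obtain ⟨g, hg, -, -, hsub, -⟩ := Ac.above _ he' hmem
    refine ⟨h, r, hr, g, hg, hrz, hq, ?_⟩
    have := (Ac.cone_smul_subset h (g • Ac.f₀) (h⁻¹ • e)).2 hsub
    rwa [smul_inv_smul] at this
  have hwalk : ∀ (h : Γ) (r : W) (g : Γ) (i : ℕ) (ℓ : ℕ), n r (g • a ^ i • Ac.r₀) ≤ ℓ →
      ∃ q : H.Walk (h • r) (h • g • a ^ i • Ac.r₀), q.length ≤ ℓ := by
    intro h r g i ℓ hle
    obtain ⟨q, hq⟩ := hn r (g • a ^ i • Ac.r₀)
    exact ⟨Ac.actWalk h q, by simpa using hq.trans hle⟩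
  refine ⟨max ℓ₁ ℓ₂, K, fun e he z hz => ?_, fun o w => ?_⟩
  · obtain ⟨h, r, hr, g, hg, hrz, hq, hsub⟩ := hmove z e he hz
    obtain ⟨k1, k2, k3⟩ := key h g 0 D
    rw [pow_zero, one_smul] at k2 k3
    have hin : Ac.proj (h • g • a ^ (0 + D) • Ac.r₀) ∈ cone T (h • g • Ac.f₀) := by
      rw [k1]; exact k2 (self_mem_cone (by simpa [← mul_smul, mul_assoc] using hadj (h * g * a ^ (0 + D))))
    refine ⟨_, Ac.mem_core_of_deep (hsub hin) ?_, ?_⟩
    · rw [dist_below Ac.isTree (by simpa [← mul_smul, mul_assoc] using hadj (h * g)) he hsub hin, k1, k3]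
      exact le_add_left (Nat.le_mul_of_pos_right D hδ)
    · rw [← hrz]
      exact hwalk h r g _ _ (le_max_of_le_left
        (Finset.le_sup (f := fun x : W × Γ => n x.1 (x.2 • a ^ (0 + D) • Ac.r₀))
          (mem_product.2 ⟨hr, hg⟩ : (r, g) ∈ P)))
  · obtain ⟨h₀, r₀, hr₀, hrw⟩ := Ac.cover w
    set v := Ac.proj w
    set m := T.dist o v
    obtain ⟨e, he, hev, hfar⟩ : ∃ e : V × V, T.Adj e.1 e.2 ∧ v = e.2 ∧
        ∀ u ∈ cone T e, T.dist o u = m + T.dist e.2 u := by
      rcases Nat.eq_zero_or_pos m with hm | hm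
      · have ho : o = v := Ac.isTree.connected.dist_eq_zero_iff.1 hm
        have hv : v = (h₀ • Ac.f₀).2 := by
          show Ac.proj w = _
          rw [← hrw, Ac.proj_smul, Ac.proj_rep r₀ hr₀]; rfl
        exact ⟨h₀ • Ac.f₀, hadj h₀, hv, fun u _ => by rw [hm, zero_add, ho, hv]⟩
      · obtain ⟨e, he, hoe, hve, hd, -⟩ := edge_between Ac.isTree (v := o) (w := v)
          (i := m - 1) (by omega)
        have h1 := dist_through Ac.isTree he hve hoe
        rw [SimpleGraph.dist_comm (u := v) (v := o), SimpleGraph.dist_comm (u := e.1) (v := o),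
          hd] at h1
        have hv2 : T.dist v e.2 = 0 := by omega
        refine ⟨e, he, Ac.isTree.connected.dist_eq_zero_iff.1 hv2, fun u hu => ?_⟩
        have h2 := dist_through Ac.isTree he hu hoe
        rw [SimpleGraph.dist_comm (u := u) (v := o), SimpleGraph.dist_comm (u := e.1) (v := o), hd,
          SimpleGraph.dist_comm (u := u) (v := e.2)] at h2
        omega
    obtain ⟨h, r, hr, g, hg, hrz, hq, hsub⟩ := hmove w e he hev
    set c := h • g • a ^ (D + 1) • Ac.f₀
    have hc : T.Adj c.1 c.2 := by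
      simpa [c, ← mul_smul, mul_assoc] using hadj (h * g * a ^ (D + 1))
    obtain ⟨-, k2, k3⟩ := key h g 0 (D + 1)
    rw [pow_zero, one_smul, Nat.zero_add] at k2 k3
    obtain ⟨j1, j2, j3⟩ := key h g (D + 1) D
    have hgadj : T.Adj (h • g • Ac.f₀).1 (h • g • Ac.f₀).2 := by
      simpa [← mul_smul, mul_assoc] using hadj (h * g)
    have hce : cone T c ⊆ cone T e := k2.trans hsub
    have hdeep : 0 < T.dist e.2 c.2 := by
      rw [depth_add Ac.isTree hc hgadj he k2 hsub, k3]
      exact Nat.lt_of_lt_of_le (Nat.mul_pos (Nat.succ_pos D) hδ) (Nat.le_add_left _ _)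
    have hjump : T.dist e.2 c.2 + 1 ≤ K := by
      have := Finset.le_sup (f := fun g => T.dist Ac.f₀.2 (g • a ^ (D + 1) • Ac.f₀).2 + 1) hg
      have h2 : T.dist e.2 c.2 = T.dist Ac.f₀.2 (g • a ^ (D + 1) • Ac.f₀).2 := by
        rw [← hq]
        exact Ac.dist_smul h _ _
      rw [h2]
      exact this
    have hfar' : ∀ u ∈ cone T c, m < T.dist o u := fun u hu => by
      rw [hfar u (hce hu), dist_below Ac.isTree hc he hce hu]
      omega
    refine ⟨c, hc, ?_, hfar', ?_⟩
    · have h1 := hfar c.2 (hce (self_mem_cone hc))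
      have h2 := Ac.isTree.connected.dist_triangle (u := o) (v := c.2) (w := c.1)
      rw [SimpleGraph.dist_eq_one_iff_adj.2 hc.symm] at h2
      omega
    · have hin : Ac.proj (h • g • a ^ ((D + 1) + D) • Ac.r₀) ∈ cone T c := by
        rw [j1]
        exact j2 (self_mem_cone (by simpa [← mul_smul, mul_assoc] using hadj (h * g * a ^ ((D + 1) + D))))
      refine ⟨_, Ac.mem_core_of_deep hin ?_, ?_⟩
      · rw [j1, j3]; exact Nat.le_mul_of_pos_right D hδ
      · rw [← hrz]
        exact hwalk h r g _ _ (le_max_of_le_right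
          (Finset.le_sup (f := fun x : W × Γ => n x.1 (x.2 • a ^ ((D + 1) + D) • Ac.r₀))
            (mem_product.2 ⟨hr, hg⟩ : (r, g) ∈ P)))

lemma halfMean_le_meanFar {D : ℕ} {p : ℝ} {x : W} {e : V × V} (he : T.Adj e.1 e.2)
    (hx : Ac.proj x ∉ cone T e) {n : ℕ} (hn : n ≤ T.dist (Ac.proj x) e.1) :
    Ac.halfMean D p x e ≤ Ac.meanFar D p n :=
  le_iSup₂_of_le x e (le_iSup_of_le ⟨he, hx, hn⟩ le_rfl)

lemma meanFar_antitone (D : ℕ) (p : ℝ) : Antitone (Ac.meanFar D p) := fun a b hab =>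
  iSup_le fun x => iSup₂_le fun e he =>
    Ac.halfMean_le_meanFar he.1 he.2.1 (hab.trans he.2.2)

lemma sphere_le_meanSphere (D : ℕ) (p : ℝ) (x : W) (n : ℕ) :
    ∑' e : away T (Ac.proj x) n, Ac.halfMean D p x e ≤ Ac.meanSphere D p n :=
  le_iSup (fun x => ∑' e : away T (Ac.proj x) n, Ac.halfMean D p x e) x

lemma mean_fib_le {p : ℝ} {x : W} {q : V} {B : ℕ} (h : T.dist (Ac.proj x) q ≤ B) :
    mean H p Set.univ x {z | Ac.proj z = q} ≤ Ac.fib p B :=
  le_iSup₂_of_le x q (le_iSup_of_le h le_rfl)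

lemma one_le_fib (hH : H.Connected) {p : ℝ} (h0 : 0 ≤ p) (h1 : p ≤ 1) (B : ℕ) :
    1 ≤ Ac.fib p B := by
  obtain ⟨x⟩ := hH.nonempty
  refine le_trans ?_ (Ac.mean_fib_le (x := x) (q := Ac.proj x) (B := B) (by simp))
  refine le_trans ?_ (ENNReal.le_tsum (⟨x, rfl⟩ : {z | Ac.proj z = Ac.proj x}))
  rw [prob_connTo_self h0 h1 Set.univ (Set.mem_singleton x)]

/-- The sum of an entry mean over the edges of a sphere reaches every point at most once. -/
lemma entry_unique {D : ℕ} {o : V} {n : ℕ} {c c' : V × V} (hc : c ∈ away T o n)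
    (hc' : c' ∈ away T o n) {a : W} (ha : a ∈ Ac.entry D c) (ha' : a ∈ Ac.entry D c') : c = c' := by
  rcases eq_or_disjoint_of_dist Ac.isTree hc.1 hc'.1 hc.2.1 hc'.2.1 (hc.2.2.trans hc'.2.2.symm)
    with h | h
  · exact h
  · exact absurd (Ac.core_subset ha'.1) (Set.disjoint_left.1 h (Ac.core_subset ha.1))

/-- An insertion along a walk, in the form used for landings. -/
lemma land_le {p₀ p : ℝ} (hp₀ : 0 < p₀) (hp : p₀ ≤ p) (h1 : p ≤ 1) {ℓ : ℕ} {E : Set (Sym2 W)}
    {x z a : W} (q : H.Walk z a) (hq : q.length ≤ ℓ) (hE : ∀ s ∈ q.edges, s ∈ E) :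
    prob H p (connTo E x {z}) ≤
      (ENNReal.ofReal p₀ ^ ℓ)⁻¹ * prob H p (connTo E x {a}) := by
  have h0 : 0 ≤ p := hp₀.le.trans hp
  have hc : ENNReal.ofReal p₀ ^ ℓ ≠ 0 := pow_ne_zero _ (ENNReal.ofReal_pos.2 hp₀).ne'
  have h := walk_mul_le (p := p) h0 h1 q.reverse
    (fun s hs => hE s (by simpa [SimpleGraph.Walk.edges_reverse] using hs)) {x}
  rw [prob_conn_symm E z x, prob_conn_symm E a x] at h
  have h2 := (mul_le_mul_left (pow_pow_le hp h1 ((q.length_reverse).le.trans hq)) _).trans h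
  calc prob H p (connTo E x {z})
      = (ENNReal.ofReal p₀ ^ ℓ)⁻¹ * (ENNReal.ofReal p₀ ^ ℓ * prob H p (connTo E x {z})) := by
        rw [← mul_assoc, ENNReal.inv_mul_cancel hc
          (ENNReal.pow_ne_top ENNReal.ofReal_ne_top), one_mul]
    _ ≤ _ := mul_le_mul_right h2 _

variable [H.LocallyFinite]

/-- A fibre seen from outside, through the entries of the edge into it. -/
theorem exists_fibre_through (hH : H.Connected) (D : ℕ) {p₀ : ℝ} (hp₀ : 0 < p₀) :
    ∃ C : ℝ≥0∞, C ≠ ⊤ ∧ ∀ p, p₀ ≤ p → p ≤ 1 → ∀ (x : W) (e : V × V), T.Adj e.1 e.2 →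
      Ac.proj x ∉ cone T e →
        mean H p Set.univ x {z | Ac.proj z = e.2} ≤
          C * Ac.halfMean D p x e * Ac.fib p Ac.R := by
  classical
  obtain ⟨ℓ, K, hconn, -⟩ := Ac.exists_beyond hH D
  obtain ⟨d, hd⟩ := Ac.degree_bound
  have hc : ENNReal.ofReal p₀ ^ ℓ ≠ 0 := pow_ne_zero _ (ENNReal.ofReal_pos.2 hp₀).ne'
  refine ⟨1 + (ENNReal.ofReal p₀ ^ ℓ)⁻¹ * ((d + 1) ^ ℓ : ℕ),
    ENNReal.add_ne_top.2 ⟨ENNReal.one_ne_top, ENNReal.mul_ne_top (ENNReal.inv_ne_top.2 hc)
      (ENNReal.natCast_ne_top _)⟩, fun p hp h1 x e he hx => ?_⟩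
  have h0 : 0 ≤ p := hp₀.le.trans hp
  have hxc : x ∉ Ac.core D e := fun h => hx (Ac.core_subset h)
  set c₀ := (ENNReal.ofReal p₀ ^ ℓ)⁻¹
  set g : ↥(Ac.entry D e) → ℝ≥0∞ := fun a => prob H p (connTo (Ac.outE D e) x {(a : W)})
  have hland : ∀ z : {z : {z | Ac.proj z = e.2} // (z : W) ∉ Ac.core D e},
      ∃ a : Ac.entry D e, ∃ q : H.Walk (z.1 : W) a, q.length ≤ ℓ ∧
        prob H p (connTo (Ac.outE D e) x {(z.1 : W)}) ≤ c₀ * g a := by
    rintro ⟨⟨z, hz⟩, hzc⟩
    obtain ⟨w, hw, q, hq⟩ := hconn e he z hz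
    obtain ⟨a, ha, q', hq', hE, -⟩ := Ac.exists_entry_on_walk q hzc hw
    exact ⟨⟨a, ha⟩, q', hq'.trans hq, land_le hp₀ hp h1 q' (hq'.trans hq) hE⟩
  choose u q hq hu using hland
  have hcount : ∑' z : {z : {z | Ac.proj z = e.2} // (z : W) ∉ Ac.core D e}, g (u z) ≤
      ((d + 1) ^ ℓ : ℕ) * ∑' a, g a := by
    refine tsum_comp_le_card u g fun a => ⟨Finset.subtype
      (fun z : {z | Ac.proj z = e.2} => (z : W) ∉ Ac.core D e)
      ((ball H (a : W) ℓ).subtype fun z => z ∈ {z | Ac.proj z = e.2}), ?_, ?_⟩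
    · refine le_trans ?_ (card_ball_le hd (a : W) ℓ)
      rw [card_subtype]
      refine (card_filter_le _ _).trans ?_
      rw [card_subtype]
      exact card_filter_le _ _
    · rintro z rfl
      simp only [mem_subtype]
      exact mem_ball_of_walk (q z) (hq z)
  have hz : ∀ z : {z | Ac.proj z = e.2}, prob H p (connTo Set.univ x {(z : W)}) ≤
      ∑' a : Ac.entry D e, g a * prob H p (connTo Set.univ (a : W) {(z : W)}) +
        (if (z : W) ∉ Ac.core D e then prob H p (connTo (Ac.outE D e) x {(z : W)}) else 0) := by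
    intro z
    refine (prob_conn_le_cut h0 h1 Set.univ x z
      (ι := ↥(Ac.entry D e) ⊕ {_u : Unit // (z : W) ∉ Ac.core D e})
      (Sum.elim (fun _ => Ac.outE D e) fun _ => Ac.outE D e) (fun _ => Set.univ)
      (Sum.elim (fun a => (a : W)) fun _ => (z : W)) fun r _ _ => ?_).trans ?_
    · by_cases h : ∃ w ∈ r.support, w ∈ Ac.core D e
      · obtain ⟨a, ha, q₁, q₂, he₁, h₁⟩ := Ac.split_first r hxc h
        exact ⟨.inl ⟨a, ha⟩, q₁, q₂, he₁, h₁, fun s _ => Set.mem_univ s⟩
      · refine ⟨.inr ⟨(), fun hc => h ⟨_, r.end_mem_support, hc⟩⟩, r, SimpleGraph.Walk.nil,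
          by simp, fun s hs => ?_, fun s _ => Set.mem_univ s⟩
        induction s with
        | h a b =>
          exact Ac.mem_outE.2 (Or.inl fun hc => h ⟨a, r.fst_mem_support_of_mem_edges hs, hc⟩)
    · rw [Summable.tsum_sum ENNReal.summable ENNReal.summable]
      refine add_le_add le_rfl ?_
      by_cases h : (z : W) ∉ Ac.core D e
      · rw [if_pos h, tsum_eq_single (⟨(), h⟩ : {_u : Unit // (z : W) ∉ Ac.core D e})
          fun b hb => absurd (Subsingleton.elim _ _) hb]
        exact mul_le_of_le_one_right zero_le (prob_le_one h0 h1 _)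
      · have : IsEmpty {_u : Unit // (z : W) ∉ Ac.core D e} := ⟨fun b => h b.2⟩
        simp [h]
  calc mean H p Set.univ x {z | Ac.proj z = e.2}
      ≤ ∑' z : {z | Ac.proj z = e.2},
          ((∑' a : Ac.entry D e, g a * prob H p (connTo Set.univ (a : W) {(z : W)})) +
            if (z : W) ∉ Ac.core D e then prob H p (connTo (Ac.outE D e) x {(z : W)}) else 0) :=
        ENNReal.tsum_le_tsum hz
    _ ≤ (∑' a : Ac.entry D e, g a * Ac.fib p Ac.R) + c₀ * (((d + 1) ^ ℓ : ℕ) * ∑' a, g a) := by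
        rw [ENNReal.tsum_add, ENNReal.tsum_comm]
        refine add_le_add (ENNReal.tsum_le_tsum fun a => ?_) ?_
        · rw [ENNReal.tsum_mul_left]
          refine mul_le_mul_right ?_ _
          refine Ac.mean_fib_le ?_
          have := Ac.gate_near he (Ac.entry_subset_gate a.2)
          omega
        · calc ∑' z : {z | Ac.proj z = e.2}, (if (z : W) ∉ Ac.core D e then
                prob H p (connTo (Ac.outE D e) x {(z : W)}) else 0)
              = ∑' z : {z : {z | Ac.proj z = e.2} // (z : W) ∉ Ac.core D e},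
                  prob H p (connTo (Ac.outE D e) x {(z.1 : W)}) := by
                refine Eq.trans ?_ (tsum_subtype
                  ({z | (z : W) ∉ Ac.core D e} : Set {z | Ac.proj z = e.2})
                  fun z => prob H p (connTo (Ac.outE D e) x {(z : W)})).symm
                refine tsum_congr fun z => ?_
                simp only [Set.indicator, Set.mem_ofPred_eq]
            _ ≤ ∑' z, c₀ * g (u z) := ENNReal.tsum_le_tsum hu
            _ ≤ _ := by rw [ENNReal.tsum_mul_left]; exact mul_le_mul_right hcount _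
    _ ≤ _ := by
        rw [ENNReal.tsum_mul_right, show Ac.halfMean D p x e = ∑' a, g a from rfl, add_mul,
          one_mul, add_mul, ← mul_assoc]
        refine add_le_add le_rfl ?_
        exact le_mul_of_one_le_right zero_le (Ac.one_le_fib hH h0 h1 _)

/-- Entry means are submultiplicative in the distance. -/
theorem exists_meanFar_add (_hH : H.Connected) (D : ℕ) : ∃ Rc : ℕ, ∀ p, 0 ≤ p → p ≤ 1 →
    ∀ a b : ℕ, Ac.meanFar D p (a + b + Rc) ≤ Ac.meanFar D p a * Ac.meanFar D p b := by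
  refine ⟨Ac.R + 1, fun p h0 h1 a b => iSup_le fun x => iSup₂_le fun e ⟨he, hx, hn⟩ => ?_⟩
  set o := Ac.proj x
  have hoe := dist_head_of_not_mem Ac.isTree he hx
  obtain ⟨c, hc, hoc, hec, hd, -⟩ := edge_between Ac.isTree (v := o) (w := e.2) (i := a) (by omega)
  have hsub : cone T e ⊆ cone T c := by
    rcases nested_or_disjoint Ac.isTree he hc hx hoc with h | h | h
    · exact h
    · rcases eq_or_ne c e with rfl | hne
      · exact subset_rfl
      exact absurd hec (tail_mem_of_subset Ac.isTree hc he h hne).2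
    · exact absurd hec (Set.disjoint_left.1 h (self_mem_cone he))
  have hxc : x ∉ Ac.core D c := fun h => hoc (Ac.core_subset h)
  refine (ENNReal.tsum_le_tsum fun y : Ac.entry D e => prob_conn_le_cut h0 h1 _ x y
    (fun _ : Ac.entry D c => Ac.outE D c) (fun _ => Ac.outE D e) (fun u => (u : W))
    fun r _ hr => ?_).trans ?_
  · obtain ⟨u, hu, q₁, q₂, he₁, h₁⟩ := Ac.split_first r hxc
      ⟨_, r.end_mem_support, Ac.core_mono hc he hsub y.2.1⟩
    exact ⟨⟨u, hu⟩, q₁, q₂, he₁, h₁,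
      fun s hs => hr s (he₁ ▸ List.mem_append_right _ hs)⟩
  calc ∑' y : Ac.entry D e, ∑' u : Ac.entry D c,
        prob H p (connTo (Ac.outE D c) x {(u : W)}) *
          prob H p (connTo (Ac.outE D e) (u : W) {(y : W)})
      = ∑' u : Ac.entry D c, prob H p (connTo (Ac.outE D c) x {(u : W)}) *
          Ac.halfMean D p u e := by
        rw [ENNReal.tsum_comm]
        exact tsum_congr fun u => ENNReal.tsum_mul_left
    _ ≤ ∑' u : Ac.entry D c, prob H p (connTo (Ac.outE D c) x {(u : W)}) * Ac.meanFar D p b := by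
        refine ENNReal.tsum_le_tsum fun u => mul_le_mul_right ?_ _
        have hu := Ac.gate_near hc (Ac.entry_subset_gate u.2)
        have h1' := Ac.isTree.connected.dist_triangle (u := o) (v := c.2) (w := e.1)
        have h2' := dist_head_of_not_mem Ac.isTree hc hoc
        have h3' := Ac.isTree.connected.dist_triangle (u := c.2) (v := Ac.proj u) (w := e.1)
        rw [SimpleGraph.dist_comm (u := c.2) (v := Ac.proj u)] at h3'
        refine Ac.halfMean_le_meanFar he (fun hmem => ?_) (by omega)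
        have h4' := dist_tail_of_mem Ac.isTree he hmem
        have h5' := dist_through Ac.isTree he hmem hx
        have h6' := Ac.isTree.connected.dist_triangle (u := o) (v := c.2) (w := Ac.proj u)
        rw [SimpleGraph.dist_comm (u := Ac.proj u) (v := o), SimpleGraph.dist_comm (u := e.1) (v := o)]
          at h5'
        rw [SimpleGraph.dist_comm (u := c.2) (v := Ac.proj u)] at h6'
        omega
    _ ≤ _ := by
        rw [ENNReal.tsum_mul_right]
        exact mul_le_mul_left (Ac.halfMean_le_meanFar hc hoc hd.ge) _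

/-- Connection to far points decays geometrically when the criterion is uniformly below one. -/
lemma exists_far_sum_le (hH : H.Connected) {p : ℝ} (h0 : 0 ≤ p) (h1 : p ≤ 1) (hp : p < pc H) :
    ∃ (M c : ℝ) (L₀ : ℕ), 0 ≤ M ∧ 0 < c ∧ c < 1 ∧ 0 < L₀ ∧
      ∀ (j : ℕ) (v : W) (U : Finset (Sym2 W)) (F : Finset W), ↑U ⊆ H.edgeSet →
        (∀ z ∈ F, j * L₀ ≤ T.dist (Ac.proj v) (Ac.proj z)) →
          ∑ z ∈ F, pr p U (conn v z) ≤ M * c ^ j := by
  classical
  obtain ⟨c₁, N, hc₁, hphi⟩ := exists_uniform_phiS_lt hH Ac.quasiTransitive h0 hp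
  set c := max c₁ (1 / 2)
  have hc : 0 < c := lt_max_of_lt_right one_half_pos
  have hc1 : c < 1 := max_lt hc₁ one_half_lt_one
  refine ⟨N / (1 - c), c, Ac.R * (N + 1) + 1, div_nonneg N.cast_nonneg (by linarith), hc, hc1,
    Nat.succ_pos _, fun j => ?_⟩
  induction j with
  | zero =>
    intro v U F hU _
    rw [pow_zero, mul_one]
    exact susceptibility_le h0 h1 hc1 (fun w => (hphi w).imp fun S h =>
      ⟨h.1, h.2.1, h.2.2.trans (le_max_left _ _)⟩) hU F v
  | succ j ih =>
    intro v U F hU hF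
    obtain ⟨S, hvS, hcard, hS⟩ := hphi v
    set S' := S.filter fun z => z ∈ cl {v} (inEdges H S)
    have hvS' : v ∈ S' := mem_filter.2 ⟨hvS, subset_cl _ _ rfl⟩
    have hclS : cl {v} (inEdges H S) ⊆ (↑S : Set W) :=
      cl_subset (Set.singleton_subset_iff.2 hvS) fun a b _ hab => (mem_inEdges.1 hab).2.2
    have hnear : ∀ z ∈ S', T.dist (Ac.proj v) (Ac.proj z) ≤ Ac.R * N := by
      intro z hz
      obtain ⟨q⟩ := mem_cl_single.1 (mem_filter.1 hz).2
      have hlen : q.bypass.length < S.card := by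
        refine lt_of_lt_of_le (Nat.lt_succ_self _) ?_
        rw [Nat.succ_eq_add_one, ← SimpleGraph.Walk.length_support,
          ← List.toFinset_card_of_nodup q.bypass_isPath.support_nodup]
        exact card_le_card fun w hw => Finset.mem_coe.1
          (hclS (mem_cl_single.2 ⟨q.bypass.takeUntil w (List.mem_toFinset.1 hw)⟩))
      have hle : SimpleGraph.fromEdgeSet (↑(inEdges H S) : Set (Sym2 W)) ≤ H := fun a b h =>
        (mem_inEdges.1 (Finset.mem_coe.1 h.1)).1
      refine (Ac.walk_proj (q.bypass.mapLe hle)).trans (Nat.mul_le_mul_left _ ?_)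
      simpa using hlen.le.trans hcard
    have hphi' : phiS H p v S' ≤ c := by
      refine le_trans ?_ (hS.trans (le_max_left _ _))
      refine mul_le_mul_of_nonneg_left ?_ h0
      refine le_trans (sum_le_sum fun e _ => pr_mono_set h0 h1 ?_ fun A B hAB h =>
        cl_mono subset_rfl hAB h) (sum_le_sum_of_subset_of_nonneg ?_ fun _ _ _ => pr_nonneg h0 h1 _ _)
      · intro s hs
        induction s with
        | h a b =>
          obtain ⟨hab, ha, hb⟩ := mem_inEdges.1 hs
          exact mem_inEdges.2 ⟨hab, (mem_filter.1 ha).1, (mem_filter.1 hb).1⟩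
      · rintro ⟨a, b⟩ h
        obtain ⟨hab, ha, hb⟩ := mem_outPairs.1 h
        refine mem_outPairs.2 ⟨hab, (mem_filter.1 ha).1, fun hbS => hb (mem_filter.2 ⟨hbS, ?_⟩)⟩
        exact cl_step (mem_filter.1 ha).2 (mem_inEdges.2 ⟨hab, (mem_filter.1 ha).1, hbS⟩)
    have hzS : ∀ z ∈ F, z ∉ S' := fun z hz h => by
      have := (hF z hz).trans (hnear z h)
      rw [Nat.succ_mul] at this
      nlinarith [Nat.zero_le (j * (Ac.R * (N + 1) + 1))]
    calc ∑ z ∈ F, pr p U (conn v z)
        ≤ ∑ z ∈ F, ∑ e ∈ outPairs H S', p * pr p (inEdges H S') (fun A => e.1 ∈ cl {v} A) *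
            pr p U (conn e.2 z) :=
          sum_le_sum fun z hz => conn_step h0 h1 hU hvS' (hzS z hz)
      _ = ∑ e ∈ outPairs H S', p * pr p (inEdges H S') (fun A => e.1 ∈ cl {v} A) *
            ∑ z ∈ F, pr p U (conn e.2 z) := by
          rw [sum_comm]
          simp only [mul_sum]
      _ ≤ ∑ e ∈ outPairs H S', p * pr p (inEdges H S') (fun A => e.1 ∈ cl {v} A) *
            (N / (1 - c) * c ^ j) := by
          refine sum_le_sum fun e he => mul_le_mul_of_nonneg_left (ih e.2 U F hU fun z hz => ?_)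
            (mul_nonneg h0 (pr_nonneg h0 h1 _ _))
          obtain ⟨hab, ha, -⟩ := mem_outPairs.1 (show (e.1, e.2) ∈ outPairs H S' from he)
          have a1 := hF z hz
          have a2 := hnear _ ha
          have a3 := Ac.jump _ _ hab
          have a4 := Ac.isTree.connected.dist_triangle (u := Ac.proj v) (v := Ac.proj e.1)
            (w := Ac.proj e.2)
          have a5 := Ac.isTree.connected.dist_triangle (u := Ac.proj v) (v := Ac.proj e.2)
            (w := Ac.proj z)
          rw [Nat.succ_mul] at a1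
          nlinarith
      _ = phiS H p v S' * (N / (1 - c) * c ^ j) := by simp only [phiS, mul_sum, sum_mul]
      _ ≤ c * (N / (1 - c) * c ^ j) := by
          exact mul_le_mul_of_nonneg_right hphi'
            (mul_nonneg (div_nonneg N.cast_nonneg (by linarith)) (pow_nonneg hc.le _))
      _ = _ := by ring

/-- Below the threshold everything is finite and the entry means decay exponentially. -/
theorem exists_finite_below (hH : H.Connected) (D : ℕ) {p : ℝ} (h0 : 0 ≤ p) (hp : p < pc H) :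
    ∃ (C : ℝ≥0∞) (r : ℝ), C ≠ ⊤ ∧ 0 ≤ r ∧ r < 1 ∧ (∀ k, Ac.level p k ≤ C) ∧
      (∀ B, Ac.fib p B ≤ C) ∧ (∀ n, Ac.meanSphere D p n ≤ C) ∧
      ∀ n, Ac.meanFar D p n ≤ C * ENNReal.ofReal r ^ n := by
  classical
  have h1 := le_one_of_lt_pc h0 hp
  obtain ⟨M, c, L₀, hM, hc, hc1, hL₀, hfar⟩ := Ac.exists_far_sum_le hH h0 h1 hp
  set r := c ^ ((L₀ : ℝ)⁻¹)
  have hr0 : 0 ≤ r := Real.rpow_nonneg hc.le _
  have hr1 : r < 1 := Real.rpow_lt_one hc.le hc1 (by positivity)
  have hC : ∀ v : W, ∀ A : Set W, mean H p Set.univ v A ≤ ENNReal.ofReal (M / c) := by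
    intro v A
    refine mean_le_ofReal h0 h1 fun U F hU _ => (hfar 0 v U F hU (by simp)).trans ?_
    rw [pow_zero, mul_one, le_div_iff₀ hc]
    exact mul_le_of_le_one_right hM hc1.le
  refine ⟨ENNReal.ofReal (M / c), r, ENNReal.ofReal_ne_top, hr0, hr1, fun k => iSup_le fun x => hC _ _,
    fun B => iSup_le fun x => iSup₂_le fun q _ => hC _ _, fun n => iSup_le fun x => ?_, fun n => ?_⟩
  · refine le_trans ?_ (hC x Set.univ)
    refine le_trans (le_of_eq (ENNReal.tsum_sigma' fun a : Σ e : away T (Ac.proj x) n,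
      Ac.entry D (e : V × V) => prob H p (connTo (Ac.outE D a.1) x {(a.2 : W)})).symm) ?_
    refine le_trans (ENNReal.tsum_le_tsum fun a =>
      prob_connTo_mono h0 h1 (Set.subset_univ _) subset_rfl x) ?_
    refine ENNReal.tsum_comp_le_tsum_of_injective
      (f := fun a : Σ e : away T (Ac.proj x) n, Ac.entry D (e : V × V) =>
        (⟨(a.2 : W), trivial⟩ : (Set.univ : Set W))) (fun a b h => ?_)
      fun z => prob H p (connTo Set.univ x {(z : W)})
    obtain ⟨⟨e, he⟩, a, ha⟩ := a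
    obtain ⟨⟨e', he'⟩, b, hb⟩ := b
    obtain rfl : a = b := congrArg Subtype.val h
    obtain rfl := Ac.entry_unique he he' ha hb
    rfl
  · refine iSup_le fun x => iSup₂_le fun e ⟨he, hxe, hn⟩ => ?_
    have hsub : Ac.entry D e ⊆ {z | n + 1 ≤ T.dist (Ac.proj x) (Ac.proj z)} := fun a ha => by
      have := dist_through Ac.isTree he (Ac.core_subset ha.1) hxe
      rw [SimpleGraph.dist_comm (u := Ac.proj a) (v := Ac.proj x),
        SimpleGraph.dist_comm (u := e.1) (v := Ac.proj x)] at this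
      show n + 1 ≤ _
      omega
    refine le_trans (le_trans (ENNReal.tsum_le_tsum fun a : Ac.entry D e =>
      prob_connTo_mono h0 h1 (Set.subset_univ _) subset_rfl x)
      (ENNReal.tsum_comp_le_tsum_of_injective (Set.inclusion_injective hsub)
        fun z => prob H p (connTo Set.univ x {(z : W)}))) ?_
    refine (mean_le_ofReal h0 h1 fun U F hU hF => hfar (n / L₀) x U F hU fun z hz =>
      (Nat.div_mul_le_self n L₀).trans ((Nat.le_succ n).trans (hF hz))).trans ?_
    rw [← ENNReal.ofReal_pow hr0, ← ENNReal.ofReal_mul (div_nonneg hM hc.le)]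
    refine ENNReal.ofReal_le_ofReal ?_
    rw [div_mul_eq_mul_div, le_div_iff₀ hc, mul_assoc, ← pow_succ]
    refine mul_le_mul_of_nonneg_left ?_ hM
    rw [← Real.rpow_inv_natCast_pow hc.le hL₀.ne', ← pow_mul]
    refine pow_le_pow_of_le_one hr0 hr1.le ?_
    rw [mul_comm]
    exact (Nat.lt_div_mul_add hL₀).le.trans_eq (by ring)

/-- A level through the sphere of entries one step before it. -/
theorem exists_level_le (hH : H.Connected) (D : ℕ) {p₀ : ℝ} (hp₀ : 0 < p₀) :
    ∃ C : ℝ≥0∞, C ≠ ⊤ ∧ ∀ p, p₀ ≤ p → p ≤ 1 → ∀ k : ℕ,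
      Ac.level p (k + 1) ≤ C * (1 + Ac.meanSphere D p k) * Ac.fib p Ac.R := by
  obtain ⟨C, hC, hfib⟩ := Ac.exists_fibre_through hH D hp₀
  refine ⟨C, hC, fun p hp h1 k => iSup_le fun x => ?_⟩
  set o := Ac.proj x
  have hedge : ∀ z : {z | T.dist o (Ac.proj z) = k + 1},
      ∃ e : away T o k, Ac.proj z = (e : V × V).2 := by
    rintro ⟨z, hz⟩
    have hz' : T.dist o (Ac.proj z) = k + 1 := hz
    obtain ⟨e, he, hoe, hze, hd, -⟩ := edge_between Ac.isTree (v := o) (w := Ac.proj z) (i := k)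
      (by omega)
    refine ⟨⟨e, he, hoe, hd⟩, Ac.isTree.connected.dist_eq_zero_iff.1 ?_⟩
    have h := dist_through Ac.isTree he hze hoe
    rw [SimpleGraph.dist_comm (u := Ac.proj z) (v := o), SimpleGraph.dist_comm (u := e.1) (v := o),
      hz', hd] at h
    show T.dist (Ac.proj z) e.2 = 0
    omega
  choose ed hed using hedge
  calc mean H p Set.univ x {z | T.dist o (Ac.proj z) = k + 1}
      ≤ ∑' a : Σ e : away T o k, {z | Ac.proj z = (e : V × V).2},
          prob H p (connTo Set.univ x {(a.2 : W)}) :=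
        ENNReal.tsum_comp_le_tsum_of_injective
          (f := fun z => (⟨ed z, z, hed z⟩ : Σ e : away T o k, {z | Ac.proj z = (e : V × V).2}))
          (fun z z' h => Subtype.ext (congrArg
            (fun a : Σ e : away T o k, {z | Ac.proj z = (e : V × V).2} => (a.2 : W)) h)) _
    _ = ∑' e : away T o k, mean H p Set.univ x {z | Ac.proj z = (e : V × V).2} :=
        ENNReal.tsum_sigma' _
    _ ≤ ∑' e : away T o k, C * Ac.halfMean D p x e * Ac.fib p Ac.R :=
        ENNReal.tsum_le_tsum fun e => hfib p hp h1 x e e.2.1 e.2.2.1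
    _ ≤ _ := by
        rw [ENNReal.tsum_mul_right, ENNReal.tsum_mul_left]
        exact mul_le_mul_left (mul_le_mul_right ((Ac.sphere_le_meanSphere D p x k).trans
          le_add_self) _) _

omit [H.LocallyFinite] in
/-- Translation of a connection outside a core. -/
lemma prob_outE_smul (D : ℕ) (p : ℝ) (g : Γ) (c : V × V) (z a : W) :
    prob H p (connTo (Ac.outE D (g • c)) (g • z) {g • a}) =
      prob H p (connTo (Ac.outE D c) z {a}) := by
  rw [← prob_connTo_iso (p := p) (Ac.actW g) (Ac.outE D c) z {a}, Ac.smul_outE, Set.image_singleton]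
  rfl

/-- Pairs of a half-tree avoiding a vertex, within a given distance of it, and one of its entries. -/
def EntriesNear (D : ℕ) (o : V) (B : ℕ) : Set ((V × V) × W) :=
  {a | T.Adj a.1.1 a.1.2 ∧ o ∉ cone T a.1 ∧ T.dist o a.1.1 ≤ B ∧ a.2 ∈ Ac.entry D a.1}

omit [H.LocallyFinite] in
lemma entries_near_le (D : ℕ) (p : ℝ) (x : W) (B : ℕ) :
    ∑' a : Ac.EntriesNear D (Ac.proj x) B,
        prob H p (connTo (Ac.outE D (a : (V × V) × W).1) x {(a : (V × V) × W).2}) ≤
      ∑ k ∈ range (B + 1), Ac.meanSphere D p k := by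
  rw [← Fin.sum_univ_eq_sum_range, ← tsum_fintype (L := .unconditional _)]
  refine le_trans ?_ (ENNReal.tsum_le_tsum fun k : Fin (B + 1) =>
    Ac.sphere_le_meanSphere D p x k)
  refine le_trans ?_ (ENNReal.tsum_le_tsum fun k : Fin (B + 1) => le_of_eq
    (ENNReal.tsum_sigma' fun a : Σ e : away T (Ac.proj x) k, Ac.entry D (e : V × V) =>
      prob H p (connTo (Ac.outE D a.1) x {(a.2 : W)})))
  rw [← ENNReal.tsum_sigma' fun a : Σ k : Fin (B + 1),
    Σ e : away T (Ac.proj x) k, Ac.entry D (e : V × V) =>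
      prob H p (connTo (Ac.outE D a.2.1) x {(a.2.2 : W)})]
  exact ENNReal.tsum_comp_le_tsum_of_injective
    (f := fun a : Ac.EntriesNear D (Ac.proj x) B =>
      (⟨⟨T.dist (Ac.proj x) a.1.1.1, Nat.lt_succ_of_le a.2.2.2.1⟩,
        ⟨a.1.1, a.2.1, a.2.2.1, rfl⟩, a.1.2, a.2.2.2.2⟩ :
          Σ k : Fin (B + 1), Σ e : away T (Ac.proj x) k, Ac.entry D (e : V × V)))
    (fun a b h => Subtype.ext (congrArg
      (fun t : Σ k : Fin (B + 1), Σ e : away T (Ac.proj x) k, Ac.entry D (e : V × V) =>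
        ((t.2.1 : V × V), (t.2.2 : W))) h)) _

/-- One fibre through short excursions, cut at their farthest point, and long ones. -/
theorem exists_fib_le (hH : H.Connected) (D : ℕ) {p₀ : ℝ} (hp₀ : 0 < p₀) :
    ∃ (C : ℝ≥0∞) (Rc R₁ : ℕ), C ≠ ⊤ ∧ ∀ p, p₀ ≤ p → p ≤ 1 → ∀ L : ℕ,
      Ac.fib p Ac.R ≤ C * (∑ k ∈ range (L + Rc + 1), Ac.meanSphere D p k) ^ 2 +
        C * Ac.meanSphere D p (L + R₁) * Ac.meanFar D p L * Ac.fib p Ac.R := by
  classical
  obtain ⟨C₁, hC₁, hthru⟩ := Ac.exists_fibre_through hH D hp₀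
  obtain ⟨ℓ, K, -, hbey⟩ := Ac.exists_beyond hH D
  obtain ⟨d, hd⟩ := Ac.degree_bound
  have hc : ENNReal.ofReal p₀ ^ ℓ ≠ 0 := pow_ne_zero _ (ENNReal.ofReal_pos.2 hp₀).ne'
  set c₀ := (ENNReal.ofReal p₀ ^ ℓ)⁻¹
  set Cs : ℝ≥0∞ := c₀ * c₀ * ((d + 1) ^ ℓ : ℕ) * Ac.reps.card
  have hCs : Cs ≠ ⊤ := ENNReal.mul_ne_top (ENNReal.mul_ne_top (ENNReal.mul_ne_top
    (ENNReal.inv_ne_top.2 hc) (ENNReal.inv_ne_top.2 hc)) (ENNReal.natCast_ne_top _))
    (ENNReal.natCast_ne_top _)
  refine ⟨Cs + C₁, 2 * Ac.R + D + K, Ac.R, ENNReal.add_ne_top.2 ⟨hCs, hC₁⟩,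
    fun p hp h1 L => iSup_le fun x => iSup₂_le fun q hq => ?_⟩
  have h0 : 0 ≤ p := hp₀.le.trans hp
  set o := Ac.proj x
  set L₁ := L + Ac.R
  set B := L₁ + D + K
  set S := ∑ k ∈ range (L + (2 * Ac.R + D + K) + 1), Ac.meanSphere D p k
  choose cw hcw hcK hfar w' hw' qw hqw using hbey o
  have hwc : ∀ w, w ∉ Ac.core D (cw w) := fun w h => lt_irrefl _ (hfar w _ (Ac.core_subset h))
  choose aw haw qa hqa hEa _ using fun w =>
    Ac.exists_entry_on_walk (qw w) (hwc w) (hw' w)
  set near := {w : W | T.dist o (Ac.proj w) ≤ L₁ + D ∧ T.dist o q ≤ T.dist o (Ac.proj w)}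
  let Ent := {a : Ac.EntriesNear D o B // q ∉ cone T (a : (V × V) × W).1}
  have hent : ∀ w : near, ((cw w, aw w) : (V × V) × W) ∈ Ac.EntriesNear D o B ∧
      q ∉ cone T (cw w) := by
    rintro ⟨w, hw₁, hw₂⟩
    refine ⟨⟨hcw w, fun h => ?_, (hcK w).trans (by omega), haw w⟩, fun h => ?_⟩
    · have := hfar w o h
      rw [SimpleGraph.dist_self] at this
      exact Nat.not_lt_zero _ this
    · exact absurd (hfar w q h) (not_lt.2 hw₂)
  let u : near → Ent := fun w => ⟨⟨_, (hent w).1⟩, (hent w).2⟩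
  let g : Ent → ℝ≥0∞ := fun a =>
    prob H p (connTo (Ac.outE D (a.1 : (V × V) × W).1) x {(a.1 : (V × V) × W).2})
  let Hz : Ent → ℝ≥0∞ := fun a => ∑' z : {z | Ac.proj z = q},
    prob H p (connTo (Ac.outE D (a.1 : (V × V) × W).1) (z : W) {(a.1 : (V × V) × W).2})
  have hHz : ∀ a : Ent, Hz a ≤ Ac.reps.card * S := by
    rintro ⟨⟨⟨c, a⟩, hc', hoc, hcB, ha⟩, hqc⟩
    choose hh rr hrr hzz using Ac.cover
    have hproj : ∀ z : {z | Ac.proj z = q}, hh (z : W) • Ac.f₀.2 = q := fun z => by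
      rw [← Ac.proj_rep _ (hrr z), ← Ac.proj_smul, hzz]
      exact z.2
    have hmem : ∀ z : {z | Ac.proj z = q}, (((hh (z : W))⁻¹ • c, (hh (z : W))⁻¹ • a) :
        (V × V) × W) ∈ Ac.EntriesNear D (Ac.proj (rr z)) (B + Ac.R) := by
      intro z
      rw [Ac.proj_rep _ (hrr z)]
      refine ⟨(Ac.tree_smul _ _ _).2 hc', fun h => hqc ?_, ?_, ?_⟩
      · have := (Ac.mem_cone_smul (hh (z : W)) _ _).2 h
        rwa [smul_inv_smul, hproj] at this
      · rw [← Ac.dist_smul (hh (z : W)), hproj, ← Prod.smul_fst, smul_inv_smul]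
        have h2 := Ac.isTree.connected.dist_triangle (u := q) (v := o) (w := c.1)
        rw [SimpleGraph.dist_comm (u := q) (v := o)] at h2
        change T.dist o c.1 ≤ B at hcB
        omega
      · show (hh (z : W))⁻¹ • a ∈ Ac.entry D ((hh (z : W))⁻¹ • c)
        rw [← Ac.smul_entry]
        exact Set.mem_image_of_mem _ ha
    calc ∑' z : {z | Ac.proj z = q}, prob H p (connTo (Ac.outE D c) (z : W) {a})
        ≤ ∑' t : Σ r : Ac.reps, Ac.EntriesNear D (Ac.proj r) (B + Ac.R),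
            prob H p (connTo (Ac.outE D (t.2 : (V × V) × W).1) t.1
              {(t.2 : (V × V) × W).2}) := by
          refine le_trans (le_of_eq (tsum_congr fun z => ?_))
            (ENNReal.tsum_comp_le_tsum_of_injective
              (f := fun z : {z | Ac.proj z = q} => (⟨⟨rr z, hrr z⟩, _, hmem z⟩ :
                Σ r : Ac.reps, Ac.EntriesNear D (Ac.proj r) (B + Ac.R)))
              (fun z z' h => ?_) _)
          · conv_rhs => rw [← Ac.prob_outE_smul D p (hh (z : W))]
            simp only [smul_inv_smul, hzz]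
          · have hr : rr (z : W) = rr z' := congrArg
              (fun t : Σ r : Ac.reps, Ac.EntriesNear D (Ac.proj r) (B + Ac.R) => (t.1 : W)) h
            have ha' : (hh (z : W))⁻¹ • a = (hh (z' : W))⁻¹ • a := congrArg
              (fun t : Σ r : Ac.reps, Ac.EntriesNear D (Ac.proj r) (B + Ac.R) =>
                (t.2 : (V × V) × W).2) h
            exact Subtype.ext (by
              rw [← hzz z, ← hzz z', hr, inv_injective (Ac.eq_of_smul_eq ha')])
      _ = ∑' r : Ac.reps, ∑' t : Ac.EntriesNear D (Ac.proj r) (B + Ac.R),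
            prob H p (connTo (Ac.outE D (t : (V × V) × W).1) r {(t : (V × V) × W).2}) :=
          ENNReal.tsum_sigma' _
      _ ≤ ∑' _r : Ac.reps, S := ENNReal.tsum_le_tsum fun r =>
          (Ac.entries_near_le D p r (B + Ac.R)).trans
            (sum_le_sum_of_subset_of_nonneg (range_subset_range.2 (by omega)) fun _ _ _ => zero_le)
      _ = _ := by simp [tsum_fintype]
  have hgS : ∑' a, g a ≤ S := (ENNReal.tsum_comp_le_tsum_of_injective Subtype.val_injective
    fun a : Ac.EntriesNear D o B => prob H p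
      (connTo (Ac.outE D (a : (V × V) × W).1) x {(a : (V × V) × W).2})).trans
    ((Ac.entries_near_le D p x B).trans
      (sum_le_sum_of_subset_of_nonneg (range_subset_range.2 (by omega)) fun _ _ _ => zero_le))
  have hcount : ∑' w : near, g (u w) * Hz (u w) ≤ ((d + 1) ^ ℓ : ℕ) * ∑' a, g a * Hz a := by
    refine tsum_comp_le_card u (fun a => g a * Hz a) fun a =>
      ⟨Finset.subtype (fun w => w ∈ near) (ball H (a.1 : (V × V) × W).2 ℓ), ?_, ?_⟩
    · rw [card_subtype]
      exact (card_filter_le _ _).trans (card_ball_le hd _ ℓ)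
    · rintro w rfl
      rw [mem_subtype]
      exact mem_ball_of_walk (qa w) ((hqa w).trans (hqw w))
  let Long := Σ c : away T o L₁, Ac.entry D (c : V × V)
  let fL : Long → W → ℝ≥0∞ := fun a z =>
    prob H p (connTo (Ac.outE D a.1) x {(a.2 : W)}) *
      prob H p (connTo Set.univ (a.2 : W) {z})
  let fS : near → W → ℝ≥0∞ := fun w z =>
    prob H p (connTo (Ac.outE D (cw w)) x {(w : W)}) *
      prob H p (connTo (Ac.outE D (cw w)) (w : W) {z})
  have hz : ∀ z : {z | Ac.proj z = q}, prob H p (connTo Set.univ x {(z : W)}) ≤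
      (∑' a, fL a z) + ∑' w, fS w z := by
    intro z
    refine (prob_conn_le_cut h0 h1 Set.univ x z (ι := Long ⊕ near)
      (Sum.elim (fun a => Ac.outE D a.1) fun w => Ac.outE D (cw w))
      (Sum.elim (fun _ => Set.univ) fun w => Ac.outE D (cw w))
      (Sum.elim (fun a => (a.2 : W)) fun w => (w : W)) fun r _ _ => ?_).trans_eq
      (Summable.tsum_sum ENNReal.summable ENNReal.summable)
    by_cases h : ∃ w ∈ r.support, L₁ + D < T.dist o (Ac.proj w)
    · obtain ⟨w, hw, hd'⟩ := h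
      obtain ⟨c, hc', hoc, hwc', hcd, -⟩ := edge_between Ac.isTree (v := o) (w := Ac.proj w)
        (i := L₁) (by omega)
      have hcore : w ∈ Ac.core D c := Ac.mem_core_of_deep hwc' (by
        have h2 := dist_through Ac.isTree hc' hwc' hoc
        rw [SimpleGraph.dist_comm (u := Ac.proj w) (v := o),
          SimpleGraph.dist_comm (u := Ac.proj w) (v := c.2),
          SimpleGraph.dist_comm (u := c.1) (v := o), hcd] at h2
        omega)
      obtain ⟨a, ha, q₁, q₂, he, hE₁⟩ :=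
        Ac.split_first r (fun h => hoc (Ac.core_subset h)) ⟨w, hw, hcore⟩
      exact ⟨.inl ⟨⟨c, hc', hoc, hcd⟩, a, ha⟩, q₁, q₂, he, hE₁, fun s _ => Set.mem_univ s⟩
    · push Not at h
      obtain ⟨w, hw, hmax⟩ := r.support.toFinset.exists_max_image
        (fun w => T.dist o (Ac.proj w)) ⟨x, List.mem_toFinset.2 r.start_mem_support⟩
      rw [List.mem_toFinset] at hw
      have hq' := hmax z (List.mem_toFinset.2 r.end_mem_support)
      rw [show Ac.proj (z : W) = q from z.2] at hq'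
      have hE : ∀ s ∈ r.edges, s ∈ Ac.outE D (cw w) := by
        intro s hs
        induction s with
        | h a b =>
          exact Ac.outE_of_not_cone fun ha => absurd (hfar w _ ha)
            (not_lt.2 (hmax a (List.mem_toFinset.2 (r.fst_mem_support_of_mem_edges hs))))
      have hsplit : r.edges = (r.takeUntil w hw).edges ++ (r.dropUntil w hw).edges := by
        conv_lhs => rw [← r.take_spec hw]
        exact SimpleGraph.Walk.edges_append _ _
      exact ⟨.inr ⟨w, h w hw, hq'⟩, r.takeUntil w hw, r.dropUntil w hw, hsplit,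
        fun s hs => hE s (hsplit ▸ List.mem_append_left _ hs),
        fun s hs => hE s (hsplit ▸ List.mem_append_right _ hs)⟩
  have hlong : ∑' z : {z | Ac.proj z = q}, ∑' a, fL a z ≤
      C₁ * Ac.meanSphere D p (L + Ac.R) * Ac.meanFar D p L * Ac.fib p Ac.R := by
    rw [ENNReal.tsum_comm]
    calc ∑' a : Long, ∑' z : {z | Ac.proj z = q}, fL a z
        = ∑' a : Long, prob H p (connTo (Ac.outE D a.1) x {(a.2 : W)}) *
            mean H p Set.univ (a.2 : W) {z | Ac.proj z = q} :=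
          tsum_congr fun a => ENNReal.tsum_mul_left
      _ ≤ ∑' a : Long, prob H p (connTo (Ac.outE D a.1) x {(a.2 : W)}) *
            (C₁ * Ac.meanFar D p L * Ac.fib p Ac.R) := by
          refine ENNReal.tsum_le_tsum fun ⟨⟨c, hc', hoc, hcd⟩, a, ha⟩ => mul_le_mul_right ?_ _
          have h2 := dist_through Ac.isTree hc' (Ac.core_subset ha.1) hoc
          rw [SimpleGraph.dist_comm (u := c.1) (v := o), hcd] at h2
          have h3 := Ac.isTree.connected.dist_triangle (u := Ac.proj a) (v := q) (w := o)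
          rw [SimpleGraph.dist_comm (u := q) (v := o)] at h3
          obtain ⟨e, he, hae, hqe, hed, -⟩ := edge_between Ac.isTree (v := Ac.proj a) (w := q)
            (i := T.dist (Ac.proj a) q - 1) (by omega)
          have h4 := dist_through Ac.isTree he hqe hae
          rw [SimpleGraph.dist_comm (u := q) (v := Ac.proj a),
            SimpleGraph.dist_comm (u := e.1) (v := Ac.proj a), hed] at h4
          have hqe2 : q = e.2 := Ac.isTree.connected.dist_eq_zero_iff.1 (by omega)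
          rw [hqe2]
          exact (hthru p hp h1 a e he hae).trans (mul_le_mul_left (mul_le_mul_right
            (Ac.halfMean_le_meanFar he hae (by omega)) _) _)
      _ ≤ Ac.meanSphere D p L₁ * (C₁ * Ac.meanFar D p L * Ac.fib p Ac.R) := by
          rw [ENNReal.tsum_mul_right]
          refine mul_le_mul_left ((le_of_eq ?_).trans (Ac.sphere_le_meanSphere D p x L₁)) _
          exact ENNReal.tsum_sigma' _
      _ = _ := by ring
  have hshort : ∑' z : {z | Ac.proj z = q}, ∑' w, fS w z ≤ Cs * S ^ 2 := by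
    rw [ENNReal.tsum_comm]
    calc ∑' w : near, ∑' z : {z | Ac.proj z = q}, fS w z
        ≤ ∑' w : near, c₀ * c₀ * (g (u w) * Hz (u w)) := by
          refine ENNReal.tsum_le_tsum fun w => ?_
          have hl : (qa w).length ≤ ℓ := (hqa w).trans (hqw w)
          refine (ENNReal.tsum_le_tsum fun z => ?_).trans_eq (b := ∑' z : {z | Ac.proj z = q},
            c₀ * c₀ * (g (u w) * prob H p
              (connTo (Ac.outE D (cw w)) (z : W) {aw w}))) ?_
          · calc fS w z ≤ (c₀ * g (u w)) *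
                  (c₀ * prob H p (connTo (Ac.outE D (cw w)) (z : W) {aw w})) :=
                mul_le_mul' (land_le hp₀ hp h1 (qa w) hl (hEa w))
                  (by rw [prob_conn_symm]; exact land_le hp₀ hp h1 (qa w) hl (hEa w))
              _ = _ := by ring
          · rw [ENNReal.tsum_mul_left, ENNReal.tsum_mul_left]
      _ ≤ c₀ * c₀ * (((d + 1) ^ ℓ : ℕ) * ∑' a, g a * Hz a) := by
          rw [ENNReal.tsum_mul_left]
          exact mul_le_mul_right hcount _
      _ ≤ c₀ * c₀ * (((d + 1) ^ ℓ : ℕ) * (S * (Ac.reps.card * S))) := by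
          refine mul_le_mul_right (mul_le_mul_right ?_ _) _
          refine (ENNReal.tsum_le_tsum fun a => mul_le_mul_right (hHz a) _).trans ?_
          rw [ENNReal.tsum_mul_right]
          exact mul_le_mul_left hgS _
      _ = _ := by ring
  refine (ENNReal.tsum_le_tsum hz).trans (ENNReal.tsum_add.trans_le ?_)
  rw [add_comm]
  refine add_le_add (hshort.trans (mul_le_mul_left le_self_add _)) (hlong.trans ?_)
  exact mul_le_mul_left (mul_le_mul_left (mul_le_mul_left le_add_self _) _) _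

end Vale.Agent.P165.Tree.Act
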