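import Vale.Agent.P165.Tree.Basic
import Vale.Agent.P165.Quot.Continue
import Vale.Agent.P165.Quot.Series

/-!
Fast decay of the entry means gives a bounded tilted susceptibility at the threshold and a
nonuniqueness phase. The tilt is the height seen from the end of the powers of a push.
-/

open Finset
open scoped ENNReal unitInterval

namespace Vale.Agent.P165.Tree

open Vale.Agent.P165.Quot

variable {W V Γ : Type*}

/-- The heights seen from the points of a geodesic sequence are eventually constant. -/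
lemma exists_height {T : SimpleGraph V} (hT : T.Connected) {o : ℕ → V} {d : ℕ}
    (h0 : ∀ j, T.dist (o 0) (o j) = j * d) (h1 : ∀ j, T.dist (o j) (o (j + 1)) ≤ d) :
    ∃ h : V → ℤ, ∀ v, ∃ N : ℕ, ∀ j : ℕ, N ≤ j → h v = (j : ℤ) * d - T.dist v (o j) := by
  have hv : ∀ v, ∃ (c : ℤ) (N : ℕ), ∀ j : ℕ, N ≤ j → c = (j : ℤ) * d - T.dist v (o j) := by
    intro v
    set g : ℕ → ℕ := fun j => T.dist v (o j) + T.dist (o 0) v - j * d with hg
    have hle : ∀ j, j * d ≤ T.dist v (o j) + T.dist (o 0) v := fun j => by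
      have := hT.dist_triangle (u := o 0) (v := v) (w := o j)
      rw [h0] at this
      omega
    have hanti : Antitone g := antitone_nat_of_succ_le fun j => by
      have := hT.dist_triangle (u := v) (v := o j) (w := o (j + 1))
      have := h1 j
      have := hle j
      have := hle (j + 1)
      simp only [hg, Nat.succ_mul] at *
      omega
    classical
    have hex : ∃ m, ∃ j, g j = m := ⟨g 0, 0, rfl⟩
    obtain ⟨N, hN⟩ := Nat.find_spec hex
    refine ⟨(T.dist (o 0) v : ℤ) - g N, N, fun j hj => ?_⟩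
    have e : g j = g N := le_antisymm (hanti hj) (hN.le.trans (Nat.find_min' hex ⟨j, rfl⟩))
    have := hle j
    have e2 : (g j : ℤ) + (j : ℤ) * d = T.dist v (o j) + T.dist (o 0) v := by
      rw [← Nat.cast_mul, ← Nat.cast_add, ← Nat.cast_add]
      congr 1
      simp only [hg]
      omega
    rw [e] at e2
    linarith
  choose h N hN using hv
  exact ⟨h, fun v => ⟨N v, hN v⟩⟩

/-- A walk from outside a set to a point of it splits at the first point of the set. -/
lemma exists_first_point {H : SimpleGraph W} {A : Set W} {x y : W} (q : H.Walk x y) (hx : x ∉ A)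
    (hy : y ∈ A) : ∃ (a : W) (q₁ : H.Walk x a) (q₂ : H.Walk a y), q = q₁.append q₂ ∧ a ∈ A ∧
      (∃ b, H.Adj a b ∧ b ∉ A) ∧ ∀ s ∈ q₁.edges, s ∈ (inside A)ᶜ := by
  induction q with
  | nil => exact absurd hy hx
  | @cons u v w h q ih =>
    by_cases hv : v ∈ A
    · refine ⟨v, SimpleGraph.Walk.cons h SimpleGraph.Walk.nil, q, by simp, hv, ⟨u, h.symm, hx⟩,
        fun s hs => ?_⟩
      simp only [SimpleGraph.Walk.edges_cons, SimpleGraph.Walk.edges_nil, List.mem_singleton] at hs
      subst hs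
      exact fun h' => hx (h' u (Sym2.mem_mk_left _ _))
    · obtain ⟨a, q₁, q₂, e, ha, hb, hq₁⟩ := ih hv hy
      refine ⟨a, SimpleGraph.Walk.cons h q₁, q₂, by rw [e, SimpleGraph.Walk.cons_append], ha, hb,
        fun s hs => ?_⟩
      rw [SimpleGraph.Walk.edges_cons, List.mem_cons] at hs
      rcases hs with rfl | hs
      · exact fun h' => hx (h' u (Sym2.mem_mk_left _ _))
      · exact hq₁ s hs

namespace Act

variable [Group Γ] [MulAction Γ W] [MulAction Γ V] {H : SimpleGraph W}
  [DecidableEq W] {T : SimpleGraph V} (Ac : Act (Γ := Γ) H T)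

/-- A connection into a core passes an entry, reached outside the core. -/
lemma prob_conn_le_entry {D : ℕ} {p : ℝ} (h0 : 0 ≤ p) (h1 : p ≤ 1) {c : V × V} {x z : W}
    (hx : x ∉ Ac.core D c) (hz : z ∈ Ac.core D c) :
    prob H p (connTo Set.univ x {z}) ≤ ∑' a : Ac.entry D c,
      prob H p (connTo (Ac.outE D c) x {(a : W)}) * prob H p (connTo Set.univ (a : W) {z}) := by
  classical
  refine le_trans ?_ (ENNReal.tsum_le_tsum fun a =>
    prob_box_le h0 h1 (incr_connTo (Ac.outE D c) x {(a : W)})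
      (incr_connTo Set.univ (a : W) {z}))
  refine le_trans (prob_mono h0 h1 ?_) (prob_exists_le h0 h1)
  rintro S hS ⟨w, rfl, hw⟩
  obtain ⟨r₀⟩ := mem_cl_single.1 hw
  let r := r₀.bypass
  have hr : ∀ e ∈ r.edges, e ∈ inPart Set.univ S := fun e he => by
    have := r.edges_subset_edgeSet he
    rw [SimpleGraph.edgeSet_fromEdgeSet] at this
    exact this.1
  let q : H.Walk x w := r.transfer H fun e he => hS (mem_inPart.1 (hr e he)).1
  have hqe : q.edges = r.edges := SimpleGraph.Walk.edges_transfer _ _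
  have hqp : q.IsPath := r₀.bypass_isPath.transfer _
  obtain ⟨a, q₁, q₂, e, ha, ⟨b, hab, hb⟩, hq₁⟩ := exists_first_point q hx hz
  have hspec : q.edges = q₁.edges ++ q₂.edges := by
    rw [e]
    exact SimpleGraph.Walk.edges_append _ _
  have hnd := hqp.isTrail.edges_nodup
  rw [hspec] at hnd
  have hd := (List.nodup_append.1 hnd).2.2
  have hmem : ∀ s ∈ q.edges, s ∈ S := fun s hs => (mem_inPart.1 (hr s (hqe ▸ hs))).1
  refine ⟨⟨a, ha, b, hab, hb⟩, q₁.edges.toFinset, q₂.edges.toFinset,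
    fun s hs => hmem s (hspec ▸ List.mem_append_left _ (List.mem_toFinset.1 hs)),
    fun s hs => hmem s (hspec ▸ List.mem_append_right _ (List.mem_toFinset.1 hs)), ?_,
    ⟨a, rfl, mem_cl_of_hwalk _ fun s hs => mem_inPart.2 ⟨List.mem_toFinset.2 hs, hq₁ s hs⟩⟩,
    ⟨_, rfl, mem_cl_of_hwalk _ fun s hs => mem_inPart.2 ⟨List.mem_toFinset.2 hs, trivial⟩⟩⟩
  rw [Finset.disjoint_left]
  intro s hs hs'
  exact hd s (List.mem_toFinset.1 hs) s (List.mem_toFinset.1 hs') rfl

/-- Connections damped by the tree distance are bounded through the levels. -/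
lemma sum_damped_le {p lam : ℝ} {ℓ : ℕ → ℝ} (hℓ0 : ∀ k, 0 ≤ ℓ k)
    (hlev : ∀ k, Ac.level p k ≤ ENNReal.ofReal (ℓ k))
    (hsum : Summable fun k : ℕ => ℓ k * Real.exp (-lam * k)) (a : W) (Λ : Finset W) :
    ∑ z ∈ Λ, ENNReal.ofReal (Real.exp (-lam * T.dist (Ac.proj a) (Ac.proj z))) *
        prob H p (connTo Set.univ a {z}) ≤
      ENNReal.ofReal (∑' k : ℕ, ℓ k * Real.exp (-lam * k)) := by
  classical
  set key : W → ℕ := fun z => T.dist (Ac.proj a) (Ac.proj z)
  rw [← sum_fiberwise_of_maps_to (t := Λ.image key) fun z hz => mem_image_of_mem key hz]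
  calc ∑ k ∈ Λ.image key, ∑ z ∈ Λ with key z = k,
        ENNReal.ofReal (Real.exp (-lam * T.dist (Ac.proj a) (Ac.proj z))) *
          prob H p (connTo Set.univ a {z})
      ≤ ∑ k ∈ Λ.image key, ENNReal.ofReal (ℓ k * Real.exp (-lam * k)) := by
        refine sum_le_sum fun k _ => ?_
        rw [mul_comm (ℓ k), ENNReal.ofReal_mul (Real.exp_nonneg _)]
        calc ∑ z ∈ Λ with key z = k,
              ENNReal.ofReal (Real.exp (-lam * T.dist (Ac.proj a) (Ac.proj z))) *
                prob H p (connTo Set.univ a {z})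
            = ENNReal.ofReal (Real.exp (-lam * k)) *
                ∑ z ∈ Λ with key z = k, prob H p (connTo Set.univ a {z}) := by
              rw [mul_sum]
              exact sum_congr rfl fun z hz => by rw [show T.dist (Ac.proj a) (Ac.proj z) = k from
                (mem_filter.1 hz).2]
          _ ≤ _ := by
              refine mul_le_mul_right (le_trans ?_ (hlev k)) _
              refine le_iSup_of_le a ?_
              rw [← Finset.tsum_subtype' (Λ.filter fun z => key z = k)
                fun z => prob H p (connTo Set.univ a {z})]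
              exact ENNReal.tsum_mono_subtype (fun z => prob H p (connTo Set.univ a {z}))
                fun z hz => (mem_filter.1 hz).2
    _ ≤ _ := by
        rw [← ENNReal.ofReal_sum_of_nonneg fun k _ => mul_nonneg (hℓ0 k) (Real.exp_nonneg _)]
        exact ENNReal.ofReal_le_ofReal
          (hsum.sum_le_tsum _ fun k _ => mul_nonneg (hℓ0 k) (Real.exp_nonneg _))

/-- The sum tilted towards a vertex of the tree. -/
lemma sum_tilt_le {D : ℕ} {p lam A : ℝ} (h0 : 0 ≤ p) (h1 : p ≤ 1) (hlam : 0 < lam) (hA : 0 ≤ A)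
    {ℓ : ℕ → ℝ} (hℓ0 : ∀ k, 0 ≤ ℓ k) (hlev : ∀ k, Ac.level p k ≤ ENNReal.ofReal (ℓ k))
    (hsum : Summable fun k : ℕ => ℓ k * Real.exp (-lam * k))
    (hfar : ∀ m : ℕ, Ac.meanFar D p m ≤ ENNReal.ofReal (A * Real.exp (-(2 * lam) * m)))
    (t : V) (x : W) (Λ : Finset W) :
    ∑ z ∈ Λ, ENNReal.ofReal (Real.exp (lam * ((T.dist (Ac.proj x) t : ℝ) -
        T.dist (Ac.proj z) t))) * prob H p (connTo Set.univ x {z}) ≤
      ENNReal.ofReal ((Real.exp (2 * lam * D) + Real.exp (lam * (1 + 2 * D + Ac.R)) * A *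
        ∑' m : ℕ, Real.exp (-lam * m)) * ∑' k : ℕ, ℓ k * Real.exp (-lam * k)) := by
  classical
  have hT := Ac.isTree
  have hconn := hT.connected
  set n := T.dist (Ac.proj x) t with hn
  have hce : ∀ m, ∃ c : V × V, m < n → T.Adj c.1 c.2 ∧ Ac.proj x ∉ cone T c ∧ t ∈ cone T c ∧
      T.dist (Ac.proj x) c.1 = m := fun m => by
    by_cases hm : m < n
    · obtain ⟨c, h1, h2, h3, h4, -⟩ := edge_between hT (v := Ac.proj x) (w := t) hm
      exact ⟨c, fun _ => ⟨h1, h2, h3, h4⟩⟩
    · exact ⟨Ac.f₀, fun h => absurd h hm⟩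
  choose c hc using hce
  have hex : ∀ z : W, ∃ m, n ≤ m ∨ Ac.proj z ∉ cone T (c m) := fun z => ⟨n, Or.inl le_rfl⟩
  set ι : W → ℕ := fun z => Nat.find (hex z) with hι
  have hιn : ∀ z, ι z ≤ n := fun z => Nat.find_min' _ (Or.inl le_rfl)
  have hin : ∀ z m, m < ι z → Ac.proj z ∈ cone T (c m) := fun z m hm =>
    by_contra fun h => Nat.find_min (hex z) hm (Or.inr h)
  have hd : ∀ z, ι z ≤ T.dist (Ac.proj x) (Ac.proj z) := by
    intro z
    rcases Nat.eq_zero_or_pos (ι z) with h | h
    · omega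
    · obtain ⟨a1, a2, -, a4⟩ := hc (ι z - 1) (by have := hιn z; omega)
      have h3 := dist_through hT a1 (hin z _ (by omega)) a2
      rw [T.dist_comm (u := (c (ι z - 1)).1) (v := Ac.proj x), a4,
        T.dist_comm (u := Ac.proj z) (v := Ac.proj x)] at h3
      omega
  have hΔ : ∀ z, n + T.dist (Ac.proj x) (Ac.proj z) ≤ 2 * ι z + T.dist (Ac.proj z) t := by
    intro z
    rcases lt_or_eq_of_le (hιn z) with h | h
    · obtain ⟨a1, a2, a3, a4⟩ := hc (ι z) h
      have hz : Ac.proj z ∉ cone T (c (ι z)) :=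
        (Nat.find_spec (hex z)).resolve_left (Nat.not_le.2 h)
      have e1 := dist_through hT a1 a3 hz
      have e2 := dist_through hT a1 a3 a2
      rw [T.dist_comm (u := (c (ι z)).1) (v := Ac.proj x), a4,
        T.dist_comm (u := t) (v := Ac.proj x), ← hn] at e2
      rw [T.dist_comm (u := t) (v := Ac.proj z)] at e1
      have := hconn.dist_triangle (u := Ac.proj x) (v := (c (ι z)).1) (w := Ac.proj z)
      omega
    · have htri := hconn.dist_triangle (u := Ac.proj x) (v := t) (w := Ac.proj z)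
      rw [← hn, T.dist_comm (u := t) (v := Ac.proj z)] at htri
      omega
  set τ : W → ℝ≥0∞ := fun z => prob H p (connTo Set.univ x {z})
  set L := ∑' k : ℕ, ℓ k * Real.exp (-lam * k)
  have hL0 : 0 ≤ L := tsum_nonneg fun k => mul_nonneg (hℓ0 k) (Real.exp_nonneg _)
  set w : W → ℝ := fun z => Real.exp (lam * ((n : ℝ) - T.dist (Ac.proj z) t))
  have hw : ∀ z, w z ≤ Real.exp (lam * (2 * (ι z : ℝ) - T.dist (Ac.proj x) (Ac.proj z))) := by
    intro z
    refine Real.exp_le_exp.2 (mul_le_mul_of_nonneg_left ?_ hlam.le)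
    have := (Nat.cast_le (α := ℝ)).2 (hΔ z)
    push_cast at this
    linarith
  -- the shallow part
  have hsmall : ∑ z ∈ Λ with ι z ≤ D, ENNReal.ofReal (w z) * τ z ≤
      ENNReal.ofReal (Real.exp (2 * lam * D) * L) := by
    rw [ENNReal.ofReal_mul (Real.exp_nonneg _)]
    refine le_trans ?_ (mul_le_mul_right (Ac.sum_damped_le hℓ0 hlev hsum x Λ) _)
    rw [mul_sum]
    refine (sum_le_sum fun z hz => ?_).trans (sum_le_sum_of_subset (filter_subset _ _))
    rw [← mul_assoc, ← ENNReal.ofReal_mul (Real.exp_nonneg _), ← Real.exp_add]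
    refine mul_le_mul_left (ENNReal.ofReal_le_ofReal ((hw z).trans (Real.exp_le_exp.2 ?_))) _
    have := mul_le_mul_of_nonneg_left ((Nat.cast_le (α := ℝ)).2 (mem_filter.1 hz).2) hlam.le
    linarith
  -- one deep branch
  have hdeep : ∀ m, m + D < n → ∑ z ∈ Λ with ι z = m + 1 + D, ENNReal.ofReal (w z) * τ z ≤
      ENNReal.ofReal (Real.exp (lam * (1 + 2 * D + Ac.R)) * A * Real.exp (-lam * m) * L) := by
    intro m hm
    obtain ⟨a1, a2, -, a4⟩ := hc m (by omega)
    set cm := c m
    have hx : x ∉ Ac.core D cm := fun h => a2 (Ac.core_subset h)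
    set E : ℝ := Real.exp (lam * ((m : ℝ) + 1 + 2 * D + Ac.R))
    have hstep : ∀ z ∈ Λ.filter (fun z => ι z = m + 1 + D), ENNReal.ofReal (w z) * τ z ≤
        ∑' a : Ac.entry D cm, prob H p (connTo (Ac.outE D cm) x {(a : W)}) *
          (ENNReal.ofReal E * (ENNReal.ofReal (Real.exp
            (-lam * T.dist (Ac.proj (a : W)) (Ac.proj z))) *
            prob H p (connTo Set.univ (a : W) {z}))) := by
      intro z hz
      have hι' : ι z = m + 1 + D := (mem_filter.1 hz).2
      have hzc : Ac.proj z ∈ cone T cm := hin z m (by omega)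
      have h3 := dist_through hT a1 hzc a2
      rw [T.dist_comm (u := cm.1) (v := Ac.proj x), a4,
        T.dist_comm (u := Ac.proj z) (v := Ac.proj x),
        T.dist_comm (u := Ac.proj z) (v := cm.2)] at h3
      have hk := hd z
      have hcore : z ∈ Ac.core D cm := Ac.mem_core_of_deep hzc (by omega)
      refine (mul_le_mul_right (Ac.prob_conn_le_entry h0 h1 hx hcore) _).trans ?_
      rw [← ENNReal.tsum_mul_left]
      refine ENNReal.tsum_le_tsum fun a => ?_
      rw [mul_left_comm]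
      refine mul_le_mul_right ?_ _
      rw [← mul_assoc, ← ENNReal.ofReal_mul (Real.exp_nonneg _), ← Real.exp_add]
      refine mul_le_mul_left (ENNReal.ofReal_le_ofReal ((hw z).trans (Real.exp_le_exp.2 ?_))) _
      have hnear := Ac.gate_near a1 (Ac.entry_subset_gate a.2)
      have htri := hconn.dist_triangle (u := Ac.proj (a : W)) (v := cm.2) (w := Ac.proj z)
      have hkey : 2 * ι z + T.dist (Ac.proj (a : W)) (Ac.proj z) ≤
          (m + 1 + 2 * D + Ac.R) + T.dist (Ac.proj x) (Ac.proj z) := by omega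
      have hkey' := (Nat.cast_le (α := ℝ)).2 hkey
      push_cast at hkey'
      have := mul_le_mul_of_nonneg_left hkey' hlam.le
      linarith
    refine (sum_le_sum hstep).trans ?_
    rw [← Summable.tsum_finsetSum fun _ _ => ENNReal.summable]
    calc (∑' a : Ac.entry D cm, ∑ z ∈ Λ with ι z = m + 1 + D,
          prob H p (connTo (Ac.outE D cm) x {(a : W)}) *
            (ENNReal.ofReal E * (ENNReal.ofReal (Real.exp
              (-lam * T.dist (Ac.proj (a : W)) (Ac.proj z))) *
              prob H p (connTo Set.univ (a : W) {z}))))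
        ≤ ∑' a : Ac.entry D cm, prob H p (connTo (Ac.outE D cm) x {(a : W)}) *
            (ENNReal.ofReal E * ENNReal.ofReal L) := by
          refine ENNReal.tsum_le_tsum fun a => ?_
          rw [← mul_sum, ← mul_sum]
          exact mul_le_mul_right (mul_le_mul_right
            (Ac.sum_damped_le hℓ0 hlev hsum (a : W) _) _) _
      _ = (∑' a : Ac.entry D cm, prob H p (connTo (Ac.outE D cm) x {(a : W)})) *
            (ENNReal.ofReal E * ENNReal.ofReal L) := ENNReal.tsum_mul_right
      _ ≤ ENNReal.ofReal (A * Real.exp (-(2 * lam) * m)) *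
            (ENNReal.ofReal E * ENNReal.ofReal L) := by
          refine mul_le_mul_left ?_ _
          exact le_trans (le_iSup_of_le (f := fun x => ⨆ (e : V × V) (_ : T.Adj e.1 e.2 ∧
            Ac.proj x ∉ cone T e ∧ m ≤ T.dist (Ac.proj x) e.1), Ac.halfMean D p x e) x
            (le_iSup₂_of_le cm ⟨a1, a2, a4.ge⟩ le_rfl)) (hfar m)
      _ = _ := by
          rw [← ENNReal.ofReal_mul (Real.exp_nonneg _), ← ENNReal.ofReal_mul
            (mul_nonneg hA (Real.exp_nonneg _))]
          congr 1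
          have hE : Real.exp (-(2 * lam) * m) * E =
              Real.exp (lam * (1 + 2 * D + Ac.R)) * Real.exp (-lam * m) := by
            rw [← Real.exp_add, ← Real.exp_add]
            congr 1
            ring
          calc A * Real.exp (-(2 * lam) * m) * (E * L)
              = A * (Real.exp (-(2 * lam) * m) * E) * L := by ring
            _ = _ := by rw [hE]; ring
  have hgeo : Summable fun m : ℕ => Real.exp (-lam * m) := by
    simpa using Real.summable_pow_mul_exp_neg_nat_mul 0 hlam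
  set E₀ := Real.exp (lam * (1 + 2 * D + Ac.R))
  rw [← sum_filter_add_sum_filter_not Λ (fun z => ι z ≤ D), add_mul,
    ENNReal.ofReal_add (by positivity)
      (mul_nonneg (mul_nonneg (by positivity) (tsum_nonneg fun _ => Real.exp_nonneg _)) hL0)]
  refine add_le_add hsmall ?_
  rw [← sum_fiberwise_of_maps_to (g := fun z => ι z - 1 - D) (t := range (n - D)) fun z hz => by
    have := (mem_filter.1 hz).2
    have := hιn z
    exact mem_range.2 (by omega)]
  calc ∑ m ∈ range (n - D), ∑ z ∈ (Λ.filter fun z => ¬ι z ≤ D) with ι z - 1 - D = m,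
        ENNReal.ofReal (w z) * τ z
      ≤ ∑ m ∈ range (n - D), ENNReal.ofReal (E₀ * A * Real.exp (-lam * m) * L) := by
        refine sum_le_sum fun m hm => le_trans (le_of_eq (sum_congr ?_ fun _ _ => rfl))
          (hdeep m (by have := mem_range.1 hm; omega))
        ext z
        simp only [mem_filter]
        constructor
        · rintro ⟨⟨h, h'⟩, h''⟩
          exact ⟨h, by omega⟩
        · rintro ⟨h, h'⟩
          exact ⟨⟨h, by omega⟩, by omega⟩
    _ = ENNReal.ofReal (E₀ * A * (∑ m ∈ range (n - D), Real.exp (-lam * m)) * L) := by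
        rw [← ENNReal.ofReal_sum_of_nonneg fun m _ => by positivity, ← sum_mul, ← mul_sum]
    _ ≤ _ := by
        refine ENNReal.ofReal_le_ofReal (mul_le_mul_of_nonneg_right ?_ hL0)
        exact mul_le_mul_of_nonneg_left (hgeo.sum_le_tsum _ fun m _ => Real.exp_nonneg _)
          (by positivity)

/-- Submultiplicative decaying entry means decay exponentially, uniformly in the parameter. -/
lemma exists_exp_decay {D Rc : ℕ} {B : ℝ} (hB : 0 ≤ B) :
    ∃ δ : ℝ, 0 < δ ∧ ∀ p : ℝ,
      (∀ a b : ℕ, Ac.meanFar D p (a + b + Rc) ≤ Ac.meanFar D p a * Ac.meanFar D p b) →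
      (∀ n : ℕ, Ac.meanFar D p n ≤ ENNReal.ofReal (B * ((n : ℝ) + 1) ^ (-(8 : ℝ)))) →
      ∀ n : ℕ, Ac.meanFar D p n ≤ ENNReal.ofReal (2 * B * Real.exp (-δ * n)) := by
  obtain ⟨n₀, hn₀⟩ := exists_nat_gt (2 * B + 1)
  set h := n₀ + Rc with hh
  have hn₀' : 1 ≤ n₀ := by
    have : (0 : ℝ) < n₀ := by linarith
    exact_mod_cast this
  have hh0 : (0 : ℝ) < h := by exact_mod_cast (show 0 < h by omega)
  refine ⟨Real.log 2 / h, div_pos (Real.log_pos one_lt_two) hh0, fun p hadd hbd n => ?_⟩
  set δ := Real.log 2 / h with hδ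
  have hδh : Real.exp (δ * h) = 2 := by
    rw [hδ, div_mul_cancel₀ _ hh0.ne', Real.exp_log two_pos]
  have hhalf : Ac.meanFar D p n₀ ≤ ENNReal.ofReal (1 / 2) := by
    refine (hbd n₀).trans (ENNReal.ofReal_le_ofReal ?_)
    have hpow : ((n₀ : ℝ) + 1) ^ (-(8 : ℝ)) ≤ ((n₀ : ℝ) + 1) ^ (-(1 : ℝ)) :=
      Real.rpow_le_rpow_of_exponent_le (by linarith) (by norm_num)
    rw [Real.rpow_neg_one] at hpow
    refine (mul_le_mul_of_nonneg_left hpow hB).trans ?_
    rw [← div_eq_mul_inv, div_le_iff₀ (by linarith)]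
    linarith
  induction n using Nat.strong_induction_on with
  | _ n ih =>
    rcases Nat.lt_or_ge n h with hn | hn
    · refine (hbd n).trans (ENNReal.ofReal_le_ofReal ?_)
      have hnh : δ * n ≤ δ * h :=
        mul_le_mul_of_nonneg_left (Nat.cast_le.2 hn.le)
          (div_pos (Real.log_pos one_lt_two) hh0).le
      have h2 : (1 : ℝ) / 2 ≤ Real.exp (-δ * n) := by
        rw [show (1 : ℝ) / 2 = Real.exp (-(δ * h)) by rw [Real.exp_neg, hδh, one_div]]
        exact Real.exp_le_exp.2 (by linarith)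
      have hpow : ((n : ℝ) + 1) ^ (-(8 : ℝ)) ≤ 1 :=
        Real.rpow_le_one_of_one_le_of_nonpos (le_add_of_nonneg_left (Nat.cast_nonneg n))
          (by norm_num)
      calc B * ((n : ℝ) + 1) ^ (-(8 : ℝ)) ≤ B * (2 * Real.exp (-δ * n)) :=
            mul_le_mul_of_nonneg_left (by linarith) hB
        _ = _ := by ring
    · obtain ⟨b, rfl⟩ : ∃ b, n = n₀ + b + Rc := ⟨n - h, by omega⟩
      refine (hadd n₀ b).trans ((mul_le_mul' hhalf (ih b (by omega))).trans_eq ?_)
      rw [← ENNReal.ofReal_mul (by norm_num)]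
      congr 1
      have e : Real.exp (-δ * b) = Real.exp (-δ * ((n₀ + b + Rc : ℕ) : ℝ)) * 2 := by
        rw [← hδh, ← Real.exp_add]
        congr 1
        simp only [hh]
        push_cast
        ring
      rw [e]
      ring

variable [H.LocallyFinite]

/-- Submultiplicative decaying entry means and polynomial levels below the threshold give a
nonuniqueness phase. -/
theorem pc_lt_pu_of_bound (hH : H.Connected) (hpc : 0 < pc H) (hpc1 : pc H < 1) (D : ℕ) {B : ℝ}
    {Rc : ℕ}
    (hadd : ∀ p, 0 ≤ p → p ≤ 1 → ∀ a b : ℕ,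
      Ac.meanFar D p (a + b + Rc) ≤ Ac.meanFar D p a * Ac.meanFar D p b)
    (hbd : ∀ p, pc H / 2 ≤ p → p < pc H → ∀ n : ℕ,
      Ac.meanFar D p n ≤ ENNReal.ofReal (B * ((n : ℝ) + 1) ^ (-(8 : ℝ))) ∧
      Ac.level p n ≤ ENNReal.ofReal (B * ((n : ℝ) + 1) ^ 8)) :
    pc H < pu H := by
  classical
  have := Ac.infinite
  set B' := max B 0 with hB'
  have hB0 : 0 ≤ B' := le_max_right _ _
  obtain ⟨δ, hδ, hexp⟩ := Ac.exists_exp_decay (D := D) (Rc := Rc) hB0
  set lam := δ / 2 with hlam
  have hlam0 : 0 < lam := half_pos hδ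
  set ℓ : ℕ → ℝ := fun k => B' * ((k : ℝ) + 1) ^ 8
  have hℓ0 : ∀ k, 0 ≤ ℓ k := fun k => by positivity
  have hsum : Summable fun k : ℕ => ℓ k * Real.exp (-lam * k) := by
    have hs0 : Summable fun k : ℕ => Real.exp (-lam * k) := by
      simpa using Real.summable_pow_mul_exp_neg_nat_mul 0 hlam0
    refine Summable.of_nonneg_of_le (fun k => by positivity) (fun k => ?_)
      ((((Real.summable_pow_mul_exp_neg_nat_mul 8 hlam0).add hs0).mul_left (B' * 256)))
    rw [← add_one_mul, ← mul_assoc]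
    refine mul_le_mul_of_nonneg_right ?_ (Real.exp_nonneg _)
    simp only [ℓ]
    rw [mul_assoc]
    refine mul_le_mul_of_nonneg_left ?_ hB0
    have hk : (0 : ℝ) ≤ k := Nat.cast_nonneg k
    rcases le_total (k : ℝ) 1 with h | h
    · calc ((k : ℝ) + 1) ^ 8 ≤ 2 ^ 8 := pow_le_pow_left₀ (by positivity) (by linarith) 8
        _ ≤ _ := by nlinarith [pow_nonneg hk 8]
    · calc ((k : ℝ) + 1) ^ 8 ≤ (2 * k) ^ 8 := pow_le_pow_left₀ (by positivity) (by linarith) 8
        _ ≤ _ := by rw [mul_pow]; nlinarith [pow_nonneg hk 8]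
  obtain ⟨a, π, -, hd0, hdj, -⟩ := Ac.exists_push hH
  set d := T.dist Ac.f₀.2 (a • Ac.f₀).2 with hd
  set o : ℕ → V := fun j => a ^ j • Ac.f₀.2 with ho
  have ho0 : o 0 = Ac.f₀.2 := by simp [ho]
  have hoj : ∀ i j, T.dist (o i) (o (i + j)) = j * d := fun i j => by
    simp only [ho]
    rw [pow_add, mul_smul, Ac.dist_smul]
    exact hdj j
  obtain ⟨ht, hht⟩ := exists_height Ac.isTree.connected
    (fun j => by simpa using hoj 0 j) (fun j => (hoj j 1).le.trans (one_mul d).le)
  choose N hN using hht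
  have hto : ∀ j : ℕ, ht (o j) = (j : ℤ) * d := fun j => by
    obtain ⟨i, hi⟩ : ∃ i, N (o j) ≤ j + i := ⟨N (o j), by omega⟩
    rw [hN (o j) (j + i) hi, hoj]
    push_cast
    ring
  set f : W → W → ℝ := fun x y => Real.exp (lam * ((ht (Ac.proj y) : ℝ) - ht (Ac.proj x)))
    with hf
  have hf0 : ∀ x y, 0 ≤ f x y := fun x y => Real.exp_nonneg _
  have hfm : ∀ x y z, f x z ≤ f x y * f y z := fun x y z => by
    rw [hf]
    simp only
    rw [← Real.exp_add]
    exact Real.exp_le_exp.2 (by ring_nf; rfl)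
  set Bd := (Real.exp (2 * lam * D) + Real.exp (lam * (1 + 2 * D + Ac.R)) * (2 * B') *
    ∑' m : ℕ, Real.exp (-lam * m)) * ∑' k : ℕ, ℓ k * Real.exp (-lam * k) with hBd
  have hBd0 : 0 ≤ Bd := mul_nonneg (add_nonneg (Real.exp_nonneg _) (mul_nonneg (by positivity)
    (tsum_nonneg fun _ => Real.exp_nonneg _)))
    (tsum_nonneg fun k => mul_nonneg (hℓ0 k) (Real.exp_nonneg _))
  have hbound : ∀ (v : W) (Λ : Finset W) (U : Finset (Sym2 W)), ↑U ⊆ H.edgeSet →
      ∑ z ∈ Λ, f v z * pr (pc H) U (fun S => z ∈ cl {v} S) ≤ Bd := by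
    intro v Λ U hU
    have hcont : Continuous fun q : ℝ => ∑ z ∈ Λ, f v z * pr q U (fun S => z ∈ cl {v} S) :=
      continuous_finsetSum _ fun z _ => continuous_const.mul
        (continuous_iff_continuousAt.2 fun q => (hasDerivAt_pr q U _).continuousAt)
    refine le_of_tendsto ((hcont.tendsto (pc H)).mono_left
      (nhdsWithin_le_nhds (s := Set.Iio (pc H)))) ?_
    filter_upwards [Ioo_mem_nhdsLT (half_lt_self hpc)] with q hq
    have hq0 : 0 ≤ q := (half_pos hpc).le.trans hq.1.le
    have hq1 : q ≤ 1 := hq.2.le.trans hpc1.le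
    have hb := hbd q hq.1.le hq.2
    have hlev : ∀ k, Ac.level q k ≤ ENNReal.ofReal (ℓ k) := fun k => (hb k).2.trans
      (ENNReal.ofReal_le_ofReal (mul_le_mul_of_nonneg_right (le_max_left _ _) (by positivity)))
    have hfar : ∀ m : ℕ, Ac.meanFar D q m ≤
        ENNReal.ofReal (2 * B' * Real.exp (-(2 * lam) * m)) := fun m => by
      rw [show 2 * lam = δ by rw [hlam]; ring]
      exact hexp q (hadd q hq0 hq1) (fun k => (hb k).1.trans (ENNReal.ofReal_le_ofReal
        (mul_le_mul_of_nonneg_right (le_max_left _ _) (by positivity)))) m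
    set J := max (N (Ac.proj v)) (Λ.sup fun z => N (Ac.proj z))
    have hwt : ∀ z ∈ Λ, f v z = Real.exp (lam * ((T.dist (Ac.proj v) (o J) : ℝ) -
        T.dist (Ac.proj z) (o J))) := fun z hz => by
      rw [hf]
      simp only
      rw [hN (Ac.proj v) J (le_max_left _ _), hN (Ac.proj z) J
        ((le_sup (f := fun z => N (Ac.proj z)) hz).trans (le_max_right _ _))]
      congr 1
      push_cast
      ring
    refine (ENNReal.ofReal_le_ofReal_iff hBd0).1 (le_trans ?_
      (Ac.sum_tilt_le hq0 hq1 hlam0 (by positivity) hℓ0 hlev hsum hfar (o J) v Λ))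
    rw [ENNReal.ofReal_sum_of_nonneg fun z _ => mul_nonneg (hf0 v z) (pr_nonneg hq0 hq1 _ _)]
    refine sum_le_sum fun z hz => ?_
    rw [ENNReal.ofReal_mul (hf0 v z), hwt z hz]
    refine mul_le_mul_right (le_trans (le_of_eq ?_) (ofReal_pr_le_prob hU _)) _
    congr 2
    funext S
    have hS : inPart Set.univ S = S := by ext e; simp [mem_inPart]
    simp [connTo, hS]
  obtain ⟨D', hD'⟩ := Ac.degree_bound
  have hL : ∀ x y, H.Adj x y → f x y ≤ Real.exp (lam * Ac.R) := by
    intro x y hxy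
    refine Real.exp_le_exp.2 (mul_le_mul_of_nonneg_left ?_ hlam0.le)
    set J := max (N (Ac.proj x)) (N (Ac.proj y))
    have e1 := hN (Ac.proj x) J (le_max_left _ _)
    have e2 := hN (Ac.proj y) J (le_max_right _ _)
    have htri := Ac.isTree.connected.dist_triangle (u := Ac.proj x) (v := Ac.proj y) (w := o J)
    have hj := Ac.jump x y hxy
    have : ht (Ac.proj y) - ht (Ac.proj x) ≤ (Ac.R : ℤ) := by omega
    exact_mod_cast this
  obtain ⟨q, hpq, hq1, C', hC'⟩ := tilt_open_uniform hf0 hfm hpc.le hpc1 hD' hL hbound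
  refine pc_lt_pu_of_decay hH (q := ⟨q, hpc.le.trans hpq.le, hq1.le⟩) hpq ?_
  refine connDecay_of_tilt (hpc.le.trans hpq.le) hq1.le hC' fun P x M => ?_
  set m₀ := P.sup fun y => (ht (Ac.proj y)).natAbs
  obtain ⟨i, hi⟩ := exists_nat_gt (Real.log (max M 1) / lam)
  set j := m₀ + i + 1 with hj
  obtain ⟨g, r, hr, hgr⟩ := Ac.cover x
  have hx : Ac.proj (Ac.actW (a ^ j * g⁻¹) x) = o j := by
    rw [actW_apply, mul_smul, ← hgr, inv_smul_smul, Ac.proj_smul, Ac.proj_rep r hr]
  have hy : ∀ y ∈ P, (i : ℤ) + 1 ≤ ht (o j) - ht (Ac.proj y) := fun y hy => by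
    have h1 : (ht (Ac.proj y)).natAbs ≤ m₀ := le_sup (f := fun y => (ht (Ac.proj y)).natAbs) hy
    have h2 : (j : ℤ) ≤ ht (o j) := by
      rw [hto]
      exact_mod_cast Nat.le_mul_of_pos_right j hd0
    omega
  refine ⟨Ac.actW (a ^ j * g⁻¹), fun hmem => ?_, fun y hyP => ?_⟩
  · have := hy _ hmem
    rw [hx] at this
    omega
  · rw [hf]
    simp only
    rw [hx]
    calc M ≤ max M 1 := le_max_left _ _
      _ = Real.exp (Real.log (max M 1)) := (Real.exp_log (lt_max_of_lt_right one_pos)).symm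
      _ ≤ _ := by
        refine Real.exp_le_exp.2 ?_
        rw [div_lt_iff₀ hlam0] at hi
        refine hi.le.trans ?_
        rw [mul_comm]
        refine mul_le_mul_of_nonneg_left ?_ hlam0.le
        have h3 : (i : ℤ) ≤ ht (o j) - ht (Ac.proj y) := by linarith [hy y hyP]
        exact_mod_cast h3

end Act

end Vale.Agent.P165.Tree
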