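import Vale.Agent.P165.Tree.Build
import Vale.Agent.P165.Tree.Free
import Vale.Agent.P165.Tree.Hnn
import Vale.Agent.P165.Tree.Cayley
import Vale.Agent.P165.Tree.Amalgam
import Vale.Agent.P165.Tree.Hops
import Vale.Agent.P165.Tree.Chain
import Vale.Agent.P165.Tree.Decay
import Vale.Agent.P165.Tree.Bootstrap
import Vale.Agent.P165.Tree.Tilt

/-!
A connected locally finite graph with a free cofinite action of a group that acts on a tree with a
half-tree containing two disjoint translates of itself and with complement inside a translate has a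
nonuniqueness phase.
-/

open scoped ENNReal

namespace Vale.Agent.P165.Tree

open Vale.Agent.P165.Quot

variable {W V Γ : Type*} [Group Γ] [MulAction Γ W] [MulAction Γ V] {H : SimpleGraph W}
  {T : SimpleGraph V}

/-- The threshold is below the uniqueness threshold for every datum. -/
theorem Act.pc_lt_pu [H.LocallyFinite] (Ac : Act (Γ := Γ) H T) (hH : H.Connected) :
    pc H < pu H := by
  classical
  obtain ⟨hpc, hpc1⟩ := Ac.pc_pos_lt_one hH
  obtain ⟨D, hD⟩ := Ac.exists_hops hH
  obtain ⟨types, hty⟩ := Ac.exists_types D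
  obtain ⟨C, hC, hT⟩ := Ac.exists_tail_bound hH hty (hD D le_rfl types hty)
    (show (0 : ℝ) < 1 / 100000 by norm_num) (by norm_num)
  obtain ⟨A, hA⟩ := Ac.exists_decay D hpc hpc1.le (show (0 : ℝ) < 1 / 100000 by norm_num)
    (by norm_num) hC hT
  obtain ⟨B, -, hB⟩ := Ac.exists_bound hH hpc hpc1.le D
    (show (0 : ℝ) < 1 / 100000 by norm_num) le_rfl hC hT hA
  obtain ⟨Rc, hR⟩ := Ac.exists_meanFar_add hH D
  exact Ac.pc_lt_pu_of_bound hH hpc hpc1 D hR hB

/-- Main theorem. -/
theorem pc_lt_pu_of_tree_action (hlf : ∀ x, (H.neighborSet x).Finite) (hH : H.Connected)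
    (hadj : ∀ (g : Γ) x y, H.Adj (g • x) (g • y) ↔ H.Adj x y)
    (hfree : ∀ (g : Γ) (x : W), g • x = x → g = 1)
    (hfin : ∃ F : Set W, F.Finite ∧ ∀ x, ∃ g : Γ, g • x ∈ F) (hT : T.IsTree) {f : V × V}
    {a b d : Γ} (F : Flip T f a b d) : pc H < pu H := by
  classical
  let _ : H.LocallyFinite := fun x => (hlf x).fintype
  obtain ⟨Ac⟩ := exists_act hH hadj hfree hfin hT F
  exact Ac.pc_lt_pu hH

/-- The Cayley tree of a free quotient is such a tree. -/
theorem pc_lt_pu_of_free_quotient {k : ℕ} (hlf : ∀ x, (H.neighborSet x).Finite) (hH : H.Connected)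
    (hadj : ∀ (g : Γ) x y, H.Adj (g • x) (g • y) ↔ H.Adj x y)
    (hfree : ∀ (g : Γ) (x : W), g • x = x → g = 1)
    (hfin : ∃ F : Set W, F.Finite ∧ ∀ x, ∃ g : Γ, g • x ∈ F) (hk : 2 ≤ k)
    (π : Γ →* FreeGroup (Fin k)) (hπ : Function.Surjective π) : pc H < pu H := by
  let _ := MulAction.compHom (FreeGroup (Fin k)) π
  obtain ⟨f, a, b, d, F⟩ := exists_flip hk π hπ
  exact pc_lt_pu_of_tree_action hlf hH hadj hfree hfin wordTree_isTree F

/-- An HNN extension with proper associated subgroups as a quotient gives such a tree. -/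
theorem pc_lt_pu_of_hnn {G : Type*} [Group G] {A B : Subgroup G} {φ : A ≃* B}
    (hlf : ∀ x, (H.neighborSet x).Finite) (hH : H.Connected)
    (hadj : ∀ (g : Γ) x y, H.Adj (g • x) (g • y) ↔ H.Adj x y)
    (hfree : ∀ (g : Γ) (x : W), g • x = x → g = 1)
    (hfin : ∃ F : Set W, F.Finite ∧ ∀ x, ∃ g : Γ, g • x ∈ F) (hA : A ≠ ⊤) (hB : B ≠ ⊤)
    (π : Γ →* HNNExtension G A B φ) (hπ : Function.Surjective π) : pc H < pu H := by
  let _ := MulAction.compHom (HnnVert φ) π
  obtain ⟨f, a, b, d, F⟩ := exists_flip_hnn hA hB π hπ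
  exact pc_lt_pu_of_tree_action hlf hH hadj hfree hfin hnnTree_isTree F

/-- Cayley graphs of groups virtually mapped onto an HNN extension with proper associated
subgroups. -/
theorem pc_lt_pu_cayley_hnn {X : Type*} [Group X] (S : Finset X)
    (hS : Subgroup.closure (S : Set X) = ⊤) (Δ : Subgroup X) [Δ.FiniteIndex] {G : Type*} [Group G]
    {A B : Subgroup G} {φ : A ≃* B} (hA : A ≠ ⊤) (hB : B ≠ ⊤)
    (π : Δ →* HNNExtension G A B φ) (hπ : Function.Surjective π) :
    pc (SimpleGraph.mulCayley (S : Set X)) < pu (SimpleGraph.mulCayley (S : Set X)) := by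
  obtain ⟨h1, h2, h3, h4, h5⟩ := cayley_data S hS Δ
  exact pc_lt_pu_of_hnn (Γ := Δ) h1 h2 h3 h4 h5 hA hB π hπ

/-- Cayley graphs of groups virtually mapped onto an amalgamated product, the common subgroup having
index at least three in one factor and at least two in the other. -/
theorem pc_lt_pu_cayley_amalgam {X : Type*} [Group X] (S : Finset X)
    (hS : Subgroup.closure (S : Set X) = ⊤) (Δ : Subgroup X) [Δ.FiniteIndex] {C : Type*} [Group C]
    {A : Bool → Type*} [∀ i, Group (A i)] {φ : ∀ i, C →* A i}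
    (hφ : ∀ i, Function.Injective (φ i)) {a₁ a₂ : A true} (h1 : a₁ ∉ (φ true).range)
    (h2 : a₂ ∉ (φ true).range) (h12 : a₁⁻¹ * a₂ ∉ (φ true).range) {b : A false}
    (hb : b ∉ (φ false).range) (π : Δ →* Monoid.PushoutI φ) (hπ : Function.Surjective π) :
    pc (SimpleGraph.mulCayley (S : Set X)) < pu (SimpleGraph.mulCayley (S : Set X)) := by
  obtain ⟨k1, k2, k3, k4, k5⟩ := cayley_data S hS Δ
  let _ := MulAction.compHom (AmalgamVert φ) π
  obtain ⟨f, u, v, d, F⟩ := exists_flip_amalgam hφ h1 h2 h12 hb π hπ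
  exact pc_lt_pu_of_tree_action (Γ := Δ) k1 k2 k3 k4 k5 (amalgamTree_isTree hφ) F

end Vale.Agent.P165.Tree
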