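import Vale.Agent.P165.Tree.Levels

/-!
Second moments of the entries of a core.
-/

open Finset
open scoped ENNReal

namespace Vale.Agent.P165.Tree.Act

open Vale.Agent.P165.Quot

variable {W V Γ : Type*} [Group Γ] [MulAction Γ W] [MulAction Γ V] {H : SimpleGraph W}
  [DecidableEq W] [H.LocallyFinite] {T : SimpleGraph V} (Ac : Act (Γ := Γ) H T)

/-- The bound on an entry mean from a point at tree distance `k` from a start at distance `n`. -/
noncomputable def farMean (D Rc : ℕ) (p : ℝ) (d : ℕ) : ℝ≥0∞ :=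
  Ac.meanFar D p (d - Rc) + if d ≤ 2 * Rc then (∑ j ∈ range (Rc + 1), Ac.level p j) else 0

section General

omit [H.LocallyFinite] in
/-- The tree-graph bound inside a prescribed set of edges. -/
theorem prob_two_le_in {p : ℝ} (h0 : 0 ≤ p) (h1 : p ≤ 1) (E : Set (Sym2 W)) (x a b : W) :
    prob H p (fun S => connTo E x {a} S ∧ connTo E x {b} S) ≤
      ∑' z : W, prob H p (connTo E x {z}) * prob H p (connTo E z {a}) *
        prob H p (connTo E z {b}) := by
  refine le_trans (prob_mono h0 h1
    (B := fun S => ∃ z, Box (connTo E x {z}) (Box (connTo E z {a}) (connTo E z {b})) S) ?_)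
    ((prob_exists_le h0 h1).trans (ENNReal.tsum_le_tsum fun z => ?_))
  · rintro S - ⟨⟨a', rfl, ha⟩, ⟨b', rfl, hb⟩⟩
    obtain ⟨z, -, K₁, K₂, hK₁, hK₂, hd, c₁, L₁, L₂, hL₁, hL₂, hd', c₂, c₃⟩ := exists_branch ha hb
    have key : ∀ {u v : W} {K : Finset (Sym2 W)}, K ⊆ inPart E S → conn u v K →
        connTo E u {v} K := fun hK h =>
      ⟨_, rfl, cl_mono subset_rfl (fun e he => mem_inPart.2 ⟨he, (mem_inPart.1 (hK he)).2⟩) h⟩
    exact ⟨z, K₁, K₂, hK₁.trans (inPart_subset E S), hK₂.trans (inPart_subset E S), hd, key hK₁ c₁,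
      L₁, L₂, hL₁, hL₂, hd', key (hL₁.trans hK₂) c₂, key (hL₂.trans hK₂) c₃⟩
  · refine (prob_box_le h0 h1 (incr_connTo E x {z}) (incr_box _ _)).trans ?_
    rw [mul_assoc]
    exact mul_le_mul_right (prob_box_le h0 h1 (incr_connTo E z {a}) (incr_connTo E z {b})) _

omit [H.LocallyFinite] in
/-- The second moment of the points reached inside a prescribed set of edges. -/
theorem second_le {p : ℝ} (h0 : 0 ≤ p) (h1 : p ≤ 1) (E : Set (Sym2 W)) (x : W) (A : Set W) :
    ∑' a : A, ∑' b : A, prob H p (fun S => connTo E x {(a : W)} S ∧ connTo E x {(b : W)} S) ≤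
      ∑' z : W, prob H p (connTo E x {z}) * mean H p E z A ^ 2 := by
  refine le_trans (ENNReal.tsum_le_tsum fun a => ENNReal.tsum_le_tsum fun b =>
    prob_two_le_in (H := H) h0 h1 E x (a : W) (b : W)) (le_of_eq ?_)
  calc ∑' a : A, ∑' b : A, ∑' z : W, prob H p (connTo E x {z}) *
          prob H p (connTo E z {(a : W)}) * prob H p (connTo E z {(b : W)})
      = ∑' a : A, ∑' z : W, prob H p (connTo E x {z}) * prob H p (connTo E z {(a : W)}) *
          mean H p E z A := by
        refine tsum_congr fun a => ?_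
        rw [ENNReal.tsum_comm]
        exact tsum_congr fun z => ENNReal.tsum_mul_left
    _ = _ := by
        rw [ENNReal.tsum_comm]
        refine tsum_congr fun z => ?_
        rw [ENNReal.tsum_mul_right, ENNReal.tsum_mul_left, sq, ← mul_assoc]
        rfl

end General

omit [H.LocallyFinite] in
/-- Points within a tree distance cost at most the levels up to it. -/
lemma mean_near_le {p : ℝ} (z : W) (A : Set W) (B : ℕ)
    (hA : ∀ a ∈ A, T.dist (Ac.proj z) (Ac.proj a) ≤ B) :
    mean H p Set.univ z A ≤ ∑ j ∈ range (B + 1), Ac.level p j := by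
  rw [← Fin.sum_univ_eq_sum_range, ← tsum_fintype (L := .unconditional _)]
  refine le_trans ?_ (ENNReal.tsum_le_tsum fun j : Fin (B + 1) =>
    le_iSup (fun x => mean H p Set.univ x {w | T.dist (Ac.proj x) (Ac.proj w) = (j : ℕ)}) z)
  simp only [mean]
  rw [← ENNReal.tsum_sigma' fun t : Σ j : Fin (B + 1),
    {w | T.dist (Ac.proj z) (Ac.proj w) = (j : ℕ)} => prob H p (connTo Set.univ z {(t.2 : W)})]
  exact ENNReal.tsum_comp_le_tsum_of_injective
    (f := fun a : A => (⟨⟨T.dist (Ac.proj z) (Ac.proj (a : W)), Nat.lt_succ_of_le (hA a a.2)⟩,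
      (a : W), rfl⟩ : Σ j : Fin (B + 1), {w | T.dist (Ac.proj z) (Ac.proj w) = (j : ℕ)}))
    (fun a b h => Subtype.ext (congrArg (fun t : Σ j : Fin (B + 1),
      {w | T.dist (Ac.proj z) (Ac.proj w) = (j : ℕ)} => (t.2 : W)) h)) _

omit [H.LocallyFinite] in
/-- A point reached from outside while avoiding the inside of a core is shallow. -/
lemma shallow_of_reached {D : ℕ} {p : ℝ} {x z : W} {e : V × V} (he : T.Adj e.1 e.2)
    (hx : Ac.proj x ∉ cone T e) (hz : Ac.proj z ∈ cone T e)
    (hne : prob H p (connTo (Ac.outE D e) x {z}) ≠ 0) :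
    T.dist e.2 (Ac.proj z) ≤ D + Ac.R := by
  by_contra hlt
  refine hne (le_antisymm (prob_le fun U hU => ?_) zero_le)
  rw [pr_congr (R := fun _ => False) fun S hS => iff_false_intro ?_]
  · simp [pr]
  rintro ⟨w, rfl, hw⟩
  obtain ⟨a, -, -, ha⟩ := mem_cl_iff_out hw (fun h => hx ((Set.mem_singleton_iff.1 h) ▸ hz))
  obtain ⟨haS, haE⟩ := mem_inPart.1 ha
  have hab : H.Adj a w := hU (Finset.mem_coe.2 (hS haS))
  have hcore : w ∈ Ac.core D e := Ac.mem_core_of_deep hz (by omega)
  rcases Ac.mem_outE.1 haE with h | h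
  · by_cases hc : Ac.proj a ∈ cone T e
    · exact h (Ac.core_step hcore hc hab.symm)
    · have h2 := dist_through Ac.isTree he hz hc
      have h3 := Ac.jump _ _ hab.symm
      rw [SimpleGraph.dist_comm (u := Ac.proj w) (v := e.2)] at h2
      omega
  · exact h hcore

/-- What an entry mean from a branch point is compared with. -/
noncomputable def branchMean (D Rc : ℕ) (p : ℝ) (e : V × V) (z : W) : ℝ≥0∞ :=
  open Classical in
  if Ac.proj z ∈ cone T e then ∑ j ∈ range (Rc + 1), Ac.level p j else Ac.halfMean D p z e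

omit [H.LocallyFinite] in
lemma branch_le {D : ℕ} {p : ℝ} (h0 : 0 ≤ p) (h1 : p ≤ 1) {x z : W} {e : V × V}
    (he : T.Adj e.1 e.2) (hx : Ac.proj x ∉ cone T e)
    (hne : prob H p (connTo (Ac.outE D e) x {z}) ≠ 0) :
    Ac.halfMean D p z e ≤ Ac.branchMean D (D + 2 * Ac.R + 1) p e z ∧
      Ac.halfMean D p z e ≤ Ac.farMean D (D + 2 * Ac.R + 1) p
        (Nat.dist (T.dist (Ac.proj x) (Ac.proj z)) (T.dist (Ac.proj x) e.1)) := by
  classical
  unfold branchMean farMean
  by_cases hz : Ac.proj z ∈ cone T e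
  · have hs := Ac.shallow_of_reached he hx hz hne
    have hmean : Ac.halfMean D p z e ≤
        ∑ j ∈ range (D + 2 * Ac.R + 1 + 1), Ac.level p j := by
      refine (ENNReal.tsum_le_tsum fun a =>
        prob_connTo_mono h0 h1 (Set.subset_univ _) subset_rfl z).trans
        (Ac.mean_near_le z (Ac.entry D e) _ fun a ha => ?_)
      have h2 := Ac.gate_near he (Ac.entry_subset_gate ha)
      have h3 := Ac.isTree.connected.dist_triangle (u := Ac.proj z) (v := e.2) (w := Ac.proj a)
      rw [SimpleGraph.dist_comm (u := Ac.proj z) (v := e.2),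
        SimpleGraph.dist_comm (u := e.2) (v := Ac.proj a)] at h3
      omega
    have h4 := dist_through Ac.isTree he hz hx
    rw [SimpleGraph.dist_comm (u := Ac.proj z) (v := Ac.proj x),
      SimpleGraph.dist_comm (u := Ac.proj z) (v := e.2),
      SimpleGraph.dist_comm (u := e.1) (v := Ac.proj x)] at h4
    refine ⟨by rwa [if_pos hz], le_add_left ?_⟩
    rwa [if_pos (by unfold Nat.dist; omega)]
  · refine ⟨by rw [if_neg hz], le_add_right (Ac.halfMean_le_meanFar he hz ?_)⟩
    have h2 := Ac.isTree.connected.dist_triangle (u := Ac.proj x) (v := Ac.proj z) (w := e.1)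
    have h3 := Ac.isTree.connected.dist_triangle (u := Ac.proj x) (v := e.1) (w := Ac.proj z)
    rw [SimpleGraph.dist_comm (u := e.1) (v := Ac.proj z)] at h3
    unfold Nat.dist
    omega

omit [H.LocallyFinite] in
/-- A weighted sum over all points, grouped by the distance to the start. -/
lemma tsum_by_level (p : ℝ) (x : W) (F : ℕ → ℝ≥0∞) :
    ∑' z : W, prob H p (connTo Set.univ x {z}) * F (T.dist (Ac.proj x) (Ac.proj z)) ≤
      ∑' k : ℕ, Ac.level p k * F k := by
  set d := fun z : W => T.dist (Ac.proj x) (Ac.proj z)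
  rw [← (Equiv.sigmaFiberEquiv d).tsum_eq fun z => prob H p (connTo Set.univ x {z}) * F (d z),
    ENNReal.tsum_sigma']
  refine ENNReal.tsum_le_tsum fun k => ?_
  calc ∑' z : {z // d z = k}, prob H p (connTo Set.univ x {(z : W)}) * F (d z)
      = ∑' z : {z // d z = k}, prob H p (connTo Set.univ x {(z : W)}) * F k :=
        tsum_congr fun z => by rw [z.2]
    _ = (∑' z : {z // d z = k}, prob H p (connTo Set.univ x {(z : W)})) * F k :=
        ENNReal.tsum_mul_right
    _ ≤ _ := mul_le_mul_left (le_iSup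
        (fun x => mean H p Set.univ x {w | T.dist (Ac.proj x) (Ac.proj w) = k}) x) _

/-- Layer cake for the entries with the tree-graph second moment. -/
theorem exists_halfMean_le (_hH : H.Connected) (D : ℕ) : ∃ Rc : ℕ, ∀ p, 0 ≤ p → p ≤ 1 →
    ∀ (x : W) (e : V × V) (K : ℕ), T.Adj e.1 e.2 → Ac.proj x ∉ cone T e → 0 < K →
      Ac.halfMean D p x e ≤ (∑ i ∈ range K, Ac.halfTail D p x e (i + 1)) +
        (∑' k : ℕ, Ac.level p k *
          Ac.farMean D Rc p (Nat.dist k (T.dist (Ac.proj x) e.1)) ^ 2) / K := by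
  refine ⟨D + 2 * Ac.R + 1, fun p h0 h1 x e K he hx hK => ?_⟩
  refine (mean_le_tails h0 h1 _ x _ hK).trans (add_le_add le_rfl (ENNReal.div_le_div_right ?_ _))
  refine (second_le h0 h1 _ x _).trans (le_trans ?_ (Ac.tsum_by_level p x _))
  refine ENNReal.tsum_le_tsum fun z => ?_
  by_cases hne : prob H p (connTo (Ac.outE D e) x {z}) = 0
  · simp [hne]
  · refine mul_le_mul' (prob_connTo_mono h0 h1 (Set.subset_univ _) subset_rfl x) ?_
    exact pow_le_pow_left₀ zero_le (Ac.branch_le h0 h1 he hx hne).2 2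

omit [H.LocallyFinite] in
/-- The branch means summed over a sphere. -/
lemma sum_branch_le (D Rc : ℕ) (p : ℝ) (o : V) (n : ℕ) (z : W) :
    ∑' e : away T o n, Ac.branchMean D Rc p e z ≤
      ∑ l ∈ range (T.dist o (Ac.proj z) + n + 1),
        (Ac.meanSphere D p l + ∑ j ∈ range (Rc + 1), Ac.level p j) := by
  classical
  set B := T.dist o (Ac.proj z) + n
  set Λ := ∑ j ∈ range (Rc + 1), Ac.level p j
  calc ∑' e : away T o n, Ac.branchMean D Rc p e z
      ≤ ∑' e : away T o n, ((if Ac.proj z ∈ cone T (e : V × V) then Λ else 0) +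
          if Ac.proj z ∈ cone T (e : V × V) then 0 else Ac.halfMean D p z e) :=
        ENNReal.tsum_le_tsum fun e => by unfold branchMean; split_ifs <;> simp [Λ]
    _ ≤ Λ + ∑ l ∈ range (B + 1), Ac.meanSphere D p l := by
        rw [ENNReal.tsum_add]
        refine add_le_add ?_ ?_
        · by_cases h : ∃ e : away T o n, Ac.proj z ∈ cone T (e : V × V)
          · obtain ⟨e, he⟩ := h
            rw [tsum_eq_single e fun e' hne => if_neg fun he' => ?_]
            · simp [he]
            rcases eq_or_disjoint_of_dist Ac.isTree e'.2.1 e.2.1 e'.2.2.1 e.2.2.1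
              (e'.2.2.2.trans e.2.2.2.symm) with h | h
            · exact hne (Subtype.ext h)
            · exact Set.disjoint_left.1 h he' he
          · push Not at h
            simp [h]
        · refine le_trans (le_of_eq ?_) (le_trans
            (ENNReal.tsum_comp_le_tsum_of_injective
              (f := fun t : Σ e : {e : away T o n // Ac.proj z ∉ cone T (e : V × V)},
                  Ac.entry D (e.1 : V × V) =>
                (⟨((t.1.1 : V × V), (t.2 : W)), t.1.1.2.1, t.1.2, ?_, t.2.2⟩ :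
                  Ac.EntriesNear D (Ac.proj z) B))
              (fun t t' h => ?_) _) (Ac.entries_near_le D p z B))
          · rw [ENNReal.tsum_sigma']
            refine Eq.trans ?_ (tsum_subtype
              ({e | Ac.proj z ∉ cone T (e : V × V)} : Set (away T o n))
              fun e => Ac.halfMean D p z e).symm
            refine tsum_congr fun e => ?_
            by_cases h : Ac.proj z ∈ cone T (e : V × V) <;> simp [h, Set.indicator]
          · have h2 := Ac.isTree.connected.dist_triangle (u := Ac.proj z) (v := o)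
              (w := (t.1.1 : V × V).1)
            rw [SimpleGraph.dist_comm (u := Ac.proj z) (v := o), t.1.1.2.2.2] at h2
            exact h2
          · obtain ⟨⟨⟨e, he⟩, h₁⟩, a, ha⟩ := t
            obtain ⟨⟨⟨e', he'⟩, h₂⟩, a', ha'⟩ := t'
            have h' := congrArg Subtype.val h
            simp only [Prod.mk.injEq] at h'
            obtain ⟨rfl, rfl⟩ := h'
            rfl
    _ ≤ _ := by
        rw [sum_add_distrib, add_comm]
        exact add_le_add le_rfl
          (single_le_sum (f := fun _ => Λ) (fun _ _ => zero_le) (mem_range.2 (Nat.succ_pos B)))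

/-- The same summed over a sphere. -/
theorem exists_meanSphere_le (_hH : H.Connected) (D : ℕ) : ∃ Rc : ℕ, ∀ p, 0 ≤ p → p ≤ 1 →
    ∀ (n K : ℕ), 0 < K →
      Ac.meanSphere D p n ≤ (∑ i ∈ range K,
          ⨆ x : W, ∑' e : away T (Ac.proj x) n, Ac.halfTail D p x e (i + 1)) +
        (∑' k : ℕ, Ac.level p k * Ac.farMean D Rc p (Nat.dist k n) *
          ∑ l ∈ range (k + n + 1),
            (Ac.meanSphere D p l + (∑ j ∈ range (Rc + 1), Ac.level p j))) / K := by
  refine ⟨D + 2 * Ac.R + 1, fun p h0 h1 n K hK => iSup_le fun x => ?_⟩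
  set Rc := D + 2 * Ac.R + 1
  refine (ENNReal.tsum_le_tsum fun e : away T (Ac.proj x) n =>
    mean_le_tails h0 h1 (Ac.outE D e) x (Ac.entry D (e : V × V)) hK).trans ?_
  simp only [ENNReal.tsum_add, div_eq_mul_inv, ENNReal.tsum_mul_right]
  refine add_le_add ?_ (mul_le_mul_left ?_ _)
  · rw [Summable.tsum_finsetSum fun i _ => ENNReal.summable]
    exact sum_le_sum fun i _ =>
      le_iSup (fun x : W => ∑' e : away T (Ac.proj x) n, Ac.halfTail D p x e (i + 1)) x
  set F := fun k => Ac.farMean D Rc p (Nat.dist k n) *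
    ∑ l ∈ range (k + n + 1), (Ac.meanSphere D p l + ∑ j ∈ range (Rc + 1), Ac.level p j)
  have hterm : ∀ (e : away T (Ac.proj x) n) (z : W),
      prob H p (connTo (Ac.outE D e) x {z}) * mean H p (Ac.outE D e) z (Ac.entry D e) ^ 2 ≤
        prob H p (connTo Set.univ x {z}) *
          (Ac.farMean D Rc p (Nat.dist (T.dist (Ac.proj x) (Ac.proj z)) n) *
            Ac.branchMean D Rc p e z) := by
    intro e z
    by_cases hne : prob H p (connTo (Ac.outE D e) x {z}) = 0
    · simp [hne]
    obtain ⟨hb, hf⟩ := Ac.branch_le h0 h1 e.2.1 e.2.2.1 hne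
    rw [e.2.2.2] at hf
    rw [sq]
    exact mul_le_mul' (prob_connTo_mono h0 h1 (Set.subset_univ _) subset_rfl x)
      (mul_le_mul' hf hb)
  calc _ ≤ ∑' e : away T (Ac.proj x) n, ∑' z : W, prob H p (connTo Set.univ x {z}) *
          (Ac.farMean D Rc p (Nat.dist (T.dist (Ac.proj x) (Ac.proj z)) n) *
            Ac.branchMean D Rc p e z) :=
        ENNReal.tsum_le_tsum fun e =>
          (second_le h0 h1 _ x _).trans (ENNReal.tsum_le_tsum (hterm e))
    _ ≤ ∑' z : W, prob H p (connTo Set.univ x {z}) * F (T.dist (Ac.proj x) (Ac.proj z)) := by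
        rw [ENNReal.tsum_comm]
        refine ENNReal.tsum_le_tsum fun z => ?_
        rw [ENNReal.tsum_mul_left, ENNReal.tsum_mul_left]
        exact mul_le_mul_right (mul_le_mul_right (Ac.sum_branch_le D Rc p _ n z) _) _
    _ ≤ ∑' k : ℕ, Ac.level p k * F k := Ac.tsum_by_level p x F
    _ = _ := tsum_congr fun k => (mul_assoc _ _ _).symm

end Vale.Agent.P165.Tree.Act
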