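import Vale.Agent.P165.Tree.Basic
import Vale.Agent.P165.Tree.Wkn
import Vale.Agent.P165.SharpCor
import Vale.Agent.P165.Quot.Series

/-!
The bound on codes up to the threshold, the exponent, and antichains of entries.
-/

open Finset
open scoped ENNReal

namespace Vale.Agent.P165.Tree.Act

open Vale.Agent.P165.Quot

variable {W V Γ : Type*} [Group Γ] [MulAction Γ W] [MulAction Γ V] {H : SimpleGraph W}
  [DecidableEq W] [H.LocallyFinite] {T : SimpleGraph V} (Ac : Act (Γ := Γ) H T)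

omit [H.LocallyFinite] in
lemma prob_cls_smul (p : ℝ) (g : Γ) (x : W) (e : V × V) :
    prob H p (connTo Set.univ (g • x) (Ac.cls (g • e))) =
      prob H p (connTo Set.univ x (Ac.cls e)) := by
  have hu : Sym2.map (Ac.actW g) '' (Set.univ : Set (Sym2 W)) = Set.univ :=
    Set.image_univ_of_surjective fun s => ⟨Sym2.map (Ac.actW g).symm s, by
      induction s with
      | h a b => simp only [Sym2.map_mk, RelIso.apply_symm_apply]⟩
  have h := prob_connTo_iso (p := p) (Ac.actW g) Set.univ x (Ac.cls e)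
  rwa [hu, Ac.smul_cls, Ac.actW_apply] at h

omit [DecidableEq W] [H.LocallyFinite] in
lemma base_mem_cls (g : Γ) : g • Ac.r₀ ∈ Ac.cls (g • Ac.f₀) := ⟨g, rfl, rfl⟩

omit [H.LocallyFinite] in
lemma pow_le_cls {p : ℝ} (h0 : 0 ≤ p) (h1 : p ≤ 1) {g : Γ} {x : W}
    (q : H.Walk x (g • Ac.r₀)) :
    ENNReal.ofReal p ^ q.length ≤ prob H p (connTo Set.univ x (Ac.cls (g • Ac.f₀))) := by
  have h := walk_mul_le h0 h1 q (fun e _ => Set.mem_univ e) (Ac.cls (g • Ac.f₀))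
  rwa [prob_connTo_self h0 h1 _ (Ac.base_mem_cls g), mul_one] at h

/-- The sum over all half-trees below the base one. -/
noncomputable def below₀ (p t : ℝ) : ℝ≥0∞ :=
  ∑' e : {e : V × V // T.Adj e.1 e.2 ∧ cone T e ⊆ cone T Ac.f₀}, Ac.Q p e.1 ^ t

omit [H.LocallyFinite] in
lemma one_le_below₀ {p t : ℝ} (h0 : 0 ≤ p) (h1 : p ≤ 1) : 1 ≤ Ac.below₀ p t := by
  refine le_trans (le_of_eq ?_) (ENNReal.le_tsum
    (⟨Ac.f₀, Ac.f₀_adj, subset_rfl⟩ : {e : V × V // T.Adj e.1 e.2 ∧ cone T e ⊆ cone T Ac.f₀}))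
  rw [Q, prob_connTo_self h0 h1 _ (show Ac.r₀ ∈ Ac.cls Ac.f₀ from ⟨1, one_smul _ _, one_smul _ _⟩),
    ENNReal.one_rpow]

omit [H.LocallyFinite] in
/-- A code multiplies the sum over all half-trees below the base one. -/
lemma code_mul_below₀_le {p t : ℝ} (h0 : 0 ≤ p) (h1 : p ≤ 1) (ht0 : 0 < t) (ht1 : t ≤ 1)
    (A : Finset (V × V)) (hA : ∀ e ∈ A, T.Adj e.1 e.2 ∧ cone T e ⊆ cone T Ac.f₀)
    (hd : ∀ e ∈ A, ∀ e' ∈ A, e ≠ e' → Disjoint (cone T e) (cone T e')) :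
    (∑ e ∈ A, Ac.Q p e ^ t) * Ac.below₀ p t ≤ Ac.below₀ p t := by
  classical
  let J : V × V → Type _ := fun e => {e' : V × V // T.Adj e'.1 e'.2 ∧ cone T e' ⊆ cone T e}
  have step : ∀ e, Ac.Q p e ^ t * Ac.below₀ p t ≤ ∑' e' : J e, Ac.Q p e'.1 ^ t := by
    intro e
    refine prob_rpow_mul_le_tsum h0 h1 ht0 ht1 Set.univ Ac.r₀ (Ac.cls e)
      (fun e' : J e => Ac.cls e'.1) fun u hu => ?_
    obtain ⟨g, rfl, rfl⟩ := hu
    let φ : J Ac.f₀ ≃ J (g • Ac.f₀) := (MulAction.toPerm g).subtypeEquiv fun e' =>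
      and_congr (Ac.tree_smul g _ _).symm (Ac.cone_smul_subset g e' Ac.f₀).symm
    refine le_of_eq ?_
    rw [← φ.tsum_eq]
    exact tsum_congr fun e' => congrArg (· ^ t) (Ac.prob_cls_smul p g Ac.r₀ e'.1).symm
  rw [sum_mul]
  refine (sum_le_sum fun e _ => step e).trans ?_
  rw [← Finset.tsum_subtype A (fun e => ∑' e' : J e, Ac.Q p e'.1 ^ t),
    ← ENNReal.tsum_sigma (fun (e : A) (e' : J e.1) => Ac.Q p e'.1 ^ t)]
  let f : (Σ e : A, J e.1) → J Ac.f₀ := fun z => ⟨z.2.1, z.2.2.1, z.2.2.2.trans (hA _ z.1.2).2⟩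
  have hf : Function.Injective f := by
    rintro ⟨⟨e, he⟩, ⟨a, ha, hae⟩⟩ ⟨⟨e', he'⟩, ⟨a', ha', hae'⟩⟩ h
    obtain rfl : a = a' := congrArg Subtype.val h
    obtain rfl : e = e' := by_contra fun hne =>
      Set.disjoint_left.1 (hd e he e' he' hne) (hae (self_mem_cone ha)) (hae' (self_mem_cone ha))
    rfl
  exact ENNReal.tsum_comp_le_tsum_of_injective hf (fun e' : J Ac.f₀ => Ac.Q p e'.1 ^ t)

include Ac in
lemma below₀_one_lt_top (hH : H.Connected) {p : ℝ} (h0 : 0 ≤ p) (h1 : p ≤ 1) (hp : p < pc H) :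
    Ac.below₀ p 1 ≠ ⊤ := by
  classical
  obtain ⟨C, hC⟩ := sharp_susceptibility hH Ac.quasiTransitive ⟨p, h0, h1⟩ hp
  refine ne_top_of_le_ne_top (ENNReal.ofReal_ne_top (r := C)) ?_
  simp only [below₀, ENNReal.rpow_one]
  calc ∑' e : {e : V × V // T.Adj e.1 e.2 ∧ cone T e ⊆ cone T Ac.f₀}, Ac.Q p e.1
      ≤ ∑' (e : {e : V × V // T.Adj e.1 e.2 ∧ cone T e ⊆ cone T Ac.f₀}) (z : Ac.cls e.1),
          prob H p (connTo Set.univ Ac.r₀ {(z : W)}) :=
        ENNReal.tsum_le_tsum fun e => prob_connTo_le_mean h0 h1 _ _ _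
    _ = ∑' z : Σ e : {e : V × V // T.Adj e.1 e.2 ∧ cone T e ⊆ cone T Ac.f₀}, Ac.cls e.1,
          prob H p (connTo Set.univ Ac.r₀ {(z.2 : W)}) := (ENNReal.tsum_sigma
          fun (e : {e : V × V // T.Adj e.1 e.2 ∧ cone T e ⊆ cone T Ac.f₀}) (z : Ac.cls e.1) =>
            prob H p (connTo Set.univ Ac.r₀ {(z : W)})).symm
    _ ≤ ∑' z : W, prob H p (connTo Set.univ Ac.r₀ {z}) := by
        refine ENNReal.tsum_comp_le_tsum_of_injective (f := fun z :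
          Σ e : {e : V × V // T.Adj e.1 e.2 ∧ cone T e ⊆ cone T Ac.f₀}, Ac.cls e.1 => (z.2 : W))
          ?_ fun z => prob H p (connTo Set.univ Ac.r₀ {z})
        rintro ⟨e, z, hz⟩ ⟨e', z', hz'⟩ h
        obtain rfl : z = z' := h
        obtain rfl : e = e' := Subtype.ext (Ac.cls_unique hz hz')
        rfl
    _ ≤ ENNReal.ofReal C := by
        rw [ENNReal.tsum_eq_iSup_sum]
        refine iSup_le fun Λ => ?_
        simp only [prob, iSup_subtype']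
        refine sum_iSup_le Λ _ fun f => ?_
        let U : Finset (Sym2 W) := Λ.biUnion fun z => (f z).1
        have hU : ↑U ⊆ H.edgeSet := by
          intro e he
          obtain ⟨z, -, hz⟩ := mem_biUnion.1 (Finset.mem_coe.1 he)
          exact (f z).2 hz
        rw [← ENNReal.ofReal_sum_of_nonneg fun z _ => pr_nonneg h0 h1 _ _]
        refine ENNReal.ofReal_le_ofReal ((sum_le_sum fun z hz => ?_).trans ((hC Ac.r₀ Λ).1 U hU))
        refine (pr_mono_set h0 h1 (subset_biUnion_of_mem (fun z => (f z).1) hz)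
          (incr_connTo _ _ _)).trans (pr_mono h0 h1 ?_)
        rintro S _ ⟨y, rfl, hy⟩
        exact cl_mono subset_rfl (inPart_subset _ _) hy

/-- Below the threshold a code has sum at most one. -/
lemma code_le_one (hH : H.Connected) {p : ℝ} (h0 : 0 ≤ p) (h1 : p ≤ 1) (hp : p < pc H)
    (A : Finset (V × V)) (hA : ∀ e ∈ A, T.Adj e.1 e.2 ∧ cone T e ⊆ cone T Ac.f₀)
    (hd : ∀ e ∈ A, ∀ e' ∈ A, e ≠ e' → Disjoint (cone T e) (cone T e')) :
    ∑ e ∈ A, Ac.Q p e ≤ 1 := by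
  have h := Ac.code_mul_below₀_le h0 h1 one_pos le_rfl A hA hd
  simp only [ENNReal.rpow_one] at h
  have hne : Ac.below₀ p 1 ≠ 0 := (lt_of_lt_of_le one_pos (Ac.one_le_below₀ h0 h1)).ne'
  have htop := Ac.below₀_one_lt_top hH h0 h1 hp
  calc ∑ e ∈ A, Ac.Q p e = (∑ e ∈ A, Ac.Q p e) * Ac.below₀ p 1 / Ac.below₀ p 1 :=
        (ENNReal.mul_div_cancel_right hne htop).symm
    _ ≤ Ac.below₀ p 1 / Ac.below₀ p 1 := ENNReal.div_le_div_right h _
    _ = 1 := ENNReal.div_self hne htop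

omit [H.LocallyFinite] in
/-- Two disjoint standard half-trees below the base one, met at a cost. -/
lemma exists_two (hH : H.Connected) : ∃ (A : Finset (V × V)) (L : ℕ), A.card = 2 ∧
    (∀ e ∈ A, T.Adj e.1 e.2 ∧ cone T e ⊆ cone T Ac.f₀) ∧
    (∀ e ∈ A, ∀ e' ∈ A, e ≠ e' → Disjoint (cone T e) (cone T e')) ∧
    ∀ p, 0 ≤ p → p ≤ 1 → ∀ e ∈ A, ENNReal.ofReal (p ^ L) ≤ Ac.Q p e := by
  classical
  obtain ⟨g, -, g', -, hg, hg', hd⟩ := Ac.above Ac.f₀ Ac.f₀_adj (self_mem_cone Ac.f₀_adj)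
  have hadj : ∀ k : Γ, T.Adj (k • Ac.f₀).1 (k • Ac.f₀).2 :=
    fun k => (Ac.tree_smul k _ _).2 Ac.f₀_adj
  have hne : g • Ac.f₀ ≠ g' • Ac.f₀ := fun h => Set.disjoint_left.1 (h ▸ hd)
    (self_mem_cone (hadj g')) (self_mem_cone (hadj g'))
  obtain ⟨q⟩ := hH.preconnected Ac.r₀ (g • Ac.r₀)
  obtain ⟨q'⟩ := hH.preconnected Ac.r₀ (g' • Ac.r₀)
  refine ⟨{g • Ac.f₀, g' • Ac.f₀}, max q.length q'.length, card_pair hne, ?_, ?_, ?_⟩
  · simpa using ⟨⟨hadj g, hg⟩, hadj g', hg'⟩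
  · simp only [mem_insert, mem_singleton]
    rintro e (rfl | rfl) e' (rfl | rfl) h
    exacts [absurd rfl h, hd, hd.symm, absurd rfl h]
  · intro p h0 h1
    have key : ∀ (k : Γ) (w : H.Walk Ac.r₀ (k • Ac.r₀)), w.length ≤ max q.length q'.length →
        ENNReal.ofReal (p ^ max q.length q'.length) ≤ Ac.Q p (k • Ac.f₀) := fun k w hw => by
      refine le_trans ?_ (Ac.pow_le_cls h0 h1 w)
      rw [← ENNReal.ofReal_pow h0]
      exact ENNReal.ofReal_le_ofReal (pow_le_pow_of_le_one h0 h1 hw)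
    simp only [mem_insert, mem_singleton]
    rintro e (rfl | rfl)
    exacts [key g q (le_max_left _ _), key g' q' (le_max_right _ _)]

include Ac in
theorem pc_pos_lt_one (hH : H.Connected) : 0 < pc H ∧ pc H < 1 := by
  have := Ac.infinite
  refine ⟨lt_pc_of_phiS hH Ac.quasiTransitive le_rfl one_pos fun v =>
    ⟨{v}, mem_singleton_self v, by simp [phiS]⟩, ?_⟩
  by_contra hle
  push Not at hle
  obtain ⟨A, L, hA2, hA, hd, hQ⟩ := Ac.exists_two hH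
  have hlim : Filter.Tendsto (fun p : ℝ => p ^ L) (nhdsWithin 1 (Set.Iio 1)) (nhds 1) := by
    simpa using ((continuous_pow L).tendsto (1 : ℝ)).mono_left nhdsWithin_le_nhds
  obtain ⟨p, hp2, hp0, hp1⟩ := ((hlim.eventually (eventually_gt_nhds
    (show (1 / 2 : ℝ) < 1 by norm_num))).and (Ioo_mem_nhdsLT (zero_lt_one' ℝ))).exists
  refine absurd (Ac.code_le_one hH hp0.le hp1.le (hp1.trans_le hle) A hA hd) (not_le.2 ?_)
  calc (1 : ℝ≥0∞) = ENNReal.ofReal 1 := ENNReal.ofReal_one.symm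
    _ < ENNReal.ofReal (2 * p ^ L) := (ENNReal.ofReal_lt_ofReal_iff (by positivity)).2 (by linarith)
    _ = A.card • ENNReal.ofReal (p ^ L) := by
        rw [hA2, two_nsmul, two_mul, ENNReal.ofReal_add (by positivity) (by positivity)]
    _ ≤ _ := card_nsmul_le_sum A _ _ (hQ p hp0.le hp1.le)

theorem exists_good (hH : H.Connected) : ∃ t, 0 < t ∧ t ≤ 1 ∧ Ac.Good (pc H) t := by
  obtain ⟨hp0, hp1⟩ := Ac.pc_pos_lt_one hH
  obtain ⟨A, L, hA2, hA, hd, hQ⟩ := Ac.exists_two hH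
  have hq : 0 < pc H ^ L := pow_pos hp0 L
  have hlim : Filter.Tendsto (fun t : ℝ => (pc H ^ L) ^ t) (nhdsWithin 0 (Set.Ioi 0)) (nhds 1) := by
    simpa using ((Real.continuous_const_rpow hq.ne').tendsto (0 : ℝ)).mono_left nhdsWithin_le_nhds
  obtain ⟨t, ht, ht0, ht1⟩ := ((hlim.eventually (eventually_gt_nhds
    (show (1 / 2 : ℝ) < 1 by norm_num))).and (Ioo_mem_nhdsGT (zero_lt_one' ℝ))).exists
  refine ⟨t, ht0, ht1.le, A, hA, hd, ?_⟩
  calc (1 : ℝ≥0∞) = ENNReal.ofReal 1 := ENNReal.ofReal_one.symm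
    _ < ENNReal.ofReal (2 * (pc H ^ L) ^ t) :=
        (ENNReal.ofReal_lt_ofReal_iff (by positivity)).2 (by linarith)
    _ = A.card • ENNReal.ofReal (pc H ^ L) ^ t := by
        rw [hA2, two_nsmul, two_mul, ENNReal.ofReal_add (by positivity) (by positivity),
          ENNReal.ofReal_rpow_of_nonneg hq.le ht0.le]
    _ ≤ _ := card_nsmul_le_sum A _ _ fun e he =>
        ENNReal.rpow_le_rpow (hQ _ hp0.le hp1.le e he) ht0.le

omit [H.LocallyFinite] in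
theorem good_mono {p t u : ℝ} (h0 : 0 ≤ p) (h1 : p ≤ 1) (_hu : 0 < u) (hut : u ≤ t)
    (h : Ac.Good p t) : Ac.Good p u := by
  obtain ⟨A, hA, hd, hlt⟩ := h
  exact ⟨A, hA, hd, hlt.trans_le (sum_le_sum fun e _ =>
    ENNReal.rpow_le_rpow_of_exponent_ge (prob_le_one h0 h1 _) hut)⟩

theorem not_good_one (hH : H.Connected) : ¬ Ac.Good (pc H) 1 := by
  rintro ⟨A, hA, hd, hlt⟩
  obtain ⟨hp0, hp1⟩ := Ac.pc_pos_lt_one hH
  refine absurd (sum_prob_rpow_le_of_lt A (fun e => connTo Set.univ Ac.r₀ (Ac.cls e)) one_pos hp0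
    fun q hq hqp => ?_) (not_le.2 hlt)
  simpa [Q] using Ac.code_le_one hH hq (hqp.trans hp1).le hqp A hA hd

/-- Without goodness, disjoint standard half-trees have bounded sum of powers from every point. -/
theorem exists_cls_bound (hH : H.Connected) {t : ℝ} (ht0 : 0 < t)
    (hG : ¬ Ac.Good (pc H) t) : ∃ C : ℝ≥0∞, C ≠ ⊤ ∧ ∀ (x : W) (A : Finset (V × V)),
      (∀ e ∈ A, T.Adj e.1 e.2 ∧ Ac.proj x ∉ cone T e) →
      (∀ e ∈ A, ∀ e' ∈ A, e ≠ e' → Disjoint (cone T e) (cone T e')) →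
      ∑ e ∈ A, prob H (pc H) (connTo Set.univ x (Ac.cls e)) ^ t ≤ C := by
  classical
  obtain ⟨hp0, hp1⟩ := Ac.pc_pos_lt_one hH
  set p := pc H with hp
  let w : (r : W) → (m : Γ) → H.Walk Ac.r₀ (m⁻¹ • r) := fun r m => (hH.preconnected _ _).some
  let K : W → Γ → ℝ≥0∞ := fun r m => ((ENNReal.ofReal p ^ (w r m).length) ^ t)⁻¹
  have hpl : ∀ n : ℕ, (ENNReal.ofReal p ^ n) ^ t ≠ 0 ∧ (ENNReal.ofReal p ^ n) ^ t ≠ ⊤ := fun n =>
    ⟨by simp [ENNReal.rpow_eq_zero_iff, hp0, ht0.not_gt],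
      ENNReal.rpow_ne_top_of_nonneg ht0.le (ENNReal.pow_ne_top ENNReal.ofReal_ne_top)⟩
  refine ⟨∑ r ∈ Ac.reps, ∑ m ∈ Ac.moves, K r m, ENNReal.sum_ne_top.2 fun r _ =>
    ENNReal.sum_ne_top.2 fun m _ => ENNReal.inv_ne_top.2 (hpl _).1, fun x A hA hd => ?_⟩
  obtain ⟨g, r, hr, rfl⟩ := Ac.cover x
  refine le_trans ?_ (single_le_sum (f := fun r => ∑ m ∈ Ac.moves, K r m) (fun _ _ => zero_le) hr)
  have hb : ∀ e ∈ A, ∃ m ∈ Ac.moves, cone T (g⁻¹ • e) ⊆ cone T (m • Ac.f₀) := by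
    intro e he
    refine Ac.below _ ((Ac.tree_smul g⁻¹ _ _).2 (hA e he).1) fun h => (hA e he).2 ?_
    have h' := (Ac.mem_cone_smul g (g⁻¹ • e) Ac.f₀.2).2 h
    rwa [smul_inv_smul, ← Ac.proj_rep r hr, ← Ac.proj_smul] at h'
  calc ∑ e ∈ A, prob H p (connTo Set.univ (g • r) (Ac.cls e)) ^ t
      ≤ ∑ e ∈ A, ∑ m ∈ Ac.moves, if cone T (g⁻¹ • e) ⊆ cone T (m • Ac.f₀) then
          prob H p (connTo Set.univ (g • r) (Ac.cls e)) ^ t else 0 := sum_le_sum fun e he => by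
        obtain ⟨m, hm, hme⟩ := hb e he
        refine le_of_eq_of_le ?_ (single_le_sum (fun _ _ => zero_le) hm)
        rw [if_pos hme]
    _ = ∑ m ∈ Ac.moves, ∑ e ∈ A.filter (fun e => cone T (g⁻¹ • e) ⊆ cone T (m • Ac.f₀)),
          prob H p (connTo Set.univ (g • r) (Ac.cls e)) ^ t := by
        rw [sum_comm]
        simp only [sum_filter]
    _ ≤ ∑ m ∈ Ac.moves, K r m := sum_le_sum fun m _ => ?_
  set k : Γ := m⁻¹ * g⁻¹ with hk
  let A' : Finset (V × V) := (A.filter fun e => cone T (g⁻¹ • e) ⊆ cone T (m • Ac.f₀)).image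
    fun e => k • e
  have h1 : ∑ e ∈ A', Ac.Q p e ^ t ≤ 1 := le_of_not_gt fun h => hG ⟨A', ?_, ?_, h⟩
  · refine (ENNReal.le_inv_iff_mul_le.2 ?_)
    refine le_trans ?_ h1
    rw [sum_mul, sum_image fun a _ b _ h => MulAction.injective k h]
    refine sum_le_sum fun e _ => ?_
    rw [← Ac.prob_cls_smul p k (g • r) e, show k • g • r = m⁻¹ • r by
      rw [hk, mul_smul, inv_smul_smul], ← ENNReal.mul_rpow_of_nonneg _ _ ht0.le, mul_comm]
    exact ENNReal.rpow_le_rpow (walk_mul_le hp0.le hp1.le (w r m)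
      (fun e _ => Set.mem_univ e) _) ht0.le
  · intro e₁ he₁
    obtain ⟨e, he, rfl⟩ := mem_image.1 he₁
    obtain ⟨heA, hem⟩ := mem_filter.1 he
    refine ⟨(Ac.tree_smul k _ _).2 (hA e heA).1, ?_⟩
    have := (Ac.cone_smul_subset m⁻¹ _ _).2 hem
    rwa [inv_smul_smul, ← mul_smul] at this
  · intro a₁ ha₁ b₁ hb₁ hne
    obtain ⟨a, ha, rfl⟩ := mem_image.1 ha₁
    obtain ⟨b, hb, rfl⟩ := mem_image.1 hb₁
    exact (Ac.disjoint_cone_smul k a b).2
      (hd a (mem_filter.1 ha).1 b (mem_filter.1 hb).1 fun h => hne (congrArg _ h))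

/-- Without goodness, the entries of disjoint cores have bounded sum of powers. -/
theorem exists_entry_bound (hH : H.Connected) (D : ℕ) {t : ℝ} (ht0 : 0 < t) (ht1 : t ≤ 1)
    (hG : ¬ Ac.Good (pc H) t) : ∃ C : ℝ≥0∞, C ≠ ⊤ ∧ ∀ (x : W) (A : Finset (V × V)),
      (∀ e ∈ A, T.Adj e.1 e.2 ∧ Ac.proj x ∉ cone T e) →
      (∀ e ∈ A, ∀ e' ∈ A, e ≠ e' → Disjoint (cone T e) (cone T e')) →
      ∑ e ∈ A, prob H (pc H) (connTo Set.univ x (Ac.entry D e)) ^ t ≤ C := by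
  classical
  obtain ⟨hp0, hp1⟩ := Ac.pc_pos_lt_one hH
  obtain ⟨C₂, hC₂, hcls⟩ := Ac.exists_cls_bound hH ht0 hG
  obtain ⟨types, hty, hcov⟩ := Ac.exists_types D
  set p := pc H with hp
  have hg : ∀ τ : types, ∃ g : Γ, cone T (g • Ac.f₀) ⊆ cone T τ.1.2 := by
    intro τ
    obtain ⟨hrep, hadj, hent⟩ := hty τ.1 τ.2
    have hmem : Ac.proj τ.1.1 ∈ cone T τ.1.2 := hent.1.1
    rw [Ac.proj_rep _ hrep] at hmem
    obtain ⟨g, -, -, -, hg, -⟩ := Ac.above _ hadj hmem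
    exact ⟨g, hg⟩
  choose g hg using hg
  let w : (τ : types) → H.Walk τ.1.1 (g τ • Ac.r₀) := fun τ => (hH.preconnected _ _).some
  let c : types → ℝ≥0∞ := fun τ => (ENNReal.ofReal p ^ (w τ).length) ^ t
  have hc0 : ∀ τ, c τ ≠ 0 := fun τ => by simp [c, ENNReal.rpow_eq_zero_iff, hp0, ht0.not_gt]
  have hctop : ∀ τ, c τ ≠ ⊤ := fun τ =>
    ENNReal.rpow_ne_top_of_nonneg ht0.le (ENNReal.pow_ne_top ENNReal.ofReal_ne_top)
  refine ⟨∑ τ, C₂ / c τ, ENNReal.sum_ne_top.2 fun τ _ => ENNReal.div_ne_top hC₂ (hc0 τ),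
    fun x A hA hd => ?_⟩
  let B : types → V × V → Set W := fun τ e => {u | OfKind (Γ := Γ) τ.1 u e}
  calc ∑ e ∈ A, prob H p (connTo Set.univ x (Ac.entry D e)) ^ t
      ≤ ∑ e ∈ A, ∑ τ, prob H p (connTo Set.univ x (B τ e)) ^ t := sum_le_sum fun e he => by
        have h1 : prob H p (connTo Set.univ x (Ac.entry D e)) ≤
            ∑ τ, prob H p (connTo Set.univ x (B τ e)) := by
          refine le_trans (prob_mono hp0.le hp1.le
            (B := fun S => ∃ τ : types, connTo Set.univ x (B τ e) S) ?_)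
            ((prob_exists_le hp0.le hp1.le).trans_eq (tsum_fintype _))
          rintro S _ ⟨y, hy, hyc⟩
          obtain ⟨τ, hτ, hk⟩ := hcov e (hA e he).1 y hy
          exact ⟨⟨τ, hτ⟩, y, hk, hyc⟩
        refine (ENNReal.rpow_le_rpow (h1.trans (sum_le_rpow_sum _ _ ht0 ht1)) ht0.le).trans_eq ?_
        rw [← ENNReal.rpow_mul, one_div_mul_cancel ht0.ne', ENNReal.rpow_one]
    _ = ∑ τ, ∑ e ∈ A, prob H p (connTo Set.univ x (B τ e)) ^ t := sum_comm
    _ ≤ ∑ τ, C₂ / c τ := sum_le_sum fun τ _ => ?_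
  rw [ENNReal.le_div_iff_mul_le (.inl (hc0 τ)) (.inl (hctop τ)), sum_mul]
  let J : V × V → Type _ := fun e =>
    {e' : V × V // ∃ h : Γ, h • τ.1.2 = e ∧ h • g τ • Ac.f₀ = e'}
  have hadj : T.Adj τ.1.2.1 τ.1.2.2 := (hty τ.1 τ.2).2.1
  have hprop : ∀ e, ∀ e' : J e, T.Adj e'.1.1 e'.1.2 ∧ cone T e'.1 ⊆ cone T e ∧
      T.dist e.2 e'.1.2 = T.dist τ.1.2.2 (g τ • Ac.f₀).2 := by
    rintro e ⟨e', h, rfl, rfl⟩
    exact ⟨(Ac.tree_smul _ _ _).2 ((Ac.tree_smul _ _ _).2 Ac.f₀_adj),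
      (Ac.cone_smul_subset h _ _).2 (hg τ), Ac.dist_smul h _ _⟩
  calc ∑ e ∈ A, prob H p (connTo Set.univ x (B τ e)) ^ t * c τ
      ≤ ∑ e ∈ A, ∑' e' : J e, prob H p (connTo Set.univ x (Ac.cls e'.1)) ^ t := by
        refine sum_le_sum fun e _ => prob_rpow_mul_le_tsum hp0.le hp1.le ht0 ht1 Set.univ x (B τ e)
          (fun e' : J e => Ac.cls e'.1) ?_
        rintro u ⟨h, rfl, rfl⟩
        refine le_trans ?_ (ENNReal.le_tsum ⟨h • g τ • Ac.f₀, h, rfl, rfl⟩)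
        rw [Ac.prob_cls_smul]
        exact ENNReal.rpow_le_rpow (Ac.pow_le_cls hp0.le hp1.le (w τ)) ht0.le
    _ = ∑' z : Σ e : A, J e.1, prob H p (connTo Set.univ x (Ac.cls z.2.1)) ^ t := by
        rw [← Finset.tsum_subtype A
          (fun e => ∑' e' : J e, prob H p (connTo Set.univ x (Ac.cls e'.1)) ^ t), ENNReal.tsum_sigma']
    _ ≤ C₂ := by
        rw [ENNReal.tsum_eq_iSup_sum]
        refine iSup_le fun F => ?_
        have hsep : ∀ z z' : Σ e : A, J e.1, z ≠ z' →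
            Disjoint (cone T z.2.1) (cone T z'.2.1) ∧ z.2.1 ≠ z'.2.1 := by
          intro z z' hzz
          obtain ⟨a1, a2, a3⟩ := hprop _ z.2
          obtain ⟨b1, b2, b3⟩ := hprop _ z'.2
          have hdis : Disjoint (cone T z.2.1) (cone T z'.2.1) := by
            obtain ⟨⟨e, he⟩, e₁⟩ := z
            obtain ⟨⟨e', he'⟩, e₂⟩ := z'
            rcases eq_or_ne e e' with rfl | hne
            · refine (eq_or_disjoint_below Ac.isTree a1 b1 (hA e he).1 a2 b2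
                (a3.trans b3.symm)).resolve_left fun h => hzz ?_
              obtain rfl : e₁ = e₂ := Subtype.ext h
              rfl
            · exact (hd e he e' he' hne).mono a2 b2
          exact ⟨hdis, fun h => Set.disjoint_left.1 hdis (self_mem_cone a1)
            (h ▸ self_mem_cone a1)⟩
        have hinj : Set.InjOn (fun z : Σ e : A, J e.1 => z.2.1) ↑F :=
          fun z _ z' _ h => by_contra fun hne => (hsep z z' hne).2 h
        rw [← sum_image (f := fun e => prob H p (connTo Set.univ x (Ac.cls e)) ^ t) hinj]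
        refine hcls x _ (fun e he => ?_) fun a ha b hb hne => ?_
        · obtain ⟨z, -, rfl⟩ := mem_image.1 he
          obtain ⟨a1, a2, -⟩ := hprop _ z.2
          exact ⟨a1, fun h => (hA _ z.1.2).2 (a2 h)⟩
        · obtain ⟨z, -, rfl⟩ := mem_image.1 ha
          obtain ⟨z', -, rfl⟩ := mem_image.1 hb
          exact (hsep z z' fun h => hne (by rw [h])).1

end Vale.Agent.P165.Tree.Act
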